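import Vale.Agent.P151.Growth.Defs

/-!
# Counting big clusters along a path, and between two scales

If along a path every ball carries a share `τ` of big clusters, two apart big clusters at the ends
force an apart pair inside neighbouring balls.  A share of clusters between two scales is small, as
two such points are either apart or in one small cluster.
-/

namespace Vale.Agent.P151.Growth

open Finset Filter Vale.Agent.P165

variable {Γ : Type} [Group Γ] [DecidableEq Γ] {S : Finset Γ}

theorem prod_mem_ball : ∀ l : List {a // a ∈ S}, (l.map Subtype.val).prod ∈ ball S l.length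
  | [] => by simpa using one_mem_ball (S := S) 0
  | a :: l => by
    have h := mem_ball_add (mul_mem_ball_succ (one_mem_ball (S := S) 0) a.2) (prod_mem_ball l)
    rw [List.map_cons, List.prod_cons, List.length_cons]
    rw [one_mul] at h
    exact ball_mono (by omega) h

variable (S) in
/-- The apart pairs between the balls around `w` and `w'`, counted as a share. -/
noncomputable def apartShare (w w' : Γ) (s n : ℕ) (η : Finset (Sym2 Γ)) : ℝ :=
  mean S w s fun z => mean S w' s fun z' => ind (Apart n η z z')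

private theorem mean_nonneg_path {w : Γ} {s : ℕ} {g : Γ → ℝ} (hg : ∀ z, 0 ≤ g z) : 0 ≤ mean S w s g :=
  div_nonneg (sum_nonneg fun _ _ => hg _) (Nat.cast_nonneg _)

/-- Averages of ball averages. -/
theorem avg_mean_le (E : Finset (Sym2 Γ)) (p : ℝ) (w : Γ) (s : ℕ) {g : Γ → Finset (Sym2 Γ) → ℝ}
    {A : ℝ} (hg : ∀ b ∈ ball S s, avg E p (g (w * b)) ≤ A) :
    avg E p (fun η => mean S w s fun z => g z η) ≤ A := by
  have hV : (0 : ℝ) < (ball S s).card :=
    Nat.cast_pos.2 (card_pos.2 ⟨1, one_mem_ball s⟩)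
  simp only [mean, div_eq_inv_mul]
  rw [avg_mul, avg_sum, inv_mul_le_iff₀ hV]
  refine (sum_le_sum hg).trans (le_of_eq ?_)
  rw [sum_const, nsmul_eq_mul]

omit [Group Γ] [DecidableEq Γ] in
theorem ind_split (P Q : Prop) : ind P = ind (P ∧ Q) + ind (P ∧ ¬Q) := by
  by_cases hP : P <;> by_cases hQ : Q <;> simp [ind, hP, hQ]

/-- If every ball along a path has a share `τ` of big clusters, apart ends force apart pairs. -/
theorem one_le_pairs {n s L : ℕ} {τ : ℝ} (hτ : 0 < τ) {η : Finset (Sym2 Γ)} {u x : Γ} (w : ℕ → Γ)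
    (h : Apart n η u x) (hY : ∀ i ≤ L, τ ≤ bigMass S (w i) s n η) :
    1 ≤ (mean S (w 0) s fun z => ind (Apart n η u z)) / τ
        + (mean S (w L) s fun z => ind (Apart n η z x)) / τ
        + (∑ i ∈ range L, apartShare S (w i) (w (i + 1)) s n η) / τ ^ 2 := by
  obtain ⟨hxu, hnu, hnx⟩ := h
  set V : ℝ := ((ball S s).card : ℝ) with hV'
  have hV : 0 < V := Nat.cast_pos.2 (card_pos.2 ⟨1, one_mem_ball s⟩)
  let c : ℕ → ℝ := fun i => mean S (w i) s fun z => ind (n ≤ csize η z ∧ z ∉ cls η u)
  let d : ℕ → ℝ := fun i => mean S (w i) s fun z => ind (n ≤ csize η z ∧ z ∈ cls η u)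
  let Y : ℕ → ℝ := fun i => bigMass S (w i) s n η
  have hsum : ∀ i, d i + c i = Y i := fun i => by
    simp only [c, d, Y, bigMass, mean, ← add_div, ← sum_add_distrib]
    refine congrArg (· / _) (sum_congr rfl fun b _ => ?_)
    exact (ind_split _ _).symm
  have hc : ∀ i, 0 ≤ c i := fun i => mean_nonneg_path fun _ => ind_nonneg _
  have hd : ∀ i, 0 ≤ d i := fun i => mean_nonneg_path fun _ => ind_nonneg _
  have hY0 : ∀ i ≤ L, 0 < Y i := fun i hi => hτ.trans_le (hY i hi)
  let a : ℕ → ℝ := fun i => c i / Y i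
  have hfirst : a 0 ≤ (mean S (w 0) s fun z => ind (Apart n η u z)) / τ := by
    refine div_le_div₀ (mean_nonneg_path fun _ => ind_nonneg _) ?_ hτ (hY 0 (Nat.zero_le _))
    refine div_le_div_of_nonneg_right (sum_le_sum fun b _ => ?_) hV.le
    exact ind_mono fun hb => ⟨hb.2, hnu, hb.1⟩
  have hlast : 1 - a L ≤ (mean S (w L) s fun z => ind (Apart n η z x)) / τ := by
    have e : 1 - a L = d L / Y L := by
      simp only [a]; rw [eq_div_iff (hY0 L le_rfl).ne', sub_mul, one_mul,
        div_mul_cancel₀ _ (hY0 L le_rfl).ne']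
      linarith [hsum L]
    rw [e]
    refine div_le_div₀ (mean_nonneg_path fun _ => ind_nonneg _) ?_ hτ (hY L le_rfl)
    refine div_le_div_of_nonneg_right (sum_le_sum fun b _ => ?_) hV.le
    refine ind_mono fun hb => ⟨fun hx => hxu ?_, hb.1, hnx⟩
    rwa [cls_eq_left hb.2] at hx
  have hstep : ∀ i < L, a (i + 1) - a i ≤ apartShare S (w i) (w (i + 1)) s n η / τ ^ 2 := by
    intro i hi
    have h1 := hY0 i hi.le
    have h2 := hY0 (i + 1) hi
    have hle : a (i + 1) - a i ≤ d i * c (i + 1) / (Y i * Y (i + 1)) := by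
      have e : d i * c (i + 1) / (Y i * Y (i + 1)) = (1 - a i) * a (i + 1) := by
        simp only [a]
        rw [show d i = Y i - c i by linarith [hsum i]]
        field_simp
      have ha1 : a (i + 1) ≤ 1 := (div_le_one h2).2 (by linarith [hd (i + 1), hsum (i + 1)])
      have ha0 : 0 ≤ a i := div_nonneg (hc i) h1.le
      rw [e]; nlinarith
    refine hle.trans (div_le_div₀ (mean_nonneg_path fun _ => mean_nonneg_path fun _ => ind_nonneg _) ?_
      (by positivity) (by rw [sq]; exact mul_le_mul (hY i hi.le) (hY (i + 1) hi) hτ.le h1.le))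
    simp only [c, d, apartShare, mean]
    rw [div_mul_eq_mul_div, sum_mul]
    refine div_le_div_of_nonneg_right (sum_le_sum fun b _ => ?_) hV.le
    rw [← mul_div_assoc, mul_sum]
    refine div_le_div_of_nonneg_right (sum_le_sum fun b' _ => ?_) hV.le
    rw [← ind_and]
    refine ind_mono fun hb => ⟨fun hb' => hb.2.2 ?_, hb.1.1, hb.2.1⟩
    rwa [cls_eq_left hb.1.2] at hb'
  have htel : a L - a 0 ≤ ∑ i ∈ range L, apartShare S (w i) (w (i + 1)) s n η / τ ^ 2 := by
    rw [← sum_range_sub a L]
    exact sum_le_sum fun i hi => hstep i (mem_range.1 hi)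
  rw [sum_div]
  linarith

/-- Gluing along a path through balls that are rarely poor in big clusters. -/
theorem apartLe_path (hS : Gens S) {p : ℝ} (h0 : 0 ≤ p) (h1 : p ≤ 1) {n s R : ℕ} {τ H A : ℝ}
    (hτ : 0 < τ) (hτ1 : τ ≤ 1) (hA : ApartLe S p n (2 * s + 1) A)
    (hH : ∀ T : ℕ, ∀ᶠ M : ℕ in atTop, ∀ w ∈ ball S T,
      avg (eball S 1 M) p (fun η => ind (bigMass S w s n η < τ)) ≤ H) :
    ApartLe S p n R ((R + 1) * H + (R + 2) * A / τ ^ 2) := by
  intro T
  filter_upwards [hA (T + R + s), hH (T + R)] with M hMA hMH u hu x hx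
  set E := eball S (1 : Γ) M
  obtain ⟨l, hl, hlx⟩ := exists_word hx
  set w : ℕ → Γ := fun i => u * ((l.take i).map Subtype.val).prod with hw
  have hw0 : w 0 = u := by simp [hw]
  have hwL : w l.length = x := by simp only [hw, List.take_length, hlx, mul_inv_cancel_left]
  have hwT : ∀ i, w i ∈ ball S (T + R) := fun i =>
    ball_mono (Nat.add_le_add_left ((List.length_take_le' _ _).trans hl) _)
      (mem_ball_add hu (prod_mem_ball _))
  have hwb : ∀ i, ∀ b ∈ ball S s, w i * b ∈ ball S (T + R + s) := fun i b hb =>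
    mem_ball_add (hwT i) hb
  have hA0 : 0 ≤ A := (avg_nonneg E h0 h1 fun _ _ => ind_nonneg _).trans
    (hMA u (ball_mono (by omega) hu) u (by rw [inv_mul_cancel]; exact one_mem_ball _))
  have hH0 : 0 ≤ H := (avg_nonneg E h0 h1 fun _ _ => ind_nonneg _).trans
    (hMH u (ball_mono (by omega) hu))
  set poor : Finset (Sym2 Γ) → ℝ := fun η =>
    ∑ i ∈ range (l.length + 1), ind (bigMass S (w i) s n η < τ) with hpoor
  set Φ : Finset (Sym2 Γ) → ℝ := fun η => τ⁻¹ * (mean S (w 0) s fun z => ind (Apart n η u z))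
      + τ⁻¹ * (mean S (w l.length) s fun z => ind (Apart n η z x))
      + (τ ^ 2)⁻¹ * ∑ i ∈ range l.length, apartShare S (w i) (w (i + 1)) s n η with hΦ
  have hpt : ∀ η, η ⊆ E → ind (Apart n η u x) ≤ poor η + Φ η := by
    intro η _
    have n1 : 0 ≤ poor η := sum_nonneg fun _ _ => ind_nonneg _
    have n2 : 0 ≤ Φ η := add_nonneg (add_nonneg
      (mul_nonneg (inv_nonneg.2 hτ.le) (mean_nonneg_path fun _ => ind_nonneg _))
      (mul_nonneg (inv_nonneg.2 hτ.le) (mean_nonneg_path fun _ => ind_nonneg _)))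
      (mul_nonneg (by positivity)
        (sum_nonneg fun _ _ => mean_nonneg_path fun _ => mean_nonneg_path fun _ => ind_nonneg _))
    by_cases h : Apart n η u x
    swap
    · rw [ind_false h]; linarith
    rw [ind_true h]
    by_cases hp : ∃ i ≤ l.length, bigMass S (w i) s n η < τ
    · obtain ⟨i, hi, hbad⟩ := hp
      have : ind (bigMass S (w i) s n η < τ) ≤ poor η := single_le_sum
        (f := fun i => ind (bigMass S (w i) s n η < τ)) (fun _ _ => ind_nonneg _)
        (mem_range.2 (by omega))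
      rw [ind_true hbad] at this
      linarith
    · push Not at hp
      have := one_le_pairs hτ w h hp
      simp only [div_eq_inv_mul] at this
      simp only [hΦ]
      linarith
  have b1 : avg E p poor ≤ (R + 1) * H := by
    rw [hpoor, avg_sum]
    refine (sum_le_sum fun i _ => hMH _ (hwT i)).trans ?_
    rw [sum_const, card_range, nsmul_eq_mul]
    refine mul_le_mul_of_nonneg_right ?_ hH0
    exact_mod_cast Nat.succ_le_succ hl
  have b2 : avg E p (fun η => mean S (w 0) s fun z => ind (Apart n η u z)) ≤ A := by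
    refine avg_mean_le E p _ _ fun b hb => hMA u (ball_mono (by omega) hu) _ ?_
    rw [hw0, inv_mul_cancel_left]; exact ball_mono (by omega) hb
  have b3 : avg E p (fun η => mean S (w l.length) s fun z => ind (Apart n η z x)) ≤ A := by
    refine avg_mean_le E p _ _ fun b hb => hMA _ (hwb _ b hb) x ?_
    rw [hwL, mul_inv_rev, inv_mul_cancel_right]
    exact ball_mono (by omega) (inv_mem_ball hS hb)
  have b4 : avg E p (fun η => ∑ i ∈ range l.length, apartShare S (w i) (w (i + 1)) s n η)
      ≤ R * A := by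
    rw [avg_sum]
    refine (sum_le_sum (g := fun _ => A) fun i hi => ?_).trans ?_
    · refine avg_mean_le E p _ _ fun b hb => avg_mean_le E p _ _ fun b' hb' =>
        hMA _ (hwb i b hb) _ ?_
      have hg : (w i)⁻¹ * w (i + 1) ∈ ball S 1 := by
        have hi' := mem_range.1 hi
        have e : (w i)⁻¹ * w (i + 1) = 1 * (l[i]).1 := by
          simp only [hw, List.take_succ_eq_append_getElem hi', List.map_append, List.prod_append,
            List.map_cons, List.map_nil, List.prod_singleton, mul_inv_rev]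
          group
        rw [e]; exact mul_mem_ball_succ (one_mem_ball 0) (l[i]).2
      have e : (w i * b)⁻¹ * (w (i + 1) * b') = b⁻¹ * ((w i)⁻¹ * w (i + 1)) * b' := by group
      rw [e]
      exact ball_mono (by omega) (mem_ball_add (mem_ball_add (inv_mem_ball hS hb) hg) hb')
    · rw [sum_const, card_range, nsmul_eq_mul]
      exact mul_le_mul_of_nonneg_right (by exact_mod_cast hl) hA0
  refine (avg_mono E h0 h1 hpt).trans ?_
  simp only [hΦ, avg_add, avg_mul]
  have hττ : τ⁻¹ * A ≤ (τ ^ 2)⁻¹ * A :=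
    mul_le_mul_of_nonneg_right (inv_anti₀ (by positivity) (by nlinarith)) hA0
  have c2 := mul_le_mul_of_nonneg_left b2 (inv_nonneg.2 hτ.le)
  have c3 := mul_le_mul_of_nonneg_left b3 (inv_nonneg.2 hτ.le)
  have c4 := mul_le_mul_of_nonneg_left b4 (inv_nonneg.2 (sq_nonneg τ))
  have e : ((R : ℝ) + 2) * A / τ ^ 2 = (τ ^ 2)⁻¹ * (R * A) + 2 * ((τ ^ 2)⁻¹ * A) := by ring
  linarith

/-- Few points lie in clusters between two scales. -/
theorem mid_le (hS : Gens S) {p : ℝ} (h0 : 0 ≤ p) (h1 : p ≤ 1) {n N R : ℕ} (hnN : n ≤ N) {A : ℝ}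
    (hA : ApartLe S p n (2 * R) A) :
    (tail S p n - tail S p N) ^ 2 ≤ N / (ball S R).card + A := by
  obtain ⟨M, hMA, hM⟩ := ((hA R).and (eventually_ge_atTop (R + N))).exists
  set E := eball S (1 : Γ) M with hE
  have hv : Valid S E := valid_eball hS (Subset.refl _)
  set V : ℝ := ((ball S R).card : ℝ) with hV'
  have hV : 0 < V := Nat.cast_pos.2 (card_pos.2 ⟨1, one_mem_ball R⟩)
  set φ : Finset (Sym2 Γ) → Γ → ℝ := fun η z => ind (n ≤ csize η z ∧ ¬N ≤ csize η z) with hφ
  set X : Finset (Sym2 Γ) → ℝ := fun η => V⁻¹ * ∑ b ∈ ball S R, φ η b with hX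
  have hmean : avg E p X = tail S p n - tail S p N := by
    rw [hX, avg_mul, avg_sum, sum_congr rfl (g := fun _ => tail S p n - tail S p N) fun b hb => ?_,
      sum_const, nsmul_eq_mul, ← mul_assoc, inv_mul_cancel₀ hV.ne', one_mul]
    rw [← tail_eq hS hv (eball_one hb (by omega : R + n ≤ M)) p,
      ← tail_eq hS hv (eball_one hb (by omega : R + N ≤ M)) p, ← avg_sub]
    refine avg_congr E p fun η _ => ?_
    by_cases h : N ≤ csize η b
    · simp [hφ, ind, h, hnN.trans h]
    · simp [hφ, ind, h, Nat.lt_of_not_le h]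
  have hcs : avg E p X ^ 2 ≤ avg E p (fun η => X η ^ 2) := by
    have := cs E h0 h1 X fun _ => 1
    simpa [avg_const] using this
  set P : Finset (Sym2 Γ) → ℝ := fun η =>
    ∑ b ∈ ball S R, ∑ b' ∈ ball S R, ind (Apart n η b b') with hP
  have hpt : ∀ η, η ⊆ E → X η ^ 2 ≤ (N : ℝ) / V + (V ^ 2)⁻¹ * P η := by
    intro η _
    have key : (∑ b ∈ ball S R, φ η b) ^ 2 ≤ V * N + P η := by
      calc (∑ b ∈ ball S R, φ η b) ^ 2 = ∑ b ∈ ball S R, ∑ b' ∈ ball S R, φ η b * φ η b' := by
            rw [sq, sum_mul_sum]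
        _ ≤ ∑ b ∈ ball S R, ((N : ℝ) + ∑ b' ∈ ball S R, ind (Apart n η b b')) := by
            refine sum_le_sum fun b _ => ?_
            have hcl : ∑ b' ∈ ball S R, ind (b' ∈ cls η b ∧ csize η b < N) ≤ (N : ℝ) := by
              by_cases hN : csize η b < N
              · simp only [hN, and_true, ind, sum_boole]
                exact_mod_cast (card_le_card fun z hz => (mem_filter.1 hz).2).trans hN.le
              · simp [hN, ind]
            refine le_trans ?_ (add_le_add hcl le_rfl)
            rw [← sum_add_distrib]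
            refine sum_le_sum fun b' _ => ?_
            simp only [hφ, ← ind_and]
            have n1 := ind_nonneg (b' ∈ cls η b ∧ csize η b < N)
            have n2 := ind_nonneg (Apart n η b b')
            by_cases h : (n ≤ csize η b ∧ ¬N ≤ csize η b) ∧ n ≤ csize η b' ∧ ¬N ≤ csize η b'
            swap
            · rw [ind_false h]; linarith
            rw [ind_true h]
            by_cases hc : b' ∈ cls η b
            · rw [ind_true (show b' ∈ cls η b ∧ csize η b < N from ⟨hc, by omega⟩)]; linarith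
            · rw [ind_true (show Apart n η b b' from ⟨hc, h.1.1, h.2.1⟩)]; linarith
        _ = V * N + P η := by rw [sum_add_distrib, sum_const, nsmul_eq_mul]
    calc X η ^ 2 = (V ^ 2)⁻¹ * (∑ b ∈ ball S R, φ η b) ^ 2 := by
          simp only [hX]; rw [mul_pow, inv_pow]
      _ ≤ (V ^ 2)⁻¹ * (V * N + P η) := mul_le_mul_of_nonneg_left key (by positivity)
      _ = (N : ℝ) / V + (V ^ 2)⁻¹ * P η := by field_simp
  rw [← hmean]
  refine hcs.trans ((avg_mono E h0 h1 hpt).trans ?_)
  rw [avg_add, avg_const, avg_mul, add_le_add_iff_left, inv_mul_le_iff₀ (by positivity), hP,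
    avg_sum]
  refine (sum_le_sum fun b hb => (le_of_eq (avg_sum E p _ _)).trans (sum_le_sum fun b' hb' =>
    hMA b hb b' ?_)).trans (le_of_eq ?_)
  · rw [two_mul]; exact mem_ball_add (inv_mem_ball hS hb) hb'
  · simp only [sum_const, nsmul_eq_mul, ← hV']; ring

end Vale.Agent.P151.Growth
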