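import Vale.Agent.P151.Growth.Defs

/-!
# The iterated sharp-threshold step

If an increasing `[0,1]`-valued function has mean at least `T` and its cut-offs have influences
at most `exp (-L)`, then after a small increase of the parameter it is rarely below a fixed
fraction of `T`.
-/

namespace Vale.Agent.P151.Growth

open Finset Vale.Agent.P165

private theorem cut_mem (ρ x : ℝ) : 0 ≤ cut ρ x ∧ cut ρ x ≤ 1 :=
  ⟨le_min zero_le_one (le_max_left _ _), min_le_left _ _⟩

private theorem cut_eq_one {ρ x : ℝ} (hρ : 0 < ρ) (h : x ≤ ρ) : cut ρ x = 1 := by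
  refine min_eq_left (le_max_of_le_right ?_)
  rw [le_div_iff₀ hρ]
  linarith

private theorem cut_eq_zero {ρ x : ℝ} (hρ : 0 < ρ) (h : 2 * ρ ≤ x) : cut ρ x = 0 := by
  rw [cut, max_eq_left (div_nonpos_of_nonpos_of_nonneg (by linarith) hρ.le),
    min_eq_right zero_le_one]

private theorem cut_anti {ρ : ℝ} (hρ : 0 < ρ) : Antitone (cut ρ) := fun x y h =>
  min_le_min le_rfl (max_le_max le_rfl (div_le_div_of_nonneg_right (by linarith) hρ.le))

variable {α : Type} [DecidableEq α]

/-- Probabilities of decreasing events fall with the parameter. -/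
theorem avg_ind_le_anti (E : Finset α) {X : Finset α → ℝ} (hX : Monotone X) {p q : ℝ}
    (h0 : 0 ≤ p) (hpq : p ≤ q) (h1 : q ≤ 1) (ρ : ℝ) :
    avg E q (fun η => ind (X η ≤ ρ)) ≤ avg E p (fun η => ind (X η ≤ ρ)) := by
  have h := avg_mono_param E h0 hpq h1 (f := fun η => 1 - ind (X η ≤ ρ)) fun a b hab =>
    sub_le_sub_left (ind_mono fun h => (hX hab).trans h) 1
  rw [avg_sub, avg_sub, avg_one, avg_one] at h
  linarith

/-- A function with values in `[0,1]` varies at least as much as it takes both extreme values. -/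
theorem mul_le_var (E : Finset α) {c : ℝ} (h0 : 0 ≤ c) (h1 : c ≤ 1) (G : Finset α → ℝ)
    {A B : Finset α → Prop} (hA : ∀ η, A η → G η = 1) (hB : ∀ η, B η → G η = 0) :
    avg E c (fun η => ind (A η)) * avg E c (fun η => ind (B η)) ≤ var E c G := by
  set a := avg E c fun η => ind (A η) with ha
  set b := avg E c fun η => ind (B η) with hb
  set m := avg E c G with hm
  have hab : a + b ≤ 1 := by
    rw [ha, hb, ← avg_add]
    refine avg_le_one E h0 h1 fun η _ => ?_
    by_cases hAη : A η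
    · have hBη : ¬ B η := fun h => by
        have := hA η hAη
        rw [hB η h] at this
        exact zero_ne_one this
      rw [ind_true hAη, ind_false hBη, add_zero]
    · rw [ind_false hAη, zero_add]
      exact ind_le_one _
  have ha0 : 0 ≤ a := avg_nonneg E h0 h1 fun _ _ => ind_nonneg _
  have hb0 : 0 ≤ b := avg_nonneg E h0 h1 fun _ _ => ind_nonneg _
  have hsq : (1 - m) ^ 2 * a + m ^ 2 * b ≤ var E c G := by
    have hvar : var E c G = avg E c fun η => (G η - m) ^ 2 := by
      have e : (fun η => (G η - m) ^ 2) = fun η => G η ^ 2 + ((-2 * m) * G η + m ^ 2) := by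
        funext η; ring
      rw [e, avg_add, avg_add, avg_mul, avg_const, var, ← hm]
      ring
    rw [hvar, ha, hb, ← avg_mul, ← avg_mul, ← avg_add]
    refine avg_mono E h0 h1 fun η _ => ?_
    by_cases hAη : A η
    · have hBη : ¬ B η := fun h => by
        have := hA η hAη
        rw [hB η h] at this
        exact zero_ne_one this
      rw [ind_true hAη, ind_false hBη, hA η hAη, mul_one, mul_zero, add_zero]
    · by_cases hBη : B η
      · rw [ind_true hBη, ind_false hAη, hB η hBη, mul_one, mul_zero, zero_add]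
        exact le_of_eq (by ring)
      · rw [ind_false hAη, ind_false hBη, mul_zero, mul_zero, add_zero]
        exact sq_nonneg _
  have hkey : a * b ≤ (a + b) * ((1 - m) ^ 2 * a + m ^ 2 * b) := by
    nlinarith [sq_nonneg (a * (1 - m) - b * m)]
  exact (hkey.trans (mul_le_of_le_one_left (by positivity) hab)).trans hsq

/-- One sharp-threshold step. -/
theorem sharp_step (E : Finset α) (X : Finset α → ℝ) (hX : Monotone X) (h1X : ∀ η, X η ≤ 1)
    {p q₁ q₂ T L ι ρ : ℝ} (hp : 0 < p) (hq₁ : p ≤ q₁) (hq : q₁ < q₂) (hq₂ : q₂ < 1) (hT : 0 < T)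
    (hT1 : T ≤ avg E p X) (hL : 0 < L) (hι : Real.exp L * ι ≤ 2) (hρ : 0 < ρ) (hρT : ρ ≤ T / 4)
    (hinfl : ∀ q ∈ Set.Icc q₁ q₂, ∀ e ∈ E,
      avg E q (fun η => |dlt e (fun ξ => cut ρ (X ξ)) η|) ≤ ι) :
    avg E q₂ (fun η => ind (X η ≤ ρ)) ≤
      8 / (T * L * (q₂ - q₁)) * avg E q₁ (fun η => ind (X η ≤ 2 * ρ)) := by
  set G : Finset α → ℝ := fun ξ => cut ρ (X ξ) with hG
  have hq0 : 0 < q₁ := hp.trans_le hq₁
  obtain ⟨c, hc, hslope⟩ := exists_hasDerivAt_eq_slope (fun r => avg E r G)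
    (fun r => ∑ e ∈ E, avg E r (dlt e G)) hq (continuous_avg E G).continuousOn
    fun r hr => hasDerivAt_dlt E G (hq0.trans hr.1) (hr.2.trans hq₂)
  have hc0 : 0 < c := hq0.trans hc.1
  have hc1 : c < 1 := hc.2.trans hq₂
  set K := ∑ e ∈ E, avg E c (fun η => |dlt e G η|) with hK
  have hanti : ∀ e η, dlt e G η ≤ 0 := fun e η =>
    sub_nonpos.2 (cut_anti hρ (hX ((erase_subset e η).trans (subset_insert e η))))
  have hneg : ∑ e ∈ E, avg E c (dlt e G) = -K := by
    rw [hK, ← sum_neg_distrib]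
    refine sum_congr rfl fun e _ => ?_
    rw [← neg_one_mul, ← avg_mul]
    exact avg_congr E c fun η _ => by rw [abs_of_nonpos (hanti e η)]; ring
  have hδ : 0 < q₂ - q₁ := sub_pos.2 hq
  have hKd : K * (q₂ - q₁) ≤ avg E q₁ (fun η => ind (X η ≤ 2 * ρ)) := by
    simp only [hneg] at hslope
    rw [eq_div_iff hδ.ne'] at hslope
    have h2 : 0 ≤ avg E q₂ G := avg_nonneg E (hq0.le.trans hq.le) hq₂.le fun η _ => (cut_mem ρ _).1
    have h3 : avg E q₁ G ≤ avg E q₁ (fun η => ind (X η ≤ 2 * ρ)) := by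
      refine avg_mono E hq0.le (hq.trans hq₂).le fun η _ => ?_
      by_cases h : X η ≤ 2 * ρ
      · rw [ind_true h]; exact (cut_mem ρ _).2
      · rw [ind_false h]; exact (cut_eq_zero hρ (not_le.1 h).le).le
    linarith
  have hfs : L * var E c G ≤ 4 * K := by
    refine (falik_samorodnitsky E hc0 hc1 G L).trans ?_
    have hd : dir E c G ≤ K := sum_le_sum fun e _ => avg_mono E hc0.le hc1.le fun η _ => by
      have h : |dlt e G η| ≤ 1 :=
        abs_sub_le_iff.2 ⟨by linarith [(cut_mem ρ (X (insert e η))).2, (cut_mem ρ (X (η.erase e))).1],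
          by linarith [(cut_mem ρ (X (insert e η))).1, (cut_mem ρ (X (η.erase e))).2]⟩
      rw [← sq_abs, sq]
      exact mul_le_of_le_one_left (abs_nonneg _) h
    have hI : ∑ e ∈ E, avg E c (fun η => |dlt e G η|) ^ 2 ≤ ι * K := by
      rw [hK, mul_sum]
      refine sum_le_sum fun e he => ?_
      rw [sq]
      exact mul_le_mul_of_nonneg_right (hinfl c ⟨hc.1.le, hc.2.le⟩ e he)
        (avg_nonneg E hc0.le hc1.le fun _ _ => abs_nonneg _)
    have hK0 : 0 ≤ K := sum_nonneg fun e _ => avg_nonneg E hc0.le hc1.le fun _ _ => abs_nonneg _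
    have h4 := mul_le_mul_of_nonneg_left hI (Real.exp_pos L).le
    have h5 := mul_le_mul_of_nonneg_right hι hK0
    linarith
  set a := avg E c (fun η => ind (X η ≤ ρ)) with ha
  have hbig : T / 2 ≤ avg E c (fun η => ind (2 * ρ ≤ X η)) := by
    have h := avg_mono_param E hp.le (hq₁.trans hc.1.le) hc1.le hX
    have h' : avg E c X ≤ 2 * ρ + avg E c (fun η => ind (2 * ρ ≤ X η)) := by
      refine (avg_mono E hc0.le hc1.le (g := fun η => 2 * ρ + ind (2 * ρ ≤ X η)) fun η _ => ?_).trans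
        (by rw [avg_add, avg_const])
      rcases le_total (2 * ρ) (X η) with h | h
      · rw [ind_true h]; linarith [h1X η]
      · linarith [ind_nonneg (2 * ρ ≤ X η)]
    linarith
  have hmain : a * (T / 2) ≤ var E c G :=
    (mul_le_mul_of_nonneg_left hbig (avg_nonneg E hc0.le hc1.le fun _ _ => ind_nonneg _)).trans
      (mul_le_var E hc0.le hc1.le G (fun η h => cut_eq_one hρ h) fun η h => cut_eq_zero hρ h)
  refine (avg_ind_le_anti E hX hc0.le hc.2.le hq₂.le ρ).trans ?_
  rw [← ha, div_mul_eq_mul_div, le_div_iff₀ (by positivity)]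
  have h6 := mul_le_mul_of_nonneg_left hmain (mul_nonneg hL.le hδ.le)
  have h7 := mul_le_mul_of_nonneg_left hfs hδ.le
  linarith

/-- The iterated sharp-threshold step. -/
theorem sharp_iter (E : Finset α) (X : Finset α → ℝ) (hX : Monotone X) (_h0X : ∀ η, 0 ≤ X η)
    (h1X : ∀ η, X η ≤ 1) {p dp T L ι : ℝ} (k : ℕ) (hk : 1 ≤ k) (hp : 0 < p) (hdp : 0 < dp)
    (hp1 : p + dp < 1) (hT : 0 < T) (hT1 : T ≤ avg E p X) (hL : 0 < L) (hι : Real.exp L * ι ≤ 2)
    (hinfl : ∀ q ∈ Set.Icc p (p + dp), ∀ ρ : ℝ, T / 2 ^ (k + 2) ≤ ρ → ρ ≤ T / 4 → ∀ e ∈ E,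
      avg E q (fun η => |dlt e (fun ξ => cut ρ (X ξ)) η|) ≤ ι) :
    avg E (p + dp) (fun η => ind (X η ≤ T / 2 ^ (k + 2))) ≤ (8 * k / (T * L * dp)) ^ k := by
  have hk0 : (0 : ℝ) < k := by exact_mod_cast hk
  set δ := dp / k with hδ
  have hδ0 : 0 < δ := div_pos hdp hk0
  have hkδ : (k : ℝ) * δ = dp := mul_div_cancel₀ dp hk0.ne'
  have hC : 8 * (k : ℝ) / (T * L * dp) = 8 / (T * L * δ) := by
    rw [← hkδ]; field_simp
  rw [hC]
  suffices h : ∀ i : ℕ, i ≤ k →
      avg E (p + i * δ) (fun η => ind (X η ≤ T / 2 ^ (i + 2))) ≤ (8 / (T * L * δ)) ^ i by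
    have := h k le_rfl
    rwa [hkδ] at this
  intro i
  induction i with
  | zero =>
    intro _
    rw [Nat.cast_zero, zero_mul, add_zero, pow_zero]
    exact avg_le_one E hp.le (by linarith) fun _ _ => ind_le_one _
  | succ i ih =>
    intro hi
    have h1i : ((i : ℝ) + 1) * δ ≤ dp := by
      rw [← hkδ]
      exact mul_le_mul_of_nonneg_right (by exact_mod_cast hi) hδ0.le
    have hi0 : 0 ≤ (i : ℝ) * δ := mul_nonneg (Nat.cast_nonneg i) hδ0.le
    have e2 : 2 * (T / 2 ^ (i + 1 + 2)) = T / 2 ^ (i + 2) := by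
      rw [show i + 1 + 2 = (i + 2) + 1 by omega, pow_succ]
      ring
    have h := sharp_step E X hX h1X (q₁ := p + i * δ) (q₂ := p + ((i : ℕ) + 1 : ℕ) * δ)
      (ρ := T / 2 ^ (i + 1 + 2)) hp (by linarith) (by push_cast; linarith) (by push_cast; linarith)
      hT hT1 hL hι (by positivity) ?_ fun q hq => ?_
    · rw [e2, show p + ((i + 1 : ℕ) : ℝ) * δ - (p + i * δ) = δ by push_cast; ring] at h
      refine h.trans ?_
      rw [pow_succ' (8 / (T * L * δ)) i]
      exact mul_le_mul_of_nonneg_left (ih (by omega)) (by positivity)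
    · refine div_le_div_of_nonneg_left hT.le (by norm_num) ?_
      calc (4 : ℝ) = 2 ^ 2 := by norm_num
        _ ≤ 2 ^ (i + 1 + 2) := pow_le_pow_right₀ (by norm_num) (by omega)
    · have hq' := hq.2
      push_cast at hq'
      refine hinfl q ⟨by linarith [hq.1], by linarith⟩ _
        (div_le_div_of_nonneg_left hT.le (by positivity) (pow_le_pow_right₀ (by norm_num) (by omega))) ?_
      refine div_le_div_of_nonneg_left hT.le (by norm_num) ?_
      calc (4 : ℝ) = 2 ^ 2 := by norm_num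
        _ ≤ 2 ^ (i + 1 + 2) := pow_le_pow_right₀ (by norm_num) (by omega)

end Vale.Agent.P151.Growth
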