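import Vale.Agent.P151.Growth.Ball
import Vale.Agent.P151.Growth.Sharp
import Vale.Agent.P151.Growth.Path

/-!
# A finite-size criterion for groups of stretched-exponential growth
-/

namespace Vale.Agent.P151.Growth

open Finset Filter Vale.Agent.P165 Real

/-- A fixed multiple of a power is eventually beaten by an exponential. -/
theorem eventually_pow_exp (C : ℝ) (a : ℕ) {b β : ℝ} (hb : 0 < b) (hβ : 0 < β) :
    ∀ᶠ x : ℝ in atTop, C * x ^ a * exp (-b * x ^ β) ≤ 1 := by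
  have h := (tendsto_rpow_mul_exp_neg_mul_atTop_nhds_zero ((a : ℝ) / β) b hb).comp
    (tendsto_rpow_atTop hβ)
  have h' := h.const_mul C
  rw [mul_zero] at h'
  filter_upwards [h'.eventually (eventually_le_nhds (by norm_num : (0 : ℝ) < 1)),
    eventually_gt_atTop (0 : ℝ)] with x hx hx0
  simp only [Function.comp] at hx
  rw [← rpow_mul hx0.le, mul_div_cancel₀ _ hβ.ne', rpow_natCast, ← mul_assoc] at hx
  exact hx

variable {Γ : Type} [Group Γ] [DecidableEq Γ] {S : Finset Γ}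

variable (S) in
/-- The standing hypotheses of the growth theorem. -/
structure Grow (c β : ℝ) : Prop where
  c_pos : 0 < c
  β_pos : 0 < β
  β_lt : β < 1
  ball_ge : ∀ r : ℕ, 1 ≤ r → exp (c * (r : ℝ) ^ β) ≤ ((ball S r).card : ℝ)

variable (S) in
/-- The constant of the two-ghost inequality, uniform on `[pc / 2, pc]`. -/
noncomputable def ghostU : ℝ :=
  80 * √(2 * S.card + 1) / (pc (cayley S) / 2 * (1 - pc (cayley S)))

omit [DecidableEq Γ] in
theorem ghostC_le {p : ℝ} (hpc0 : 0 < pc (cayley S)) (hpc : pc (cayley S) < 1)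
    (hp : pc (cayley S) / 2 ≤ p) (hp' : p ≤ pc (cayley S)) : ghostC S p ≤ ghostU S := by
  unfold ghostC ghostU
  refine div_le_div_of_nonneg_left (by positivity) (mul_pos (by linarith) (by linarith)) ?_
  exact mul_le_mul hp (by linarith) (by linarith) (by linarith)

theorem tail_lim (hS : Gens S) [Infinite Γ] (hc : (cayley S).Connected) {p : ℝ} (h0 : 0 < p)
    (hp : p < pc (cayley S)) : Tendsto (fun m => tail S p m) atTop (nhds 0) := by
  obtain ⟨C, δ, hδ, hdec⟩ := decay_below hS hc h0 hp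
  exact tendsto_of_decay hδ (fun n => tail_nonneg h0.le (hp.le.trans (pc_le_one hS hc).2) n) hdec

/-- The base gluing radius. -/
noncomputable def base (S : Finset Γ) : ℝ :=
  min 1 (log 2 / (24 * (log (2 / pc (cayley S)) + 1)))

omit [DecidableEq Γ] in
theorem base_pos {pc' : ℝ} (h : pc' = pc (cayley S)) (h0 : 0 < pc') (h1 : pc' ≤ 1) :
    0 < base S := by
  subst h
  have : 0 ≤ log (2 / pc (cayley S)) := log_nonneg (by rw [le_div_iff₀ h0]; linarith)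
  refine lt_min one_pos (div_pos (log_pos one_lt_two) (by positivity))

/-- Gluing at distance `3 · base · j` at the scale `2 ^ j`. -/
theorem apartLe_short (hS : Gens S) [Infinite Γ] (hc : (cayley S).Connected)
    (hpc : pc (cayley S) < 1) {p : ℝ} (hp : pc (cayley S) / 2 ≤ p) (hp' : p < pc (cayley S))
    {j r : ℕ} (hr : (r : ℝ) ≤ 3 * base S * j) :
    ApartLe S p (2 ^ j) r (9 * ghostU S * j * exp (-(j : ℝ) / 5)) := by
  have hpc0 := pc_pos hS hc
  have h0 : 0 < p := by linarith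
  refine (apartLe_base hS h0 (hp'.trans hpc) (tail_lim hS hc h0 hp') Nat.one_le_two_pow r).mono
    le_rfl ?_
  set Lg := log (2 / pc (cayley S)) with hLg
  have hLg0 : 0 ≤ Lg := log_nonneg (by rw [le_div_iff₀ hpc0]; linarith)
  have hb1 : base S ≤ 1 := min_le_left _ _
  have hb2 : base S * (24 * (Lg + 1)) ≤ log 2 := by
    rw [← le_div_iff₀ (by positivity)]; exact min_le_right _ _
  have hb0 := (base_pos rfl hpc0 hpc.le).le
  have hj0 : (0 : ℝ) ≤ j := Nat.cast_nonneg j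
  have hrL : (r : ℝ) * Lg ≤ j * log 2 / 8 := by
    refine (mul_le_mul_of_nonneg_right hr hLg0).trans ?_
    nlinarith [mul_le_mul_of_nonneg_left hb2 hj0, mul_nonneg hb0 hj0]
  have e1 : p⁻¹ ^ r ≤ exp (r * Lg) := by
    rw [exp_nat_mul, exp_log (by positivity)]
    refine pow_le_pow_left₀ (by positivity) ?_ r
    rw [← one_div, div_le_div_iff₀ h0 hpc0]; linarith
  have e2 : √((2 ^ j : ℕ) : ℝ) = exp ((j : ℝ) * log 2 / 2) := by
    push_cast
    rw [exp_half, exp_nat_mul, exp_log two_pos]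
  have e3 : (r : ℝ) ≤ 3 * j := hr.trans (by nlinarith)
  have hg := ghostC_le hpc0 hpc hp hp'.le
  have hg0 := (ghostC_pos (S := S) h0 (hp'.trans hpc)).le
  rw [e2]
  calc (r : ℝ) * p⁻¹ ^ r * (3 * ghostC S p / exp ((j : ℝ) * log 2 / 2))
      ≤ 3 * j * exp (r * Lg) * (3 * ghostU S / exp ((j : ℝ) * log 2 / 2)) := by gcongr
    _ = 9 * ghostU S * j * exp (r * Lg - (j : ℝ) * log 2 / 2) := by rw [exp_sub]; ring
    _ ≤ _ := by
        refine mul_le_mul_of_nonneg_left (exp_le_exp.2 ?_) ?_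
        · nlinarith [log_two_gt_d9]
        · have : 0 < ghostU S := lt_of_lt_of_le (ghostC_pos h0 (hp'.trans hpc)) hg
          positivity

/-- The numerical bound on the influences. -/
theorem infl_const {L V τ ρ g G e e' : ℝ} {m n : ℕ} (hL0 : 0 ≤ L) (hm : exp (4 * L) ≤ m)
    (hm2 : (m : ℝ) ≤ 2 * exp (4 * L)) (hVexp : exp (12 * L) ≤ V) (hnexp : exp (12 * L) ≤ n)
    (hτ0 : 0 < τ) (hρ : τ ≤ ρ) (hg0 : 0 ≤ g) (hg : g ≤ G) (he : 0 < e) (hq' : e ≤ e') :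
    (2 * (m : ℝ) / V + 2 * m / n) / ρ + (3 * g / √(m : ℝ)) / e'
      ≤ ((2 + 2) * 2 / τ + 3 * G / e) * exp (-(2 * L)) := by
  have u1 : 2 * (m : ℝ) / V ≤ 4 * exp (-(2 * L)) := by
    refine (div_le_div₀ (by positivity) (show 2 * (m : ℝ) ≤ 4 * exp (4 * L) by linarith)
      (exp_pos _) hVexp).trans ?_
    rw [mul_div_assoc, ← exp_sub]
    exact mul_le_mul_of_nonneg_left (exp_le_exp.2 (by linarith)) (by norm_num)
  have u2 : 2 * (m : ℝ) / n ≤ 4 * exp (-(2 * L)) := by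
    refine (div_le_div₀ (by positivity) (show 2 * (m : ℝ) ≤ 4 * exp (4 * L) by linarith)
      (exp_pos _) hnexp).trans ?_
    rw [mul_div_assoc, ← exp_sub]
    exact mul_le_mul_of_nonneg_left (exp_le_exp.2 (by linarith)) (by norm_num)
  have u3 : exp (2 * L) ≤ √(m : ℝ) := by
    rw [show 2 * L = 4 * L / 2 by ring, exp_half]
    exact sqrt_le_sqrt hm
  have u4 : (3 * g / √(m : ℝ)) / e'
      ≤ 3 * G / (e) * exp (-(2 * L)) := by
    rw [exp_neg, ← div_eq_mul_inv, div_div, div_div]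
    exact div_le_div₀ (by linarith) (by linarith) (mul_pos (he) (exp_pos _))
      (by rw [mul_comm (√(m : ℝ))]
          exact mul_le_mul hq' u3 (exp_pos _).le (by linarith))
  have u5 : (2 * (m : ℝ) / V + 2 * m / n) / ρ
      ≤ (2 + 2) * 2 / τ * exp (-(2 * L)) := by
    refine (div_le_div₀ (by positivity) (add_le_add u1 u2) hτ0 hρ).trans (le_of_eq ?_)
    ring
  rw [add_mul]
  exact add_le_add u5 u4

/-- The two volumes of one scale. -/
theorem scale_le {c β c₀ : ℝ} {j s : ℕ} (hc0 : 0 < c) (hβ0 : 0 < β) (hβ1 : β < 1) (hb0 : 0 < c₀)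
    (hball : ∀ r : ℕ, 1 ≤ r → exp (c * (r : ℝ) ^ β) ≤ ((ball S r).card : ℝ))
    (x6 : 1 ≤ (j : ℝ)) (hs0 : 1 ≤ s) (hs2 : c₀ / 2 * j ≤ s) :
    exp (12 * (min (log 2 / 12) (c * (c₀ / 2) ^ β / 12) * (j : ℝ) ^ β)) ≤ ((2 ^ j : ℕ) : ℝ) ∧
    exp (12 * (min (log 2 / 12) (c * (c₀ / 2) ^ β / 12) * (j : ℝ) ^ β))
      ≤ ((ball S s).card : ℝ) := by
  set x := (j : ℝ) with hx
  have hx0 : 0 < x := by linarith
  set a₁ := min (log 2 / 12) (c * (c₀ / 2) ^ β / 12) with ha₁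
  set L := a₁ * x ^ β with hL
  have hxβ : x ^ β ≤ x := by
    conv_rhs => rw [← rpow_one x]
    exact rpow_le_rpow_of_exponent_le x6 hβ1.le
  have hnexp : exp (12 * L) ≤ ((2 ^ j : ℕ) : ℝ) := by
    push_cast
    rw [← exp_log two_pos, ← exp_nat_mul, exp_le_exp, hL]
    have := mul_le_mul (min_le_left _ (c * (c₀ / 2) ^ β / 12)) hxβ (by positivity)
      (by positivity : (0 : ℝ) ≤ log 2 / 12)
    rw [← ha₁] at this
    rw [hx] at this ⊢
    linarith
  have hVexp : exp (12 * L) ≤ ((ball S s).card : ℝ) := by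
    refine le_trans (exp_le_exp.2 ?_) (hball s hs0)
    have h := rpow_le_rpow (by positivity) hs2 hβ0.le
    rw [mul_rpow (by positivity) hx0.le] at h
    have h2 := mul_le_mul_of_nonneg_right (min_le_right (log 2 / 12) (c * (c₀ / 2) ^ β / 12))
      (rpow_nonneg hx0.le β)
    rw [← ha₁] at h2
    rw [hL]
    nlinarith [mul_le_mul_of_nonneg_left h hc0.le]
  exact ⟨hnexp, hVexp⟩

/-- The three error terms of one doubling. -/
theorem three_terms {c β τ W G₀ : ℝ} {j k : ℕ} (hc0 : 0 < c) (hβ0 : 0 < β)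
    (hball : ∀ r : ℕ, 1 ≤ r → exp (c * (r : ℝ) ^ β) ≤ ((ball S r).card : ℝ)) (x6 : 1 ≤ (j : ℝ))
    (hτ0 : 0 < τ) (hW : 0 ≤ W) (hG₀ : 0 ≤ G₀) (hkdef : 2 / β * ((⌈1 / β⌉₊ + 5 : ℕ) : ℝ) ≤ k)
    (x3 : 3 * ((2 * (⌈7 / c⌉₊ ^ ⌈1 / β⌉₊ : ℕ) + 2 : ℝ) * W ^ k) ≤ j)
    (x4 : 3 * ((2 * (⌈7 / c⌉₊ ^ ⌈1 / β⌉₊ : ℕ) + 2 : ℝ) / τ ^ 2 * (9 * G₀)) * (j : ℝ) ^ (⌈1 / β⌉₊ + 5)
      * exp (-(1 / 5) * (j : ℝ)) ≤ 1)
    (x5 : 3 * (j : ℝ) ^ 4 * exp (-(4 : ℝ) * j) ≤ 1) :
    let R₀ := ⌈7 / c⌉₊ ^ ⌈1 / β⌉₊ * j ^ ⌈1 / β⌉₊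
    (2 * (R₀ : ℝ) + 1) * (W * (j : ℝ) ^ (-(β / 2))) ^ k ≤ 1 / (3 * (j : ℝ) ^ 4) ∧
    (2 * (R₀ : ℝ) + 2) * (9 * G₀ * j * exp (-(j : ℝ) / 5)) / τ ^ 2 ≤ 1 / (3 * (j : ℝ) ^ 4) ∧
    ((2 ^ (2 * j + 1) : ℕ) : ℝ) / (ball S R₀).card ≤ 1 / (3 * (j : ℝ) ^ 4) := by
  intro R₀
  set K := ⌈1 / β⌉₊ with hK
  set Q := ⌈7 / c⌉₊ ^ K with hQ
  set C₄ := (2 * Q + 2 : ℝ) * W ^ k with hC₄
  set C₅ := (2 * Q + 2 : ℝ) / τ ^ 2 * (9 * G₀) with hC₅
  set x := (j : ℝ) with hx
  have hx0 : 0 < x := by linarith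
  set H := (W * x ^ (-(β / 2))) ^ k with hH
  set A := 9 * G₀ * x * exp (-x / 5) with hAdef
  have hR₀ : R₀ = Q * j ^ K := rfl
  have hR₀x : 2 * (R₀ : ℝ) + 2 ≤ (2 * Q + 2) * x ^ K := by
    rw [hR₀]; push_cast
    have := one_le_pow₀ x6 (n := K)
    rw [hx] at this ⊢
    nlinarith
  have hHx : H ≤ W ^ k * (1 / x ^ (K + 5)) := by
    rw [hH, mul_pow, ← rpow_natCast (x ^ (-(β / 2))), ← rpow_mul hx0.le, one_div,
      ← rpow_natCast x (K + 5), ← rpow_neg hx0.le]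
    refine mul_le_mul_of_nonneg_left (rpow_le_rpow_of_exponent_le x6 ?_) (by positivity)
    have h := hkdef
    rw [div_mul_eq_mul_div, div_le_iff₀ hβ0] at h
    linarith
  have t1 : (2 * (R₀ : ℝ) + 1) * H ≤ 1 / (3 * x ^ 4) := by
    have hH0 : 0 ≤ H := by positivity
    calc (2 * (R₀ : ℝ) + 1) * H ≤ ((2 * Q + 2) * x ^ K) * (W ^ k * (1 / x ^ (K + 5))) :=
          mul_le_mul (by linarith) hHx hH0 (by positivity)
      _ = C₄ / x ^ 5 := by rw [hC₄, pow_add]; field_simp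
      _ ≤ _ := by
          rw [div_le_div_iff₀ (by positivity) (by positivity), pow_succ x 4]
          nlinarith [mul_le_mul_of_nonneg_right x3 (show (0 : ℝ) ≤ x ^ 4 by positivity)]
  have t2 : (2 * (R₀ : ℝ) + 2) * A / τ ^ 2 ≤ 1 / (3 * x ^ 4) := by
    calc (2 * (R₀ : ℝ) + 2) * A / τ ^ 2 ≤ (2 * Q + 2) * x ^ K * A / τ ^ 2 := by
          have : 0 ≤ A := by rw [hAdef]; positivity
          gcongr
      _ = C₅ * x ^ (K + 1) * exp (-x / 5) := by rw [hC₅, hAdef]; ring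
      _ ≤ _ := by
          rw [le_div_iff₀ (by positivity)]
          refine le_trans (le_of_eq ?_) x4
          rw [show -(1 / 5 : ℝ) * x = -x / 5 by ring, show K + 5 = (K + 1) + 4 from rfl,
            pow_add x (K + 1) 4]
          ring
  have t3 : ((2 ^ (2 * j + 1) : ℕ) : ℝ) / (ball S R₀).card ≤ 1 / (3 * x ^ 4) := by
    have hQ1 : 1 ≤ ⌈7 / c⌉₊ := Nat.one_le_ceil_iff.2 (by positivity)
    have hj1 : 1 ≤ j := by rw [hx] at x6; exact_mod_cast x6
    have hR1 : 1 ≤ R₀ := Nat.one_le_iff_ne_zero.2 (by positivity)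
    have hV : exp (7 * x) ≤ ((ball S R₀).card : ℝ) := by
      refine le_trans (exp_le_exp.2 ?_) (hball R₀ hR1)
      set X := (⌈7 / c⌉₊ : ℝ) * x with hX
      have hX1 : 1 ≤ X := one_le_mul_of_one_le_of_one_le (by exact_mod_cast hQ1) x6
      have hKβ : 1 ≤ (K : ℝ) * β := by
        rw [← div_le_iff₀ hβ0]; exact Nat.le_ceil _
      have hR : ((R₀ : ℕ) : ℝ) = X ^ K := by rw [hR₀, hQ, hX, mul_pow, hx]; push_cast; ring
      rw [hR, ← rpow_natCast, ← rpow_mul (by linarith)]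
      have h2 := rpow_le_rpow_of_exponent_le hX1 hKβ
      rw [rpow_one] at h2
      have h3 : 7 ≤ c * (⌈7 / c⌉₊ : ℝ) := by
        rw [mul_comm, ← div_le_iff₀ hc0]; exact Nat.le_ceil _
      calc 7 * x ≤ c * X := by rw [hX]; nlinarith
        _ ≤ _ := mul_le_mul_of_nonneg_left h2 hc0.le
    have hN' : ((2 ^ (2 * j + 1) : ℕ) : ℝ) ≤ exp (3 * x) := by
      push_cast
      rw [← exp_log two_pos, ← exp_nat_mul, exp_le_exp, hx]
      push_cast
      nlinarith [log_two_lt_d9, log_pos one_lt_two]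
    refine (div_le_div₀ (exp_pos _).le hN' (exp_pos _) hV).trans ?_
    rw [← exp_sub, le_div_iff₀ (by positivity), show 3 * x - 7 * x = -4 * x by ring]
    linarith
  exact ⟨t1, t2, t3⟩

/-- One doubling of the scale at the cost of a small increase of the parameter. -/
theorem doubling (hS : Gens S) [Infinite Γ] (hc : (cayley S).Connected) (hpc : pc (cayley S) < 1)
    {c β : ℝ} (hG : Grow S c β) {θ₁ : ℝ} (hθ : 0 < θ₁) :
    ∃ j₀ : ℕ, ∀ j ≥ j₀, ∀ p : ℝ, pc (cayley S) / 2 ≤ p →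
      p + (j : ℝ) ^ (-(β / 2)) < pc (cayley S) → θ₁ ≤ tail S p (2 ^ (j + 1)) →
      tail S p (2 ^ (j + 1)) - 1 / (j : ℝ) ^ 2
        ≤ tail S (p + (j : ℝ) ^ (-(β / 2))) (2 ^ (2 * j + 1)) := by
  obtain ⟨hc0, hβ0, hβ1, hball⟩ := hG
  have hpc0 := pc_pos hS hc
  have hb0 := base_pos (S := S) rfl hpc0 hpc.le
  set c₀ := base S with hc₀
  set a₁ := min (log 2 / 12) (c * (c₀ / 2) ^ β / 12) with ha₁
  have ha₁0 : 0 < a₁ := lt_min (by positivity) (by positivity)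
  set K := ⌈1 / β⌉₊ with hK
  set Q := ⌈7 / c⌉₊ ^ K with hQ
  set k := ⌈2 / β * (K + 5 : ℕ)⌉₊ with hkdef
  have hk : 1 ≤ k := Nat.one_le_ceil_iff.2 (by positivity)
  set τ := θ₁ / 2 ^ (k + 2) with hτ
  have hτ0 : 0 < τ := by positivity
  set W := 8 * (k : ℝ) / (θ₁ * a₁) with hW
  set G₀ := ghostU S with hG₀
  set Dc : ℝ := (2 + 2) * 2 / τ + 3 * G₀ / (1 - pc (cayley S)) with hDc
  set C₄ := (2 * Q + 2 : ℝ) * W ^ k with hC₄
  set C₅ := (2 * Q + 2 : ℝ) / τ ^ 2 * (9 * G₀) with hC₅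
  have E1 : ∀ᶠ x : ℝ in atTop, 2 ≤ c₀ * x := (tendsto_id.const_mul_atTop hb0).eventually_ge_atTop 2
  have E2 : ∀ᶠ x : ℝ in atTop, Dc / 2 * x ^ 0 * exp (-a₁ * x ^ β) ≤ 1 :=
    eventually_pow_exp _ 0 ha₁0 hβ0
  have E3 : ∀ᶠ x : ℝ in atTop, 3 * C₄ ≤ x := eventually_ge_atTop _
  have E4 : ∀ᶠ x : ℝ in atTop, 3 * C₅ * x ^ (K + 5) * exp (-(1 / 5) * x ^ (1 : ℝ)) ≤ 1 :=
    eventually_pow_exp _ _ (by norm_num) one_pos
  have E5 : ∀ᶠ x : ℝ in atTop, 3 * x ^ 4 * exp (-(4 : ℝ) * x ^ (1 : ℝ)) ≤ 1 :=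
    eventually_pow_exp _ _ (by norm_num) one_pos
  obtain ⟨j₀, hj₀⟩ := eventually_atTop.1 (tendsto_natCast_atTop_atTop.eventually
    ((((E1.and E2).and E3).and E4).and (E5.and (eventually_ge_atTop (1 : ℝ)))))
  refine ⟨j₀, fun j hj p hp hp1 hθ1 => ?_⟩
  obtain ⟨⟨⟨⟨x1, x2⟩, x3⟩, x4⟩, x5, x6⟩ := hj₀ j hj
  rw [rpow_one] at x4 x5
  set x := (j : ℝ) with hx
  have hx0 : 0 < x := by linarith
  set dp := x ^ (-(β / 2)) with hdpdef
  have hdp : 0 < dp := rpow_pos_of_pos hx0 _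
  set P := p + dp with hP
  have hp0 : 0 < p := by linarith
  have hP0 : 0 < P := by linarith
  have hP1 : P < 1 := hp1.trans hpc
  have hlim := tail_lim hS hc hP0 hp1
  set s := ⌊c₀ * x⌋₊ with hs
  have hs1 : (s : ℝ) ≤ c₀ * x := Nat.floor_le (by positivity)
  have hs2 : c₀ / 2 * x ≤ s := by linarith [Nat.lt_floor_add_one (c₀ * x)]
  have hs0 : 1 ≤ s := Nat.le_floor (by push_cast; linarith)
  set L := a₁ * x ^ β with hL
  have hL0 : 0 < L := by positivity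
  set n := 2 ^ j with hn
  obtain ⟨hnexp, hVexp⟩ := scale_le hc0 hβ0 hβ1 hb0 hball x6 hs0 hs2
  set m := ⌈exp (4 * L)⌉₊ with hm
  have hm1 : 1 ≤ m := Nat.one_le_ceil_iff.2 (exp_pos _)
  have hm2 : (m : ℝ) ≤ 2 * exp (4 * L) := by
    have h1 := Nat.ceil_lt_add_one (exp_pos (4 * L)).le
    have h2 := add_one_le_exp (4 * L)
    rw [← hm] at h1; linarith
  set ι := 2 * exp (-L) with hι
  have hinflconst : ∀ q ∈ Set.Icc p P, ∀ ρ : ℝ, τ ≤ ρ →
      (2 * (m : ℝ) / (ball S s).card + 2 * m / n) / ρ + (3 * ghostC S q / √(m : ℝ)) / (1 - q)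
        ≤ ι := by
    intro q hq ρ hρ
    have hq0 : 0 < q := by linarith [hq.1]
    have hq1 : q < 1 := hq.2.trans_lt hP1
    refine (infl_const (G := G₀) hL0.le (Nat.le_ceil _) hm2 hVexp hnexp hτ0 hρ
      (ghostC_pos (S := S) hq0 hq1).le (ghostC_le hpc0 hpc (hp.trans hq.1) (hq.2.trans hp1.le))
      (sub_pos.2 hpc) (by linarith [hq.2])).trans ?_
    rw [← hDc, hι, show -(2 * L) = -L + -L by ring, exp_add, ← mul_assoc]
    refine mul_le_mul_of_nonneg_right ?_ (exp_pos _).le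
    rw [pow_zero, mul_one, neg_mul, ← hL] at x2
    linarith
  -- the hole bound at the new parameter
  set H := (W * x ^ (-(β / 2))) ^ k with hH
  have hHole : ∀ T : ℕ, ∀ᶠ M : ℕ in atTop, ∀ w ∈ ball S T,
      avg (eball S 1 M) P (fun η => ind (bigMass S w s n η < τ)) ≤ H := by
    intro T
    filter_upwards [split_le_upto hS hP0 hP1 hlim hm1 (T + s + 2 * n + 2),
      eventually_ge_atTop (T + s + 2 * n + 3)] with M hsplit hM w hw
    have hT1 : θ₁ ≤ avg (eball S 1 M) p (rampMass S w s n) := by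
      refine hθ1.trans ?_
      rw [pow_succ, mul_comm]
      exact tail_le_avg_rampMass hS hp0.le (by linarith) Nat.one_le_two_pow hw (by omega)
    have h := sharp_iter (eball S 1 M) _ (rampMass_mono (S := S) w s n) (rampMass_nonneg w s n)
      (rampMass_le_one w s n) k hk hp0 hdp hP1 hθ hT1 hL0 (ι := ι)
      (by rw [hι, mul_left_comm, ← exp_add, add_neg_cancel, exp_zero, mul_one])
      (fun q hq ρ hρ _ e he => by
        have hq0 : 0 < q := by linarith [hq.1]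
        have hq1 : q < 1 := hq.2.trans_lt hP1
        refine (infl_cut hS hq0 hq1 Nat.one_le_two_pow hm1 hw hM (hτ0.trans_le hρ)
          (div_nonneg (by linarith [ghostC_pos (S := S) hq0 hq1]) (sqrt_nonneg _))
          (fun u hu a => hsplit q hq0 hq.2 u hu a) e he).trans (hinflconst q hq ρ hρ))
    refine le_trans (avg_mono _ hP0.le hP1.le fun η _ => ind_mono fun hlt => ?_) (h.trans ?_)
    · exact (rampMass_le_bigMass w s n η).trans hlt.le
    · refine le_of_eq ?_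
      have e : x ^ β * x ^ (-(β / 2)) * x ^ (-(β / 2)) = 1 := by
        rw [← rpow_add hx0, ← rpow_add hx0, show β + -(β / 2) + -(β / 2) = 0 by ring, rpow_zero]
      rw [hH, hW, hdpdef, hL]
      congr 1
      field_simp
      linear_combination -e
  have hA := apartLe_short (r := 2 * s + 1) hS hc hpc (by linarith : pc (cayley S) / 2 ≤ P) hp1
    (j := j) (by push_cast; linarith)
  set A := 9 * G₀ * x * exp (-x / 5) with hAdef
  set R₀ := Q * j ^ K with hR₀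
  have hτ1 : τ ≤ 1 := by
    rw [hτ, div_le_one (by positivity)]
    have := tail_le_one (S := S) hp0.le (by linarith) (2 ^ (j + 1))
    linarith [one_le_pow₀ (show (1 : ℝ) ≤ 2 by norm_num) (n := k + 2)]
  have hpath := apartLe_path (R := 2 * R₀) hS hP0.le hP1.le hτ0 hτ1 hA hHole
  have hN : n ≤ 2 ^ (2 * j + 1) := Nat.pow_le_pow_right (by norm_num) (by omega)
  have hmid := mid_le hS hP0.le hP1.le hN hpath
  have hG0 : 0 ≤ G₀ := (ghostC_pos hP0 hP1).le.trans (ghostC_le hpc0 hpc (by linarith) hp1.le)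
  obtain ⟨t1, t2, t3⟩ := three_terms hc0 hβ0 hball x6 (τ := τ) (W := W) hτ0 (by positivity)
    hG0 (k := k) (Nat.le_ceil _) x3 x4 x5
  have hsq : (tail S P n - tail S P (2 ^ (2 * j + 1))) ^ 2 ≤ (1 / x ^ 2) ^ 2 := by
    refine hmid.trans ?_
    rw [show (1 / x ^ 2) ^ 2 = 1 / x ^ 4 by ring]
    have e3 : 1 / (3 * x ^ 4) = 1 / x ^ 4 / 3 := by ring
    push_cast at t3 ⊢
    linarith
  have hdiff := (abs_le.1 (abs_le_of_sq_le_sq hsq (by positivity))).2
  have hmono := (tail_mono_param (S := S) hp0.le (show p ≤ P by linarith) hP1.le (2 ^ (j + 1))).trans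
    (tail_antitone hS hP0.le hP1.le (show n ≤ 2 ^ (j + 1) from
      Nat.pow_le_pow_right (by norm_num) (by omega)))
  linarith

/-- The finite-size criterion: a large cluster at one large scale forces percolation after a small
increase of the parameter. -/
theorem criterion (hS : Gens S) [Infinite Γ] (hc : (cayley S).Connected)
    (hpc : pc (cayley S) < 1) {c β : ℝ} (hG : Grow S c β) {θ₀ : ℝ} (hθ : 0 < θ₀) :
    ∃ j₀ : ℕ, ∀ j ≥ j₀, ∀ p : ℝ, pc (cayley S) / 2 ≤ p → θ₀ ≤ tail S p (2 ^ (j + 1)) →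
      pc (cayley S) ≤ p + (j : ℝ) ^ (-(β / 4)) := by
  obtain ⟨j₁, hstep⟩ := doubling hS hc hpc hG (half_pos hθ)
  have hβ0 := hG.β_pos
  have hpc0 := pc_pos hS hc
  set b : ℝ := (2 : ℝ) ^ (-(β / 2)) with hb
  have hb0 : 0 < b := rpow_pos_of_pos two_pos _
  have hb1 : b < 1 := rpow_lt_one_of_one_lt_of_neg one_lt_two (by linarith)
  have E1 : ∀ᶠ x : ℝ in atTop, 1 / (1 - b) ≤ x ^ (β / 4) :=
    (tendsto_rpow_atTop (by linarith)).eventually_ge_atTop _
  have E2 : ∀ᶠ x : ℝ in atTop, 1 / x ^ 2 ≤ θ₀ / 4 ∧ 1 ≤ x := by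
    filter_upwards [eventually_ge_atTop (max 1 (4 / θ₀))] with x hx
    have h1 : 1 ≤ x := le_of_max_le_left hx
    refine ⟨?_, h1⟩
    rw [div_le_iff₀ (by positivity)]
    have h2 := le_of_max_le_right hx
    rw [div_le_iff₀ hθ] at h2
    nlinarith [mul_le_mul_of_nonneg_right h1 (show (0 : ℝ) ≤ x * θ₀ by nlinarith)]
  obtain ⟨j₂, hj₂⟩ := eventually_atTop.1
    (tendsto_natCast_atTop_atTop.eventually (E1.and E2))
  refine ⟨max j₁ j₂, fun j hj p hp hθ1 => ?_⟩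
  obtain ⟨x1, x2, x3⟩ := hj₂ j (le_of_max_le_right hj)
  have hjpos : 0 < (j : ℝ) := by linarith
  by_contra hlt
  rw [not_le] at hlt
  set x := (j : ℝ) with hx
  set w := x ^ (-(β / 2)) with hw
  have hw0 : 0 < w := rpow_pos_of_pos hjpos _
  set pp : ℕ → ℝ := fun i => p + w * ((1 - b ^ i) / (1 - b)) with hpp
  have hcap : ∀ i, pp i ≤ p + x ^ (-(β / 4)) := by
    intro i
    rw [hpp]
    simp only
    have h1 : (1 - b ^ i) / (1 - b) ≤ 1 / (1 - b) :=
      div_le_div_of_nonneg_right (by linarith [pow_nonneg hb0.le i]) (by linarith)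
    have h2 := mul_le_mul_of_nonneg_left (h1.trans x1) hw0.le
    rw [hw, ← rpow_add hjpos, show -(β / 2) + β / 4 = -(β / 4) by ring] at h2
    rw [hw]; linarith
  have hge : ∀ i, p ≤ pp i := by
    intro i
    rw [hpp]
    simp only
    have : 0 ≤ (1 - b ^ i) / (1 - b) :=
      div_nonneg (by linarith [pow_le_one₀ hb0.le hb1.le (n := i)]) (by linarith)
    nlinarith
  have hsucc : ∀ i : ℕ, pp (i + 1) = pp i + ((2 ^ i * j : ℕ) : ℝ) ^ (-(β / 2)) := by
    intro i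
    push_cast
    rw [← hx, mul_rpow (by positivity) hjpos.le, ← rpow_natCast 2 i, ← rpow_mul two_pos.le,
      mul_comm (i : ℝ), rpow_mul two_pos.le, ← hb, rpow_natCast, ← hw, hpp]
    simp only
    have : (1 - b) ≠ 0 := by linarith
    field_simp
    ring
  have hind : ∀ i : ℕ, θ₀ - 1 / x ^ 2 * (2 - 2 / 2 ^ i) ≤ tail S (pp i) (2 ^ (2 ^ i * j + 1)) := by
    intro i
    induction i with
    | zero => simpa [hpp] using hθ1
    | succ i ih =>
      have hj' : j₁ ≤ 2 ^ i * j :=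
        (le_of_max_le_left hj).trans (Nat.le_mul_of_pos_left j (Nat.two_pow_pos i))
      have hp' : pp i + ((2 ^ i * j : ℕ) : ℝ) ^ (-(β / 2)) < pc (cayley S) := by
        rw [← hsucc]; linarith [hcap (i + 1)]
      have hpos : 0 ≤ 1 / x ^ 2 * (2 / 2 ^ i) := by positivity
      have h := hstep (2 ^ i * j) hj' (pp i) (hp.trans (hge i)) hp' (le_trans (by nlinarith) ih)
      rw [← hsucc, show 2 * (2 ^ i * j) + 1 = 2 ^ (i + 1) * j + 1 by ring] at h
      refine le_trans ?_ h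
      have e : 1 / ((2 ^ i * j : ℕ) : ℝ) ^ 2 ≤ 1 / x ^ 2 * (1 / 2 ^ i) := by
        push_cast
        rw [← hx, div_mul_div_comm, one_mul]
        refine one_div_le_one_div_of_le (by positivity) ?_
        rw [mul_pow]
        nlinarith [mul_le_mul_of_nonneg_right
          (show (2 : ℝ) ^ i ≤ (2 ^ i) ^ 2 by nlinarith [one_le_pow₀ (show (1:ℝ) ≤ 2 by norm_num) (n := i)])
          (show (0 : ℝ) ≤ x ^ 2 by positivity)]
      rw [pow_succ (2 : ℝ) i]
      have e2 : 1 / x ^ 2 * (2 - 2 / (2 ^ i * 2)) = 1 / x ^ 2 * (2 - 2 / 2 ^ i)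
          + 1 / x ^ 2 * (1 / 2 ^ i) := by field_simp; ring
      linarith
  set P := p + x ^ (-(β / 4)) with hP
  have hP0 : 0 < P := by have := rpow_pos_of_pos hjpos (-(β / 4)); linarith
  obtain ⟨N₀, hN₀⟩ := eventually_atTop.1 ((tail_lim hS hc hP0 hlt).eventually
    (eventually_le_nhds (show 0 < θ₀ / 4 by linarith)))
  have hN : N₀ ≤ 2 ^ (2 ^ N₀ * j + 1) := by
    have hj1 : 1 ≤ j := by rw [hx] at x3; exact_mod_cast x3
    exact (Nat.lt_two_pow_self).le.trans ((Nat.le_mul_of_pos_right _ hj1).trans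
      ((Nat.le_succ _).trans (Nat.lt_two_pow_self).le))
  have h1 := hN₀ _ hN
  have h2 := (hind N₀).trans (tail_mono_param (by linarith [hge N₀]) (hcap N₀)
    (hlt.le.trans hpc.le) (2 ^ (2 ^ N₀ * j + 1)))
  have h3 : 1 / x ^ 2 * (2 - 2 / 2 ^ N₀) ≤ θ₀ / 2 := by
    have : 0 ≤ (2 : ℝ) / 2 ^ N₀ := by positivity
    nlinarith [show 0 ≤ 1 / x ^ 2 by positivity]
  linarith

end Vale.Agent.P151.Growth
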