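import Vale.Agent.P151.Growth.Swap

/-!
# Local events of three configurations and their translates
-/

namespace Vale.Agent.P151

open Finset Vale.Agent.P165

variable {Γ : Type} [Group Γ] [DecidableEq Γ] {S : Finset Γ}

variable (S) in
/-- The bound of the two-ghost inequality. -/
noncomputable def ghostB (p : ℝ) (n : ℕ) : ℝ :=
  80 * Real.sqrt (2 * S.card + 1) / (p * (1 - p)) / Real.sqrt n

theorem touch_image (g : Γ) (Z : Finset Γ) :
    touch (nb S) (Z.image (g * ·)) = shift g (touch (nb S) Z) := by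
  ext e
  simp only [touch, shift, mem_image, mem_product, mem_univ, and_true]
  constructor
  · rintro ⟨⟨_, a⟩, ⟨z, hz, rfl⟩, rfl⟩
    exact ⟨s(z, nb S z a), ⟨(z, a), hz, rfl⟩, by simp [nb, mul_assoc]⟩
  · rintro ⟨_, ⟨⟨z, a⟩, hz, rfl⟩, rfl⟩
    exact ⟨(g * z, a), ⟨z, hz, rfl⟩, by simp [nb, mul_assoc]⟩

theorem shift_mix (g : Γ) (Z : Finset Γ) (η η' : Finset (Sym2 Γ)) :
    mix S (Z.image (g * ·)) (shift g η) (shift g η') = shift g (mix S Z η η') := by
  rw [mix, mix, touch_image, ← shift_inter, shift, shift, shift,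
    ← image_sdiff _ _ (Sym2.map.injective (mul_right_injective g)), ← image_union]
  rfl

theorem shift_erase (g : Γ) (η : Finset (Sym2 Γ)) (f : Sym2 Γ) :
    (shift g η).erase (Sym2.map (g * ·) f) = shift g (η.erase f) :=
  (image_erase (Sym2.map.injective (mul_right_injective g)) _ _).symm

theorem mul_mem_cls_shift {g x y : Γ} {η : Finset (Sym2 Γ)} :
    g * y ∈ cls (shift g η) (g * x) ↔ y ∈ cls η x := by
  rw [cls_shift, (mul_right_injective g).mem_finset_image]

theorem split_shift (g x y : Γ) (n R : ℕ) (η : Finset (Sym2 Γ)) :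
    Split n R (shift g η) (g * x) (g * y) ↔ Split n R η x y := by
  simp only [Split, csize_shift, mul_mem_cls_shift]

variable (S) in
/-- The cluster of `a` in the recovered witness configuration contains `y` and is small. -/
def Seen (N : ℕ) (Z : Finset Γ) (a y : Γ) (α β ξ : Finset (Sym2 Γ)) : Prop :=
  y ∈ cls (mix S Z β α ∩ ξ) a ∧ csize (mix S Z β α ∩ ξ) a ≤ N

theorem seen_shift (g a y : Γ) (N : ℕ) (Z : Finset Γ) (α β ξ : Finset (Sym2 Γ)) :
    Seen S N (Z.image (g * ·)) (g * a) (g * y) (shift g α) (shift g β) (shift g ξ)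
      ↔ Seen S N Z a y α β ξ := by
  simp only [Seen, shift_mix, ← shift_inter, csize_shift, mul_mem_cls_shift]

/-- Vertices near `a`. -/
theorem touch_subset_eball {a : Γ} {C : Finset Γ} {L : ℕ} (h : ∀ z ∈ C, a⁻¹ * z ∈ ball S L) :
    touch (nb S) C ⊆ eball S a L := by
  intro e he
  obtain ⟨⟨z, s⟩, hz, rfl⟩ := mem_image.1 he
  exact mem_touch (mem_image.2 ⟨_, h z (mem_product.1 hz).1, mul_inv_cancel_left a z⟩) s

theorem cls_near (hS : Gens S) {η : Finset (Sym2 Γ)} (hv : Valid S η) {a x : Γ} {T K L : ℕ}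
    (hx : a⁻¹ * x ∈ ball S T) (hK : csize η x ≤ K) (hL : T + K ≤ L) :
    ∀ z ∈ cls η x, a⁻¹ * z ∈ ball S L := by
  intro z hz
  have := mem_ball_add hx (cls_subset_ball hS hv hz)
  rw [show a⁻¹ * x * (x⁻¹ * z) = a⁻¹ * z by group] at this
  exact ball_mono (by omega) this

/-- A cluster whose touching edges lie in `B` is seen in `B`. -/
theorem cls_inter_of_touch (hS : Gens S) {η B : Finset (Sym2 Γ)} (hv : Valid S η) {x : Γ}
    (h : touch (nb S) (cls η x) ⊆ B) : cls (η ∩ B) x = cls η x :=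
  cls_congr_touch hS hv (fun e he => hv e (inter_subset_left he))
    (by rw [inter_assoc, inter_eq_right.2 h])

theorem seen_local (hS : Gens S) {α β ξ : Finset (Sym2 Γ)} (hα : Valid S α) (hβ : Valid S β)
    {a y : Γ} {N L : ℕ} (hN : N ≤ L + 1) (Z : Finset Γ) :
    Seen S N Z a y α β ξ
      ↔ Seen S N Z a y (α ∩ eball S a L) (β ∩ eball S a L) (ξ ∩ eball S a L) := by
  set B := eball S a L
  have e : mix S Z (β ∩ B) (α ∩ B) ∩ (ξ ∩ B) = (mix S Z β α ∩ ξ) ∩ B := by
    ext f
    simp only [mem_inter, mem_mix]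
    tauto
  have hv : Valid S (mix S Z β α ∩ ξ) := fun f hf => by
    rcases mem_mix.1 (inter_subset_left hf) with h | h
    · exact hβ f h.1
    · exact hα f h.1
  simp only [Seen, e]
  constructor
  · rintro ⟨h1, h2⟩
    rw [csize, ← cls_inter (E := B) hS hv inter_subset_right (Or.inl (h2.trans hN))]
    exact ⟨h1, h2⟩
  · rintro ⟨h1, h2⟩
    rw [csize, cls_inter (E := B) hS hv inter_subset_right (Or.inr (h2.trans hN))]
    exact ⟨h1, h2⟩

variable (S) in
/-- The event of case (ii): a large second cluster behind the edge `ab`. -/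
def Join (m R N : ℕ) (a b y : Γ) (α β ξ : Finset (Sym2 Γ)) : Prop :=
  Split m (2 * R) α a b ∧ Seen S N (cls α a) a y α β ξ

/-- The clusters at the ends of `f` outside the cluster of `b`. -/
noncomputable def outer (η : Finset (Sym2 Γ)) (f : Sym2 Γ) (b : Γ) : Finset Γ :=
  (f.toFinset.filter fun v => v ∉ cls η b).biUnion (cls η)

omit [Group Γ] in
theorem outer_eq {η : Finset (Sym2 Γ)} {i o b : Γ} (hi : i ∈ cls η b) (ho : o ∉ cls η b) :
    outer η s(i, o) b = cls η o := by
  have : (s(i, o) : Sym2 Γ).toFinset.filter (fun v => v ∉ cls η b) = {o} := by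
    ext v
    simp only [mem_filter, Sym2.mem_toFinset, Sym2.mem_iff, mem_singleton]
    exact ⟨fun h => h.1.resolve_left fun hv => h.2 (hv ▸ hi), fun h => ⟨Or.inr h, h ▸ ho⟩⟩
  rw [outer, this, singleton_biUnion]

theorem outer_shift (g b : Γ) (η : Finset (Sym2 Γ)) (f : Sym2 Γ) :
    outer (shift g η) (Sym2.map (g * ·) f) (g * b) = (outer η f b).image (g * ·) := by
  have h1 : (Sym2.map (g * ·) f).toFinset = f.toFinset.image (g * ·) := by
    ext v
    simp only [Sym2.mem_toFinset, Sym2.mem_map, mem_image]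
  rw [outer, outer, h1, filter_image, image_biUnion, biUnion_image]
  simp only [mul_mem_cls_shift]
  exact biUnion_congr rfl fun v _ => cls_shift g v η

variable (S) in
/-- The event of case (iii): reopening `f` makes two large clusters at the edge `ab`. -/
def Cut (n m R N : ℕ) (a b y : Γ) (f : Sym2 Γ) (α β ξ : Finset (Sym2 Γ)) : Prop :=
  f ∈ α ∧ Split n (4 * R) α a b ∧ csize (α.erase f) b < m ∧
    Seen S N (cls (α.erase f) a ∪ outer (α.erase f) f b) a y (α.erase f) β ξ

theorem join_shift (g a b y : Γ) (m R N : ℕ) (α β ξ : Finset (Sym2 Γ)) :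
    Join S m R N (g * a) (g * b) (g * y) (shift g α) (shift g β) (shift g ξ)
      ↔ Join S m R N a b y α β ξ := by
  simp only [Join, split_shift, cls_shift, seen_shift]

theorem cut_shift (g a b y : Γ) (f : Sym2 Γ) (n m R N : ℕ) (α β ξ : Finset (Sym2 Γ)) :
    Cut S n m R N (g * a) (g * b) (g * y) (Sym2.map (g * ·) f) (shift g α) (shift g β) (shift g ξ)
      ↔ Cut S n m R N a b y f α β ξ := by
  simp only [Cut, mem_shift, split_shift, shift_erase, outer_shift, cls_shift, ← image_union,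
    seen_shift, csize_shift]

theorem near_nb {a : Γ} (s : {a // a ∈ S}) : a⁻¹ * nb S a s ∈ ball S 1 := by
  simpa [nb] using mul_mem_ball_succ (one_mem_ball (S := S) 0) s.2

theorem near_self (a : Γ) : a⁻¹ * a ∈ ball S 0 := by simp [ball]

theorem join_local (hS : Gens S) {α β ξ : Finset (Sym2 Γ)} (hα : Valid S α) (hβ : Valid S β)
    {a y : Γ} (s : {a // a ∈ S}) {m R N L : ℕ} (hL : 2 * R + N + 1 ≤ L) :
    Join S m R N a (nb S a s) y α β ξ ↔ Join S m R N a (nb S a s) y
      (α ∩ eball S a L) (β ∩ eball S a L) (ξ ∩ eball S a L) := by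
  set B := eball S a L
  have key : ∀ c : Γ, a⁻¹ * c ∈ ball S 1 → csize (α ∩ B) c ≤ 2 * R ∨ csize α c ≤ 2 * R →
      cls (α ∩ B) c = cls α c := by
    intro c hc h
    refine (cls_inter (R := L - 1) hS hα (inter_subset_right.trans (eball_mono hc (by omega))) ?_).symm
    rcases h with h | h
    exacts [Or.inr (h.trans (by omega)), Or.inl (h.trans (by omega))]
  simp only [Join, Split]
  constructor
  · rintro ⟨⟨h1, h2, h3, h4⟩, h5⟩
    have ea := key a (ball_mono (by omega) (near_self a)) (Or.inr (by omega))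
    have eb := key _ (near_nb s) (Or.inr (by omega))
    simp only [csize, ea, eb] at *
    exact ⟨⟨h1, h2, h3, h4⟩, (seen_local hS hα hβ (by omega) _).1 h5⟩
  · rintro ⟨⟨h1, h2, h3, h4⟩, h5⟩
    have ea := key a (ball_mono (by omega) (near_self a)) (Or.inl (by omega))
    have eb := key _ (near_nb s) (Or.inl (by omega))
    simp only [csize, ea, eb] at *
    exact ⟨⟨h1, h2, h3, h4⟩, (seen_local hS hα hβ (by omega) _).2 h5⟩

theorem split_touch (hS : Gens S) {α : Finset (Sym2 Γ)} (hα : Valid S α) {a : Γ}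
    (s : {a // a ∈ S}) {n K L : ℕ} (h : Split n K α a (nb S a s)) (hL : K + 1 ≤ L) :
    touch (nb S) (cls α a) ⊆ eball S a L ∧ touch (nb S) (cls α (nb S a s)) ⊆ eball S a L :=
  ⟨touch_subset_eball (cls_near (K := K) hS hα (near_self a)
      ((Nat.le_add_right _ _).trans h.2.2.2) (by omega)),
    touch_subset_eball (cls_near (K := K) hS hα (near_nb s)
      ((Nat.le_add_left _ _).trans h.2.2.2) (by omega))⟩

/-- In case (iii) the reopened edge is near `a`. -/
theorem cut_mem (hS : Gens S) {α β ξ : Finset (Sym2 Γ)} (hα : Valid S α) {a y : Γ}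
    (s : {a // a ∈ S}) {f : Sym2 Γ} {n m R N L : ℕ} (hmn : m ≤ n) (hL : 4 * R + 1 ≤ L)
    (h : Cut S n m R N a (nb S a s) y f α β ξ) : f ∈ eball S a L := by
  by_contra hf
  have ht := (split_touch hS hα s h.2.1 hL).2
  have : cls (α.erase f) (nb S a s) = cls α (nb S a s) :=
    cls_congr_touch hS hα (fun e he => hα e (mem_of_mem_erase he)) (by
      rw [erase_inter, erase_eq_of_notMem]
      exact fun hm => hf (ht (inter_subset_right hm)))
  have h2 := h.2.2.1
  have h3 := h.2.1.2.2.1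
  simp only [csize, this] at h2 h3
  omega

theorem cut_local (hS : Gens S) {α β ξ : Finset (Sym2 Γ)} (hα : Valid S α) (hβ : Valid S β)
    {a y : Γ} (s : {a // a ∈ S}) {f : Sym2 Γ} {n m R N L : ℕ} (hmn : m ≤ n)
    (hL : 4 * R + N + 1 ≤ L) :
    Cut S n m R N a (nb S a s) y f α β ξ ↔ Cut S n m R N a (nb S a s) y f
      (α ∩ eball S a L) (β ∩ eball S a L) (ξ ∩ eball S a L) := by
  set B := eball S a L
  set b := nb S a s
  have hv' : Valid S (α.erase f) := fun e he => hα e (mem_of_mem_erase he)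
  have core : f ∈ α → f ∈ B → Split n (4 * R) α a b →
      Split n (4 * R) (α ∩ B) a b →
      (csize (α.erase f) b < m ↔ csize ((α ∩ B).erase f) b < m) ∧
      (csize (α.erase f) b < m →
      (Seen S N (cls (α.erase f) a ∪ outer (α.erase f) f b) a y (α.erase f) β ξ ↔
        Seen S N (cls ((α ∩ B).erase f) a ∪ outer ((α ∩ B).erase f) f b) a y ((α ∩ B).erase f)
          (β ∩ B) (ξ ∩ B))) := by
    intro hfa hfB hsp _
    obtain ⟨ta, tb⟩ := split_touch hS hα s hsp (show 4 * R + 1 ≤ L by omega)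
    have e0 : (α ∩ B).erase f = α.erase f ∩ B := (erase_inter ..).symm
    have ea : cls (α.erase f ∩ B) a = cls (α.erase f) a :=
      cls_inter_of_touch hS hv' ((touch_mono (cls_mono (erase_subset f α) a)).trans ta)
    have eb : cls (α.erase f ∩ B) b = cls (α.erase f) b :=
      cls_inter_of_touch hS hv' ((touch_mono (cls_mono (erase_subset f α) b)).trans tb)
    refine ⟨by simp only [csize, e0, eb], fun hlt => ?_⟩
    obtain ⟨i, o, hfe, -, -, hi, ho, hun⟩ := exit_edge (κ := α) (le_trans hmn hsp.2.2.1) hlt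
    have eo : cls (α.erase f ∩ B) o = cls (α.erase f) o := by
      refine cls_inter_of_touch hS hv' ((touch_mono ?_).trans tb)
      rw [hun]
      exact subset_union_right
    have e1 : outer (α.erase f) f b = cls (α.erase f) o := by
      conv_lhs => arg 2; rw [hfe]
      exact outer_eq hi ho
    have e2 : outer (α.erase f ∩ B) f b = cls (α.erase f ∩ B) o := by
      conv_lhs => arg 2; rw [hfe]
      exact outer_eq (eb ▸ hi) (eb ▸ ho)
    rw [e0, e1, e2, ea, eo]
    exact seen_local hS hv' hβ (by omega) _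
  have hsl : Split n (4 * R) α a b ↔ Split n (4 * R) (α ∩ B) a b := by
    have h1 := split_local (n := n) (R := 4 * R) hS hα (x := a) s
    have h2 := split_local (n := n) (R := 4 * R) hS (η := α ∩ B)
      (fun e he => hα e (inter_subset_left he)) (x := a) s
    have hsub : eball S a (4 * R + 1) ⊆ B := eball_mono (T := 0) (near_self a) (by omega)
    rw [inter_assoc, inter_eq_right.2 hsub] at h2
    exact h1.trans h2.symm
  constructor
  · intro h
    have hfB : f ∈ B := cut_mem hS hα s hmn (show 4 * R + 1 ≤ L by omega) h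
    obtain ⟨hfa, hsp, hlt, hseen⟩ := h
    have hc := core hfa hfB hsp (hsl.1 hsp)
    exact ⟨mem_inter.2 ⟨hfa, hfB⟩, hsl.1 hsp, hc.1.1 hlt, (hc.2 hlt).1 hseen⟩
  · rintro ⟨hf, hsp, hlt, hseen⟩
    obtain ⟨hfa, hfB⟩ := mem_inter.1 hf
    have hc := core hfa hfB (hsl.2 hsp) hsp
    exact ⟨hfa, hsl.2 hsp, hc.1.2 hlt, (hc.2 (hc.1.2 hlt)).2 hseen⟩

/-- The average over three independent configurations. -/
noncomputable def avg3 {α : Type} [DecidableEq α] (E : Finset α) (p r : ℝ)
    (F : Finset α → Finset α → Finset α → ℝ) : ℝ :=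
  avg E p fun η => avg E p fun η' => avg E r fun ξ => F η η' ξ

theorem avg3_window {E : Finset (Sym2 Γ)} {a : Γ} {L : ℕ} (hE : eball S a L ⊆ E) (p r : ℝ)
    {F : Finset (Sym2 Γ) → Finset (Sym2 Γ) → Finset (Sym2 Γ) → ℝ}
    (hF : ∀ α β ξ, α ⊆ E → β ⊆ E → ξ ⊆ E →
      F α β ξ = F (α ∩ eball S a L) (β ∩ eball S a L) (ξ ∩ eball S a L)) :
    avg3 E p r F = avg3 (eball S 1 L) p r fun α β ξ => F (shift a α) (shift a β) (shift a ξ) := by
  have hsh : ∀ κ, κ ⊆ eball S (1 : Γ) L → shift a κ ⊆ E := fun κ hκ => by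
    refine (image_subset_image hκ).trans ?_
    rw [← shift, shift_eball, mul_one]
    exact hE
  have idem : ∀ κ : Finset (Sym2 Γ), κ ∩ eball S a L ∩ eball S a L = κ ∩ eball S a L := fun κ => by
    rw [inter_assoc, inter_self]
  have sub : ∀ κ : Finset (Sym2 Γ), κ ⊆ E → κ ∩ eball S a L ⊆ E := fun κ h =>
    inter_subset_left.trans h
  rw [avg3, avg3, avg_local hE p fun α hα => avg_congr E p fun β hβ => avg_congr E r fun ξ hξ => by
    rw [hF α β ξ hα hβ hξ, hF (α ∩ eball S a L) β ξ (sub α hα) hβ hξ, idem]]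
  refine avg_congr _ _ fun α hα => ?_
  rw [avg_local hE p fun β hβ => avg_congr E r fun ξ hξ => by
    rw [hF _ β ξ (hsh α hα) hβ hξ, hF _ (β ∩ eball S a L) ξ (hsh α hα) (sub β hβ) hξ, idem]]
  refine avg_congr _ _ fun β hβ => ?_
  exact avg_local hE r fun ξ hξ => by
    rw [hF _ _ ξ (hsh α hα) (hsh β hβ) hξ,
      hF _ _ (ξ ∩ eball S a L) (hsh α hα) (hsh β hβ) (sub ξ hξ), idem]

end Vale.Agent.P151
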