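import Vale.Agent.P151.Growth.Defs

/-!
# Averages over a ball: variance of the large-cluster share and influences of the cut-off
-/

namespace Vale.Agent.P151.Growth

open Finset Vale.Agent.P165

variable {Γ : Type} [Group Γ] [DecidableEq Γ] {S : Finset Γ}

theorem card_ball_pos (s : ℕ) : (0 : ℝ) < ((ball S s).card : ℝ) := by
  exact_mod_cast card_pos.2 ⟨1, one_mem_ball s⟩

theorem mean_nonneg {w : Γ} {s : ℕ} {g : Γ → ℝ} (h : ∀ z, 0 ≤ g z) : 0 ≤ mean S w s g :=
  div_nonneg (sum_nonneg fun _ _ => h _) (Nat.cast_nonneg _)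

theorem mean_mono {w : Γ} {s : ℕ} {g g' : Γ → ℝ} (h : ∀ b ∈ ball S s, g (w * b) ≤ g' (w * b)) :
    mean S w s g ≤ mean S w s g' :=
  div_le_div_of_nonneg_right (sum_le_sum h) (Nat.cast_nonneg _)

theorem mean_const (w : Γ) (s : ℕ) (c : ℝ) : mean S w s (fun _ => c) = c := by
  rw [mean, sum_const, nsmul_eq_mul, mul_div_cancel_left₀ _ (card_ball_pos s).ne']

theorem mean_le_one {w : Γ} {s : ℕ} {g : Γ → ℝ} (h : ∀ z, g z ≤ 1) : mean S w s g ≤ 1 :=
  (mean_mono fun _ _ => h _).trans (mean_const w s 1).le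

theorem avg_mean (E : Finset (Sym2 Γ)) (p : ℝ) (w : Γ) (s : ℕ)
    (g : Finset (Sym2 Γ) → Γ → ℝ) :
    avg E p (fun η => mean S w s (g η)) = mean S w s (fun z => avg E p fun η => g η z) := by
  simp only [mean, div_eq_inv_mul, avg_mul, avg_sum]

omit [Group Γ] [DecidableEq Γ] in
theorem sum_ind (A : Finset Γ) (P : Γ → Prop) [DecidablePred P] :
    ∑ x ∈ A, ind (P x) = ((A.filter P).card : ℝ) := by
  rw [card_filter, Nat.cast_sum]
  refine sum_congr rfl fun x _ => ?_
  by_cases h : P x <;> simp [ind, h]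

omit [Group Γ] in
theorem csize_mono {η η' : Finset (Sym2 Γ)} (h : η ⊆ η') (x : Γ) : csize η x ≤ csize η' x :=
  card_le_card (cls_mono h x)

theorem ramp_nonneg (n k : ℕ) : 0 ≤ ramp n k := le_min zero_le_one (le_max_left _ _)

theorem ramp_le_one (n k : ℕ) : ramp n k ≤ 1 := min_le_left _ _

theorem ramp_mono (n : ℕ) {k k' : ℕ} (h : k ≤ k') : ramp n k ≤ ramp n k' :=
  min_le_min le_rfl (max_le_max le_rfl (div_le_div_of_nonneg_right
    (sub_le_sub_right (Nat.cast_le.2 h) _) (Nat.cast_nonneg _)))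

theorem ramp_eq_one {n k : ℕ} (hn : 1 ≤ n) (h : 2 * n ≤ k) : ramp n k = 1 := by
  have hn' : (0 : ℝ) < n := by exact_mod_cast hn
  have h' : (2 : ℝ) * n ≤ k := by exact_mod_cast h
  refine min_eq_left (le_max_of_le_right ?_)
  rw [le_div_iff₀ hn']
  linarith

theorem ramp_le_ind (n k : ℕ) : ramp n k ≤ ind (n ≤ k) := by
  by_cases h : n ≤ k
  · rw [ind_true h]; exact ramp_le_one n k
  · rw [ind_false h]
    refine min_le_of_right_le (max_le le_rfl (div_nonpos_of_nonpos_of_nonneg ?_ (Nat.cast_nonneg _)))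
    rw [sub_nonpos]; exact_mod_cast (not_le.1 h).le

theorem ind_le_ramp {n : ℕ} (hn : 1 ≤ n) (k : ℕ) : ind (2 * n ≤ k) ≤ ramp n k := by
  by_cases h : 2 * n ≤ k
  · rw [ind_true h, ramp_eq_one hn h]
  · rw [ind_false h]; exact ramp_nonneg n k

theorem ramp_add_le (n k j : ℕ) : ramp n (k + j) ≤ ramp n k + (j : ℝ) / n := by
  have hj : (0 : ℝ) ≤ (j : ℝ) / n := by positivity
  have e : (((k + j : ℕ) : ℝ) - n) / n = ((k : ℝ) - n) / n + (j : ℝ) / n := by
    push_cast; rw [← add_div]; congr 1; ring
  simp only [ramp, e]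
  rw [← min_add_add_right]
  refine min_le_min (by linarith) ?_
  rw [← max_add_add_right]
  exact max_le_max (by linarith) le_rfl

theorem cut_nonneg (ρ x : ℝ) : 0 ≤ cut ρ x := le_min zero_le_one (le_max_left _ _)

theorem cut_le_one (ρ x : ℝ) : cut ρ x ≤ 1 := min_le_left _ _

theorem cut_anti {ρ : ℝ} (hρ : 0 < ρ) {x y : ℝ} (h : x ≤ y) : cut ρ y ≤ cut ρ x :=
  min_le_min le_rfl (max_le_max le_rfl (div_le_div_of_nonneg_right (by linarith) hρ.le))

theorem cut_lipschitz {ρ : ℝ} (hρ : 0 < ρ) {x y : ℝ} (h : x ≤ y) :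
    cut ρ x ≤ cut ρ y + (y - x) / ρ := by
  have hd : 0 ≤ (y - x) / ρ := div_nonneg (by linarith) hρ.le
  have e : (2 * ρ - x) / ρ = (2 * ρ - y) / ρ + (y - x) / ρ := by
    rw [← add_div]; congr 1; ring
  simp only [cut, e]
  rw [← min_add_add_right]
  refine min_le_min (by linarith) ?_
  rw [← max_add_add_right]
  exact max_le_max (by linarith) le_rfl

theorem bigMass_nonneg (w : Γ) (s n : ℕ) (η : Finset (Sym2 Γ)) : 0 ≤ bigMass S w s n η :=
  mean_nonneg fun _ => ind_nonneg _

theorem bigMass_le_one (w : Γ) (s n : ℕ) (η : Finset (Sym2 Γ)) : bigMass S w s n η ≤ 1 :=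
  mean_le_one fun _ => ind_le_one _

theorem bigMass_mono (w : Γ) (s n : ℕ) : Monotone (bigMass S w s n) :=
  fun _ _ h => mean_mono fun _ _ => ind_mono fun hn => hn.trans (csize_mono h _)

theorem rampMass_nonneg (w : Γ) (s n : ℕ) (η : Finset (Sym2 Γ)) : 0 ≤ rampMass S w s n η :=
  mean_nonneg fun _ => ramp_nonneg _ _

theorem rampMass_le_one (w : Γ) (s n : ℕ) (η : Finset (Sym2 Γ)) : rampMass S w s n η ≤ 1 :=
  mean_le_one fun _ => ramp_le_one _ _

theorem rampMass_mono (w : Γ) (s n : ℕ) : Monotone (rampMass S w s n) :=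
  fun _ _ h => mean_mono fun _ _ => ramp_mono n (csize_mono h _)

theorem cut_rampMass_antitone {ρ : ℝ} (hρ : 0 < ρ) (w : Γ) (s n : ℕ) :
    Antitone fun η => cut ρ (rampMass S w s n η) :=
  fun _ _ h => cut_anti hρ (rampMass_mono w s n h)

theorem rampMass_le_bigMass (w : Γ) (s n : ℕ) (η : Finset (Sym2 Γ)) :
    rampMass S w s n η ≤ bigMass S w s n η :=
  mean_mono fun _ _ => ramp_le_ind _ _

/-- The mean share of large clusters in a ball. -/
theorem avg_bigMass (hS : Gens S) (p : ℝ) {w : Γ} {s n M T : ℕ} (hw : w ∈ ball S T)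
    (hM : T + s + n ≤ M) : avg (eball S 1 M) p (bigMass S w s n) = tail S p n := by
  unfold bigMass
  rw [avg_mean, mean, sum_congr rfl fun b hb => tail_eq (n := n) hS
    (valid_eball hS (Subset.refl _)) (eball_one (mem_ball_add hw hb) hM) p,
    sum_const, nsmul_eq_mul, mul_div_cancel_left₀ _ (card_ball_pos s).ne']

theorem tail_le_avg_rampMass (hS : Gens S) {p : ℝ} (h0 : 0 ≤ p) (h1 : p ≤ 1) {w : Γ}
    {s n M T : ℕ} (hn : 1 ≤ n) (hw : w ∈ ball S T) (hM : T + s + 2 * n ≤ M) :
    tail S p (2 * n) ≤ avg (eball S 1 M) p (rampMass S w s n) := by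
  rw [← avg_bigMass hS p (n := 2 * n) hw hM]
  exact avg_mono _ h0 h1 fun η _ => mean_mono fun _ _ => ind_le_ramp hn _

omit [Group Γ] in
/-- Clusters away from a new edge are unchanged. -/
theorem cls_insert_away {η : Finset (Sym2 Γ)} {u v z : Γ} (hu : z ∉ cls η u) (hv : z ∉ cls η v) :
    cls (insert s(u, v) η) z = cls η z := by
  refine Subset.antisymm (fun y hy => ?_) (cls_mono (subset_insert _ _) z)
  obtain ⟨w⟩ := mem_cls.1 hy
  have : ∀ {a b : Γ}
      (w : (SimpleGraph.fromEdgeSet ((insert s(u, v) η : Finset (Sym2 Γ)) : Set (Sym2 Γ))).Walk a b),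
      a ∈ cls η z → b ∈ cls η z := by
    intro a b w
    induction w with
    | nil => exact id
    | @cons a b c hadj _ ih =>
      intro ha
      refine ih ?_
      obtain ⟨h1, h2⟩ := (SimpleGraph.fromEdgeSet_adj _).1 hadj
      rcases mem_insert.1 (mem_coe.1 h1) with h | h
      · rcases Sym2.eq_iff.1 h with ⟨rfl, -⟩ | ⟨rfl, -⟩
        · exact absurd (mem_cls.2 (mem_cls.1 ha).symm) hu
        · exact absurd (mem_cls.2 (mem_cls.1 ha).symm) hv
      · exact mem_cls.2 ((mem_cls.1 ha).trans (cl_edge h2 h))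
  exact this w (self_mem_cls η z)

omit [Group Γ] in
/-- The cluster size after an edge has been inserted. -/
theorem csize_insert_cases {η : Finset (Sym2 Γ)} {u v : Γ} (hne : u ≠ v) (hd : v ∉ cls η u)
    (z : Γ) :
    (z ∈ cls η u ∧ csize η z = csize η u ∧
      csize (insert s(u, v) η) z = csize η u + csize η v) ∨
    (z ∈ cls η v ∧ csize η z = csize η v ∧
      csize (insert s(u, v) η) z = csize η u + csize η v) ∨
    (z ∉ cls η u ∧ z ∉ cls η v ∧ csize (insert s(u, v) η) z = csize η z) := by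
  have hsum : ∀ z, z ∈ cls η u ∪ cls η v →
      csize (insert s(u, v) η) z = csize η u + csize η v := fun z hz => by
    rw [← csize_insert hne hd, csize, csize]
    congr 1
    rw [← cls_insert hne] at hz
    exact (cls_eq (mem_cls.1 hz)).symm
  by_cases hu : z ∈ cls η u
  · exact Or.inl ⟨hu, by rw [csize, csize, cls_eq (mem_cls.1 hu)], hsum z (mem_union_left _ hu)⟩
  by_cases hv : z ∈ cls η v
  · exact Or.inr (Or.inl ⟨hv, by rw [csize, csize, cls_eq (mem_cls.1 hv)],
      hsum z (mem_union_right _ hv)⟩)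
  exact Or.inr (Or.inr ⟨hu, hv, by rw [csize, csize, cls_insert_away hu hv]⟩)

/-- The ball hits of a small cluster. -/
noncomputable def smallHit (S : Finset Γ) (w : Γ) (s m : ℕ) (η : Finset (Sym2 Γ)) (u : Γ) : ℝ :=
  ∑ b ∈ ball S s, ind (csize η u < m ∧ w * b ∈ cls η u)

theorem smallHit_nonneg (w : Γ) (s m : ℕ) (η : Finset (Sym2 Γ)) (u : Γ) :
    0 ≤ smallHit S w s m η u :=
  sum_nonneg fun _ _ => ind_nonneg _

theorem smallHit_le (w : Γ) (s m : ℕ) (η : Finset (Sym2 Γ)) (u : Γ) :
    smallHit S w s m η u ≤ m := by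
  classical
  by_cases h : csize η u < m
  swap
  · rw [smallHit, sum_eq_zero fun b _ => ind_false fun hb => h hb.1]
    exact Nat.cast_nonneg m
  refine le_trans ?_ (Nat.cast_le.2 h.le)
  rw [smallHit]
  rw [sum_ind]
  refine Nat.cast_le.2 ?_
  refine card_le_card_of_injOn (fun b => w * b) (fun b hb => (mem_filter.1 hb).2.2)
    fun b _ b' _ hb => mul_left_cancel hb

/-- The change of the large share when one edge opens. -/
theorem bigMass_insert_le (w : Γ) (s m : ℕ) {η : Finset (Sym2 Γ)} {u v : Γ} (hne : u ≠ v) :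
    bigMass S w s m (insert s(u, v) η) - bigMass S w s m η
      ≤ (smallHit S w s m η u + smallHit S w s m η v) / (ball S s).card := by
  rw [bigMass, bigMass, mean, mean, ← sub_div, ← sum_sub_distrib, smallHit, smallHit,
    ← sum_add_distrib]
  refine div_le_div_of_nonneg_right (sum_le_sum fun b _ => ?_) (Nat.cast_nonneg _)
  set z := w * b
  have n1 := ind_nonneg (csize η u < m ∧ z ∈ cls η u)
  have n2 := ind_nonneg (csize η v < m ∧ z ∈ cls η v)
  by_cases hbig : m ≤ csize η z
  · rw [ind_true (hbig.trans (csize_mono (subset_insert _ _) z)), ind_true hbig]; linarith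
  rw [ind_false hbig, sub_zero]
  by_cases hd : v ∈ cls η u
  · rw [ind_false]
    · linarith
    have e : cls (insert s(u, v) η) z = cls η z := by
      by_cases hu : z ∈ cls η u
      · have h1 : z ∈ cls (insert s(u, v) η) u := cls_mono (subset_insert _ _) u hu
        rw [← cls_eq (mem_cls.1 h1), ← cls_eq (mem_cls.1 hu), cls_insert hne,
          ← cls_eq (mem_cls.1 hd), union_self]
      · exact cls_insert_away hu (by rwa [← cls_eq (mem_cls.1 hd)])
    rwa [csize, e]
  rcases csize_insert_cases hne hd z with ⟨hz, hc, -⟩ | ⟨hz, hc, -⟩ | ⟨-, -, hc⟩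
  · rw [ind_true (show csize η u < m ∧ z ∈ cls η u from ⟨by omega, hz⟩)]
    linarith [ind_le_one (m ≤ csize (insert s(u, v) η) z)]
  · rw [ind_true (show csize η v < m ∧ z ∈ cls η v from ⟨by omega, hz⟩)]
    linarith [ind_le_one (m ≤ csize (insert s(u, v) η) z)]
  · rw [ind_false (by omega)]; linarith

theorem card_incident (hS : Gens S) {E : Finset (Sym2 Γ)} (hE : Valid S E) (u : Γ) :
    (E.filter fun e => u ∈ e).card ≤ S.card := by
  refine le_trans (card_le_card (t := (univ : Finset {a // a ∈ S}).image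
    fun a => s(u, nb S u a)) fun e he => ?_) (card_image_le.trans (by simp))
  obtain ⟨he, hu⟩ := mem_filter.1 he
  obtain ⟨v, rfl⟩ := Sym2.mem_iff_exists.1 hu
  obtain ⟨a, ha⟩ := (hS.labelling.adj u v).1 (hE _ he : (cayley S).Adj u v)
  exact mem_image.2 ⟨a, mem_univ _, by rw [ha]⟩

/-- The variance of the large share. -/
theorem var_bigMass (hS : Gens S) {p : ℝ} (h0 : 0 ≤ p) (h1 : p ≤ 1) {E : Finset (Sym2 Γ)}
    (hE : Valid S E) (w : Γ) (s m : ℕ) :
    var E p (bigMass S w s m) ≤ 2 * S.card * (m : ℝ) ^ 2 / (ball S s).card := by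
  classical
  set V : ℝ := ((ball S s).card : ℝ) with hV
  have hV0 : 0 < V := card_ball_pos s
  set c := smallHit S w s m with hc
  set Q : Sym2 Γ → Finset (Sym2 Γ) → ℝ := fun e η => ∑ u ∈ e.toFinset, c η u ^ 2 with hQ
  have hedge : ∀ e ∈ E, p * (1 - p) * avg E p (fun η => dlt e (bigMass S w s m) η ^ 2)
      ≤ 2 / V ^ 2 * avg E p (Q e) := by
    intro e he
    have hQ0 : ∀ η, 0 ≤ Q e η := fun η => sum_nonneg fun _ _ => sq_nonneg _
    have hpt : ∀ η, dlt e (bigMass S w s m) η ^ 2 ≤ 2 / V ^ 2 * Q e (η.erase e) := by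
      intro η
      induction e using Sym2.ind with
      | h u v =>
        have hne : u ≠ v := (show (cayley S).Adj u v from hE _ he).ne
        have hins : insert s(u, v) η = insert s(u, v) (η.erase s(u, v)) := by
          ext x; by_cases hx : x = s(u, v) <;> simp [hx]
        have hd0 : 0 ≤ dlt s(u, v) (bigMass S w s m) η :=
          sub_nonneg.2 (bigMass_mono w s m ((erase_subset _ _).trans (subset_insert _ _)))
        have hd : dlt s(u, v) (bigMass S w s m) η
            ≤ (c (η.erase s(u, v)) u + c (η.erase s(u, v)) v) / V := by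
          rw [dlt, hins]; exact bigMass_insert_le w s m hne
        refine (pow_le_pow_left₀ hd0 hd 2).trans ?_
        have e2 : (s(u, v) : Sym2 Γ).toFinset = {u, v} := by ext x; simp
        simp only [hQ, e2, sum_pair hne]
        rw [div_pow, div_mul_eq_mul_div]
        refine div_le_div_of_nonneg_right ?_ (sq_nonneg _)
        nlinarith [sq_nonneg (c (η.erase s(u, v)) u - c (η.erase s(u, v)) v)]
    have hstep : (1 - p) * avg E p (fun η => Q e (η.erase e)) ≤ avg E p (Q e) := by
      rw [← avg_erase, avg_edge he p (Q e)]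
      have : 0 ≤ p * avg (E.erase e) p (fun η => Q e (insert e η)) :=
        mul_nonneg h0 (avg_nonneg _ h0 h1 fun η _ => hQ0 _)
      linarith
    refine (mul_le_mul_of_nonneg_left (avg_mono E h0 h1 fun η _ => hpt η)
      (mul_nonneg h0 (sub_nonneg.2 h1))).trans ?_
    rw [avg_mul]
    have h2 : p * ((1 - p) * avg E p (fun η => Q e (η.erase e))) ≤ 1 * avg E p (Q e) :=
      mul_le_mul h1 hstep (mul_nonneg (sub_nonneg.2 h1) (avg_nonneg _ h0 h1 fun η _ => hQ0 _))
        zero_le_one
    calc p * (1 - p) * (2 / V ^ 2 * avg E p (fun η => Q e (η.erase e)))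
        = 2 / V ^ 2 * (p * ((1 - p) * avg E p (fun η => Q e (η.erase e)))) := by ring
      _ ≤ _ := mul_le_mul_of_nonneg_left (by linarith) (by positivity)
  refine (poincare E h0 h1 _).trans ?_
  rw [dir, mul_sum]
  refine (sum_le_sum hedge).trans ?_
  rw [← mul_sum, ← avg_sum]
  have hpt : ∀ η, ∑ e ∈ E, Q e η ≤ S.card * (V * (m : ℝ) ^ 2) := by
    intro η
    set U := E.biUnion Sym2.toFinset
    have h1' : ∑ e ∈ E, Q e η = ∑ u ∈ U, ∑ _e ∈ E.filter (fun e => u ∈ e), c η u ^ 2 := by
      simp only [hQ]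
      refine sum_comm' fun e u => ?_
      simp only [U, mem_biUnion, mem_filter, Sym2.mem_toFinset]
      exact ⟨fun h => ⟨⟨h.1, h.2⟩, e, h.1, h.2⟩, fun h => h.1⟩
    rw [h1']
    calc ∑ u ∈ U, ∑ _e ∈ E.filter (fun e => u ∈ e), c η u ^ 2
        ≤ ∑ u ∈ U, (S.card : ℝ) * ((m : ℝ) * c η u) := by
          refine sum_le_sum fun u _ => ?_
          rw [sum_const, nsmul_eq_mul, pow_two]
          exact mul_le_mul (Nat.cast_le.2 (card_incident hS hE u))
            (mul_le_mul_of_nonneg_right (smallHit_le w s m η u) (smallHit_nonneg w s m η u))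
            (mul_self_nonneg _) (Nat.cast_nonneg _)
      _ = (S.card : ℝ) * (m * ∑ b ∈ ball S s, ∑ u ∈ U, ind (csize η u < m ∧ w * b ∈ cls η u)) := by
          rw [← mul_sum, ← mul_sum, hc]
          simp only [smallHit]
          rw [sum_comm]
      _ ≤ (S.card : ℝ) * (m * ∑ _b ∈ ball S s, (m : ℝ)) := by
          refine mul_le_mul_of_nonneg_left (mul_le_mul_of_nonneg_left (sum_le_sum fun b _ => ?_)
            (Nat.cast_nonneg _)) (Nat.cast_nonneg _)
          rw [sum_ind]
          set z := w * b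
          by_cases hz : csize η z < m
          · refine Nat.cast_le.2 (le_trans (card_le_card fun u hu => ?_) hz.le)
            exact mem_cls.2 (mem_cls.1 (mem_filter.1 hu).2.2).symm
          · refine le_trans (Nat.cast_le.2 (le_of_eq (card_eq_zero.2 ?_))) (le_of_eq_of_le
              Nat.cast_zero (Nat.cast_nonneg m))
            refine filter_eq_empty_iff.2 fun u _ hu => hz ?_
            rw [csize, ← cls_eq (mem_cls.1 hu.2)]
            exact hu.1
      _ = _ := by rw [sum_const, nsmul_eq_mul, hV]; ring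
  refine (mul_le_mul_of_nonneg_left ((avg_mono E h0 h1 fun η _ => hpt η).trans
    (avg_const E p _).le) (by positivity)).trans (le_of_eq ?_)
  field_simp

/-- The influence of an edge on the cut-off ball average. -/
theorem infl_cut (hS : Gens S) {p : ℝ} (h0 : 0 < p) (h1 : p < 1) {n m s M T : ℕ} (hn : 1 ≤ n)
    (_hm : 1 ≤ m) {w : Γ} (hw : w ∈ ball S T) (_hM : T + s + 2 * n + 3 ≤ M) {ρ Bs : ℝ}
    (hρ : 0 < ρ) (hB : 0 ≤ Bs)
    (hsplit : ∀ u ∈ ball S (T + s + 2 * n + 2), ∀ a : {a // a ∈ S},
      avg (eball S 1 M) p (fun η => ind (nb S u a ∉ cls η u ∧ m ≤ csize η u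
        ∧ m ≤ csize η (nb S u a))) ≤ Bs)
    (e : Sym2 Γ) (he : e ∈ eball S 1 M) :
    avg (eball S 1 M) p (fun η => |dlt e (fun ξ => cut ρ (rampMass S w s n ξ)) η|)
      ≤ (2 * m / (ball S s).card + 2 * m / n) / ρ + Bs / (1 - p) := by
  classical
  set E := eball S (1 : Γ) M with hE
  have hv : Valid S E := valid_eball hS (Subset.refl _)
  set V : ℝ := ((ball S s).card : ℝ) with hV
  have hV0 : 0 < V := card_ball_pos s
  have hn0 : (0 : ℝ) < n := by exact_mod_cast hn
  have hq : 0 < 1 - p := sub_pos.2 h1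
  have hC0 : 0 ≤ (2 * (m : ℝ) / V + 2 * m / n) / ρ := by positivity
  induction e using Sym2.ind with
  | h u v =>
    have hadj : (cayley S).Adj u v := hv _ he
    have hne : u ≠ v := hadj.ne
    obtain ⟨a, ha⟩ := (hS.labelling.adj u v).1 hadj
    let f := fun ξ => cut ρ (rampMass S w s n ξ)
    let P : Finset (Sym2 Γ) → Prop := fun η =>
      u ∈ ball S (T + s + 2 * n + 2) ∧ v ∉ cls η u ∧ m ≤ csize η u ∧ m ≤ csize η v
    have hpt : ∀ η, η ⊆ E → |dlt s(u, v) f η|
        ≤ (2 * (m : ℝ) / V + 2 * m / n) / ρ + ind (P (η.erase s(u, v))) := by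
      intro η hη
      set ξ := η.erase s(u, v) with hξ
      have hins : insert s(u, v) η = insert s(u, v) ξ := by
        ext x; by_cases hx : x = s(u, v) <;> simp [hξ, hx]
      rw [dlt, hins, abs_sub_comm, abs_of_nonneg (sub_nonneg.2
        (cut_rampMass_antitone hρ w s n (subset_insert _ _)))]
      by_cases hP : P ξ
      · rw [ind_true hP]
        have a1 := cut_le_one ρ (rampMass S w s n ξ)
        have a2 := cut_nonneg ρ (rampMass S w s n (insert s(u, v) ξ))
        linarith
      rw [ind_false hP, add_zero]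
      refine le_trans ?_ (div_le_div_of_nonneg_right
        (show rampMass S w s n (insert s(u, v) ξ) - rampMass S w s n ξ
          ≤ 2 * (m : ℝ) / V + 2 * m / n from ?_) hρ.le)
      · have := cut_lipschitz hρ (rampMass_mono (S := S) w s n (subset_insert s(u, v) ξ))
        linarith
      have hnn : 0 ≤ 2 * (m : ℝ) / V + 2 * m / n := by positivity
      rw [rampMass, rampMass, mean, mean, ← sub_div, ← sum_sub_distrib, ← hV,
        div_le_iff₀ hV0]
      by_cases hd : v ∈ cls ξ u
      · refine le_trans (le_of_eq (sum_eq_zero fun b _ => ?_)) (mul_nonneg hnn hV0.le)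
        rw [sub_eq_zero]
        congr 1
        rw [csize, csize]
        congr 1
        by_cases hu : w * b ∈ cls ξ u
        · rw [← cls_eq (mem_cls.1 (cls_mono (subset_insert s(u, v) ξ) u hu)),
            ← cls_eq (mem_cls.1 hu), cls_insert hne, ← cls_eq (mem_cls.1 hd), union_self]
        · exact cls_insert_away hu (by rwa [← cls_eq (mem_cls.1 hd)])
      by_cases huT : u ∈ ball S (T + s + 2 * n + 2)
      swap
      · refine le_trans (le_of_eq (sum_eq_zero fun b hb => ?_)) (mul_nonneg hnn hV0.le)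
        set z := w * b with hz
        have hzT : z ∈ ball S (T + s) := mem_ball_add hw hb
        have hξv : Valid S ξ := fun x hx => hv x (hη (mem_of_mem_erase hx))
        have hnear : ∀ x, z ∈ cls ξ x → csize ξ z < 2 * n → x ∈ ball S (T + s + 2 * n) := by
          intro x hx hlt
          have h' := cls_subset_ball hS hξv (mem_cls.2 (mem_cls.1 hx).symm : x ∈ cls ξ z)
          have := mem_ball_add hzT (ball_mono (show csize ξ z - 1 ≤ 2 * n by omega) h')
          rwa [mul_inv_cancel_left] at this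
        rcases csize_insert_cases hne hd z with ⟨h, -, hc⟩ | ⟨h, -, hc⟩ | ⟨-, -, hc⟩
        · have : 2 * n ≤ csize ξ z := by
            by_contra hlt
            exact huT (ball_mono (by omega) (hnear u h (by omega)))
          rw [ramp_eq_one hn this,
            ramp_eq_one hn (this.trans (csize_mono (subset_insert _ _) z)), sub_self]
        · have : 2 * n ≤ csize ξ z := by
            by_contra hlt
            obtain ⟨a', ha'⟩ := (hS.labelling.adj v u).1 hadj.symm
            have hu' : nb S v a' ∈ ball S (T + s + 2 * n + 1) :=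
              mul_mem_ball_succ (hnear v h (by omega)) a'.2
            rw [ha'] at hu'
            exact huT (ball_mono (by omega) hu')
          rw [ramp_eq_one hn this,
            ramp_eq_one hn (this.trans (csize_mono (subset_insert _ _) z)), sub_self]
        · rw [hc, sub_self]
      have hsmall : csize ξ u < m ∨ csize ξ v < m := by
        by_contra hboth
        rw [not_or, not_lt, not_lt] at hboth
        exact hP ⟨huT, hd, hboth.1, hboth.2⟩
      -- one side is small: its own vertices, and a small shift for the other side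
      have key : ∀ x y : Γ, csize ξ x < m → (∀ z : Γ,
          (z ∈ cls ξ x ∧ csize ξ z = csize ξ x) ∨
          (z ∈ cls ξ y ∧ csize ξ z = csize ξ y ∧
            csize (insert s(u, v) ξ) z = csize ξ y + csize ξ x) ∨
          csize (insert s(u, v) ξ) z = csize ξ z) →
          ∑ b ∈ ball S s, (ramp n (csize (insert s(u, v) ξ) (w * b)) - ramp n (csize ξ (w * b)))
            ≤ (2 * (m : ℝ) / V + 2 * m / n) * V := by
        intro x y hx hcase
        have hb : ∀ b ∈ ball S s,
            ramp n (csize (insert s(u, v) ξ) (w * b)) - ramp n (csize ξ (w * b))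
              ≤ ind (csize ξ x < m ∧ w * b ∈ cls ξ x) + (m : ℝ) / n := by
          intro b _
          have i0 := ind_nonneg (csize ξ x < m ∧ w * b ∈ cls ξ x)
          have j0 : 0 ≤ (m : ℝ) / n := by positivity
          rcases hcase (w * b) with ⟨h, -⟩ | ⟨-, h2, h3⟩ | h
          · rw [ind_true (show csize ξ x < m ∧ w * b ∈ cls ξ x from ⟨hx, h⟩)]
            linarith [ramp_le_one n (csize (insert s(u, v) ξ) (w * b)),
              ramp_nonneg n (csize ξ (w * b))]
          · rw [h3, h2]
            have h4 := ramp_add_le n (csize ξ y) (csize ξ x)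
            have : (csize ξ x : ℝ) / n ≤ (m : ℝ) / n :=
              div_le_div_of_nonneg_right (Nat.cast_le.2 hx.le) hn0.le
            linarith
          · rw [h]; linarith
        refine (sum_le_sum hb).trans ?_
        rw [sum_add_distrib, sum_const, nsmul_eq_mul, ← hV]
        have h5 : smallHit S w s m ξ x ≤ m := smallHit_le w s m ξ x
        simp only [smallHit] at h5
        have e1 : (2 * (m : ℝ) / V + 2 * m / n) * V = 2 * m + 2 * (V * (m / n)) := by
          field_simp
        rw [e1]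
        have : 0 ≤ V * ((m : ℝ) / n) := by positivity
        have : (0 : ℝ) ≤ m := Nat.cast_nonneg m
        linarith
      rcases hsmall with hs | hs
      · refine key u v hs fun z => ?_
        rcases csize_insert_cases hne hd z with ⟨h, h2, -⟩ | ⟨h, h2, h3⟩ | ⟨-, -, h⟩
        · exact Or.inl ⟨h, h2⟩
        · exact Or.inr (Or.inl ⟨h, h2, by omega⟩)
        · exact Or.inr (Or.inr h)
      · refine key v u hs fun z => ?_
        rcases csize_insert_cases hne hd z with ⟨h, h2, h3⟩ | ⟨h, h2, -⟩ | ⟨-, -, h⟩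
        · exact Or.inr (Or.inl ⟨h, h2, by omega⟩)
        · exact Or.inl ⟨h, h2⟩
        · exact Or.inr (Or.inr h)
    refine (avg_mono E h0.le h1.le hpt).trans ?_
    rw [avg_add, avg_const]
    refine add_le_add le_rfl ?_
    rw [le_div_iff₀ hq, mul_comm, ← avg_erase s(u, v) p (fun η => ind (P η))]
    have h3 : (1 - p) * avg (E.erase s(u, v)) p (fun η => ind (P η))
        ≤ avg E p (fun η => ind (P η)) := by
      rw [avg_edge he p (fun η => ind (P η))]
      have : 0 ≤ p * avg (E.erase s(u, v)) p (fun η => ind (P (insert s(u, v) η))) :=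
        mul_nonneg h0.le (avg_nonneg _ h0.le h1.le fun η _ => ind_nonneg _)
      linarith
    refine h3.trans ?_
    by_cases huT : u ∈ ball S (T + s + 2 * n + 2)
    · refine le_trans (avg_mono E h0.le h1.le fun η _ => ind_mono fun h => ?_) (hsplit u huT a)
      rw [ha]; exact h.2
    · refine le_trans (le_of_eq ?_) hB
      rw [avg_congr E p (g := fun _ => (0 : ℝ)) fun η _ => ind_false fun h => huT h.1, avg_const]

end Vale.Agent.P151.Growth
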