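import Vale.Agent.P151.Avg

/-!
# Poincaré, log-Sobolev and the Falik–Samorodnitsky inequality on a finite cube
-/

namespace Vale.Agent.P151.Growth

open Finset Vale.Agent.P165

variable {α : Type} [DecidableEq α]

/-- The influence increment of a coordinate. -/
def dlt (e : α) (f : Finset α → ℝ) (η : Finset α) : ℝ := f (insert e η) - f (η.erase e)

/-- The variance. -/
def var (E : Finset α) (p : ℝ) (f : Finset α → ℝ) : ℝ :=
  avg E p (fun η => f η ^ 2) - avg E p f ^ 2

/-- The entropy. -/
noncomputable def ent (E : Finset α) (p : ℝ) (f : Finset α → ℝ) : ℝ :=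
  avg E p (fun η => f η * Real.log (f η)) - avg E p f * Real.log (avg E p f)

omit [DecidableEq α] in
theorem cs (E : Finset α) {p : ℝ} (h0 : 0 ≤ p) (h1 : p ≤ 1) (f g : Finset α → ℝ) :
    avg E p (fun η => f η * g η) ^ 2
      ≤ avg E p (fun η => f η ^ 2) * avg E p (fun η => g η ^ 2) := by
  simp only [avg]
  refine sum_sq_le_sum_mul_sum_of_sq_le_mul _
    (fun η _ => mul_nonneg (wt_nonneg E h0 h1 η) (sq_nonneg _))
    (fun η _ => mul_nonneg (wt_nonneg E h0 h1 η) (sq_nonneg _)) fun η _ => le_of_eq ?_
  ring

theorem var_nonneg (E : Finset α) {p : ℝ} (h0 : 0 ≤ p) (h1 : p ≤ 1) (f : Finset α → ℝ) :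
    0 ≤ var E p f := by
  have := cs E h0 h1 f (fun _ => 1)
  simp only [mul_one, one_pow, avg_one] at this
  simp only [var]; linarith

omit [DecidableEq α] in
theorem var_le (E : Finset α) (p : ℝ) (f : Finset α → ℝ) :
    var E p f ≤ avg E p (fun η => f η ^ 2) := by
  simp only [var]; linarith [sq_nonneg (avg E p f)]

theorem var_insert {E : Finset α} {e : α} (he : e ∉ E) (p : ℝ) (f : Finset α → ℝ) :
    var (insert e E) p f = p * var E p (fun η => f (insert e η)) + (1 - p) * var E p f
      + p * (1 - p) * avg E p (fun η => f (insert e η) - f η) ^ 2 := by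
  simp only [var, avg_insert he, avg_sub]; ring

theorem dlt_insert {E η : Finset α} {e x : α} (he : e ∉ E) (hx : x ∈ E) (f : Finset α → ℝ) :
    dlt x f (insert e η) = dlt x (fun ξ => f (insert e ξ)) η := by
  have hne : e ≠ x := fun h => he (h ▸ hx)
  simp only [dlt, Finset.insert_comm x e, erase_insert_of_ne hne]

theorem dlt_self {E η : Finset α} {e : α} (he : e ∉ E) (hη : η ⊆ E) (f : Finset α → ℝ) :
    dlt e f η = f (insert e η) - f η ∧ dlt e f (insert e η) = f (insert e η) - f η := by
  have hne : e ∉ η := fun h => he (hη h)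
  simp [dlt, erase_eq_of_notMem hne, erase_insert hne]

theorem avg_dlt_insert {E : Finset α} {e x : α} (he : e ∉ E) (hx : x ∈ E) (p : ℝ)
    (φ : ℝ → ℝ) (f : Finset α → ℝ) :
    avg (insert e E) p (fun η => φ (dlt x f η))
      = p * avg E p (fun η => φ (dlt x (fun ξ => f (insert e ξ)) η))
        + (1 - p) * avg E p (fun η => φ (dlt x f η)) := by
  simp only [avg_insert he, dlt_insert he hx]

theorem avg_dlt_self {E : Finset α} {e : α} (he : e ∉ E) (p : ℝ) (φ : ℝ → ℝ)
    (f : Finset α → ℝ) :
    avg (insert e E) p (fun η => φ (dlt e f η))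
      = avg E p (fun η => φ (f (insert e η) - f η)) := by
  rw [avg_insert he, avg_congr E p fun η hη => by rw [(dlt_self he hη f).2],
    avg_congr E p (f := fun η => φ (dlt e f η)) fun η hη => by rw [(dlt_self he hη f).1]]
  ring

/-- The Dirichlet form. -/
def dir (E : Finset α) (p : ℝ) (f : Finset α → ℝ) : ℝ :=
  ∑ e ∈ E, avg E p (fun η => dlt e f η ^ 2)

theorem dir_insert {E : Finset α} {e : α} (he : e ∉ E) (p : ℝ) (f : Finset α → ℝ) :
    dir (insert e E) p f = p * dir E p (fun η => f (insert e η)) + (1 - p) * dir E p f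
      + avg E p (fun η => (f (insert e η) - f η) ^ 2) := by
  rw [dir, sum_insert he, avg_dlt_self he p (fun x => x ^ 2), dir, dir, mul_sum, mul_sum,
    ← sum_add_distrib, add_comm]
  congr 1
  exact sum_congr rfl fun x hx => avg_dlt_insert he hx p (fun y => y ^ 2) f

/-- Poincaré inequality. -/
theorem poincare (E : Finset α) {p : ℝ} (h0 : 0 ≤ p) (h1 : p ≤ 1) (f : Finset α → ℝ) :
    var E p f ≤ p * (1 - p) * dir E p f := by
  induction E using Finset.induction_on generalizing f with
  | empty => simp [var, dir, avg_empty]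
  | @insert e E he ih =>
    rw [var_insert he, dir_insert he]
    have a1 := mul_le_mul_of_nonneg_left (ih (fun η => f (insert e η))) h0
    have a0 := mul_le_mul_of_nonneg_left (ih f) (sub_nonneg.2 h1)
    have a2 := var_nonneg E h0 h1 (fun η => f (insert e η) - f η)
    simp only [var] at a2
    nlinarith [mul_le_mul_of_nonneg_left a2 (mul_nonneg h0 (sub_nonneg.2 h1))]

theorem two_point {p a b : ℝ} (h0 : 0 < p) (h1 : p < 1) (ha : 0 ≤ a) (hb : 0 ≤ b) :
    p * (a * Real.log a) + (1 - p) * (b * Real.log b)
        - (p * a + (1 - p) * b) * Real.log (p * a + (1 - p) * b)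
      ≤ p * (1 - p) * (a - b) ^ 2 / (p * a + (1 - p) * b) := by
  set M := p * a + (1 - p) * b with hM
  have hq : 0 < 1 - p := sub_pos.2 h1
  rcases eq_or_lt_of_le (show 0 ≤ M by positivity) with h | h
  · have ha' : a = 0 := by nlinarith
    have hb' : b = 0 := by nlinarith
    simp [← h, ha', hb']
  have key : ∀ x : ℝ, 0 ≤ x → x * Real.log x ≤ x * Real.log M + x * (x / M - 1) := by
    intro x hx
    rcases eq_or_lt_of_le hx with rfl | hx'
    · simp
    have := Real.log_le_sub_one_of_pos (div_pos hx' h)
    rw [Real.log_div hx'.ne' h.ne'] at this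
    nlinarith [mul_le_mul_of_nonneg_left this hx]
  have ka := mul_le_mul_of_nonneg_left (key a ha) h0.le
  have kb := mul_le_mul_of_nonneg_left (key b hb) hq.le
  have e : p * (1 - p) * (a - b) ^ 2 / M
      = p * (a * (a / M - 1)) + (1 - p) * (b * (b / M - 1)) := by
    field_simp
    rw [hM]; ring
  rw [e]
  nlinarith [ka, kb]

/-- Log-Sobolev inequality. -/
theorem lsi (E : Finset α) {p : ℝ} (h0 : 0 < p) (h1 : p < 1) (f : Finset α → ℝ) :
    ent E p (fun η => f η ^ 2) ≤ 2 * dir E p f := by
  induction E using Finset.induction_on generalizing f with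
  | empty => simp [ent, dir, avg_empty]
  | @insert e E he ih =>
    have hq : 0 < 1 - p := sub_pos.2 h1
    set f₁ : Finset α → ℝ := fun η => f (insert e η) with hf₁
    set a := avg E p (fun η => f₁ η ^ 2) with ha
    set b := avg E p (fun η => f η ^ 2) with hb
    set D := avg E p (fun η => (f₁ η - f η) ^ 2) with hD
    have ha0 : 0 ≤ a := avg_nonneg E h0.le h1.le fun η _ => sq_nonneg _
    have hb0 : 0 ≤ b := avg_nonneg E h0.le h1.le fun η _ => sq_nonneg _
    have hD0 : 0 ≤ D := avg_nonneg E h0.le h1.le fun η _ => sq_nonneg _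
    have hdiff : (a - b) ^ 2 ≤ D * (2 * a + 2 * b) := by
      have h := cs E h0.le h1.le (fun η => f₁ η - f η) (fun η => f₁ η + f η)
      have e1 : avg E p (fun η => (f₁ η - f η) * (f₁ η + f η)) = a - b := by
        rw [ha, hb, ← avg_sub]; exact avg_congr E p fun η _ => by ring
      rw [e1] at h
      refine h.trans (mul_le_mul_of_nonneg_left ?_ hD0)
      rw [ha, hb, ← avg_mul, ← avg_mul, ← avg_add]
      exact avg_mono E h0.le h1.le fun η _ => by nlinarith [sq_nonneg (f₁ η - f η)]
    have htwo : p * (1 - p) * (a - b) ^ 2 / (p * a + (1 - p) * b) ≤ 2 * D := by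
      rcases eq_or_lt_of_le (show 0 ≤ p * a + (1 - p) * b by positivity) with h | h
      · rw [← h]; simp only [div_zero]; positivity
      rw [div_le_iff₀ h]
      calc p * (1 - p) * (a - b) ^ 2 ≤ p * (1 - p) * (D * (2 * a + 2 * b)) :=
            mul_le_mul_of_nonneg_left hdiff (by positivity)
        _ ≤ _ := by nlinarith [mul_nonneg (mul_nonneg h0.le hD0) (mul_nonneg h0.le ha0),
              mul_nonneg (mul_nonneg hq.le hD0) (mul_nonneg hq.le hb0)]
    have e0 : ent (insert e E) p (fun η => f η ^ 2)
        = p * ent E p (fun η => f₁ η ^ 2) + (1 - p) * ent E p (fun η => f η ^ 2)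
          + (p * (a * Real.log a) + (1 - p) * (b * Real.log b)
            - (p * a + (1 - p) * b) * Real.log (p * a + (1 - p) * b)) := by
      simp only [ent, avg_insert he, ha, hb, hf₁]; ring
    rw [e0, dir_insert he]
    have a1 := mul_le_mul_of_nonneg_left (ih f₁) h0.le
    have a0 := mul_le_mul_of_nonneg_left (ih f) hq.le
    have a2 := (two_point h0 h1 ha0 hb0).trans htwo
    simp only [hf₁] at *
    linarith

/-- Martingale pieces of all functions, one for each coordinate. -/
theorem exists_pieces (E : Finset α) {p : ℝ} (h0 : 0 ≤ p) (h1 : p ≤ 1) :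
    ∃ D : α → (Finset α → ℝ) → Finset α → ℝ,
      (∀ k f g η, D k (fun ξ => f ξ - g ξ) η = D k f η - D k g η) ∧ ∀ f,
        ∑ k ∈ E, avg E p (fun η => D k f η ^ 2) = var E p f ∧
        (∀ k ∈ E, avg E p (fun η => |D k f η|)
          ≤ 2 * (p * (1 - p)) * avg E p (fun η => |dlt k f η|)) ∧
        ∑ k ∈ E, dir E p (D k f) ≤ dir E p f := by
  induction E using Finset.induction_on with
  | empty => exact ⟨fun _ _ _ => 0, by simp, fun f => by simp [var, dir, avg_empty]⟩
  | @insert e E he ih =>
    obtain ⟨D, hlin, hD⟩ := ih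
    set g : (Finset α → ℝ) → ℝ := fun f => avg E p (fun η => f (insert e η) - f η) with hg
    refine ⟨fun k f η => if k = e then ((if e ∈ η then 1 else 0) - p) * g f
      else if e ∈ η then D k (fun ξ => f (insert e ξ)) (η.erase e) else D k f η, ?_, fun f => ?_⟩
    · intro k f₁ f₂ η
      by_cases hk : k = e
      · simp only [hk, if_true, hg]
        rw [← mul_sub, ← avg_sub]
        congr 1
        exact avg_congr E p fun ξ _ => by ring
      · simp only [hk, if_false]
        split_ifs
        · exact hlin k (fun ξ => f₁ (insert e ξ)) (fun ξ => f₂ (insert e ξ)) _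
        · exact hlin k f₁ f₂ η
    set f₁ : Finset α → ℝ := fun η => f (insert e η) with hf₁
    set D' : α → Finset α → ℝ := fun k η => if k = e then ((if e ∈ η then 1 else 0) - p) * g f
      else if e ∈ η then D k f₁ (η.erase e) else D k f η with hD'
    have hin : ∀ k ∈ E, ∀ η, η ⊆ E → D' k (insert e η) = D k f₁ η ∧ D' k η = D k f η := by
      intro k hk η hη
      have hke : k ≠ e := fun h => he (h ▸ hk)
      have hne : e ∉ η := fun h => he (hη h)
      simp [hD', hke, hne, erase_insert hne]
    have hself : ∀ η, η ⊆ E → D' e (insert e η) = (1 - p) * g f ∧ D' e η = (0 - p) * g f := by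
      intro η hη
      have hne : e ∉ η := fun h => he (hη h)
      simp [hD', hne]
    have havg : ∀ (φ : ℝ → ℝ), ∀ k ∈ E, avg (insert e E) p (fun η => φ (D' k η))
        = p * avg E p (fun η => φ (D k f₁ η)) + (1 - p) * avg E p (fun η => φ (D k f η)) := by
      intro φ k hk
      rw [avg_insert he, avg_congr E p (fun η hη => by rw [(hin k hk η hη).1]),
        avg_congr E p (f := fun η => φ (D' k η)) (fun η hη => by rw [(hin k hk η hη).2])]
    have havge : ∀ (φ : ℝ → ℝ), avg (insert e E) p (fun η => φ (D' e η))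
        = p * φ ((1 - p) * g f) + (1 - p) * φ ((0 - p) * g f) := by
      intro φ
      rw [avg_insert he, avg_congr E p (fun η hη => by rw [(hself η hη).1]),
        avg_congr E p (f := fun η => φ (D' e η)) (fun η hη => by rw [(hself η hη).2]),
        avg_const, avg_const]
    have hq : 0 ≤ 1 - p := sub_nonneg.2 h1
    refine ⟨?_, ?_, ?_⟩
    · rw [sum_insert he, havge (fun x => x ^ 2),
        sum_congr rfl (fun k hk => havg (fun x => x ^ 2) k hk), sum_add_distrib, ← mul_sum,
        ← mul_sum, (hD f₁).1, (hD f).1, var_insert he]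
      simp only [hg, hf₁]; ring
    · intro k hk
      rcases mem_insert.1 hk with rfl | hk
      · rw [havge (fun x => |x|), avg_dlt_self he p (fun x => |x|)]
        have hb : |g f| ≤ avg E p (fun η => |f (insert k η) - f η|) := by
          rw [abs_le]
          refine ⟨?_, avg_mono E h0 h1 fun η _ => le_abs_self _⟩
          have h := avg_mono E h0 h1
            (f := fun η => (-1) * |f (insert k η) - f η|) (g := fun η => f (insert k η) - f η)
            fun η _ => by linarith [neg_abs_le (f (insert k η) - f η)]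
          rw [avg_mul] at h
          simp only [hg]; linarith
        rw [abs_mul, abs_mul, abs_of_nonneg hq, zero_sub, abs_neg, abs_of_nonneg h0]
        have := mul_le_mul_of_nonneg_left hb (mul_nonneg h0 hq)
        nlinarith
      · rw [havg (fun x => |x|) k hk, avg_dlt_insert he hk p (fun x => |x|)]
        have a1 := mul_le_mul_of_nonneg_left ((hD f₁).2.1 k hk) h0
        have a0 := mul_le_mul_of_nonneg_left ((hD f).2.1 k hk) hq
        nlinarith [a1, a0]
    · have hke : ∀ k ∈ E, dir (insert e E) p (D' k) = p * dir E p (D k f₁)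
          + (1 - p) * dir E p (D k f) + avg E p (fun η => D k (fun ξ => f₁ ξ - f ξ) η ^ 2) := by
        intro k hk
        rw [dir_insert he]
        have c1 : ∀ ψ : Finset α → ℝ, ∀ χ : Finset α → ℝ, (∀ η, η ⊆ E → ψ η = χ η) →
            dir E p ψ = dir E p χ := by
          intro ψ χ h
          refine sum_congr rfl fun x hx => avg_congr E p fun η hη => ?_
          simp only [dlt]
          rw [h _ (insert_subset hx hη), h _ ((erase_subset _ _).trans hη)]
        rw [c1 (fun η => D' k (insert e η)) (D k f₁) (fun η hη => (hin k hk η hη).1),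
          c1 (D' k) (D k f) (fun η hη => (hin k hk η hη).2)]
        congr 1
        refine avg_congr E p fun η hη => ?_
        rw [(hin k hk η hη).1, (hin k hk η hη).2, hlin]
      have hkee : dir (insert e E) p (D' e) = g f ^ 2 := by
        rw [dir_insert he]
        have z : ∀ ψ : Finset α → ℝ, ∀ c : ℝ, (∀ η, η ⊆ E → ψ η = c) → dir E p ψ = 0 := by
          intro ψ c h
          refine sum_eq_zero fun x hx => ?_
          rw [avg_congr E p (g := fun _ => (0 : ℝ)) fun η hη => ?_, avg_const]
          simp only [dlt]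
          rw [h _ (insert_subset hx hη), h _ ((erase_subset _ _).trans hη)]
          ring
        rw [z (fun η => D' e (insert e η)) _ (fun η hη => (hself η hη).1),
          z (D' e) _ (fun η hη => (hself η hη).2),
          avg_congr E p (g := fun _ => g f ^ 2) fun η hη => by
            rw [(hself η hη).1, (hself η hη).2]; ring, avg_const]
        ring
      rw [sum_insert he, hkee, sum_congr rfl hke, sum_add_distrib, sum_add_distrib, ← mul_sum,
        ← mul_sum, (hD (fun ξ => f₁ ξ - f ξ)).1, dir_insert he]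
      have a1 := mul_le_mul_of_nonneg_left (hD f₁).2.2 h0
      have a0 := mul_le_mul_of_nonneg_left (hD f).2.2 hq
      simp only [var, hg, hf₁] at *
      linarith

theorem weighted_sq_eq_zero (E : Finset α) {p : ℝ} (h0 : 0 ≤ p) (h1 : p ≤ 1) (d : Finset α → ℝ)
    (h : avg E p (fun η => |d η|) ≤ 0) : avg E p (fun η => d η ^ 2) = 0 := by
  have hz : ∀ η ∈ E.powerset, wt E p η * |d η| = 0 :=
    (sum_eq_zero_iff_of_nonneg fun η _ => mul_nonneg (wt_nonneg E h0 h1 η) (abs_nonneg _)).1
      (le_antisymm h (avg_nonneg E h0 h1 fun η _ => abs_nonneg _))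
  refine sum_eq_zero fun η hη => ?_
  simp only
  rw [← sq_abs (d η), sq, ← mul_assoc, hz η hη, zero_mul]

/-- The entropy of a square is large when the first moment is small. -/
theorem ent_sq_ge (E : Finset α) {p : ℝ} (h0 : 0 < p) (h1 : p < 1) (d : Finset α → ℝ) (L : ℝ) :
    L * avg E p (fun η => d η ^ 2)
      ≤ ent E p (fun η => d η ^ 2) + Real.exp L * avg E p (fun η => |d η|) ^ 2 := by
  set a := avg E p (fun η => d η ^ 2) with ha
  set b := avg E p (fun η => |d η|) with hb
  have ha0 : 0 ≤ a := avg_nonneg E h0.le h1.le fun η _ => sq_nonneg _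
  have hb0 : 0 ≤ b := avg_nonneg E h0.le h1.le fun η _ => abs_nonneg _
  rcases eq_or_lt_of_le ha0 with h | hapos
  · have hl : ∀ η ∈ E.powerset, wt E p η * d η ^ 2 = 0 :=
      (sum_eq_zero_iff_of_nonneg fun η _ => mul_nonneg (wt_nonneg E h0.le h1.le η) (sq_nonneg _)).1
        h.symm
    have : avg E p (fun η => d η ^ 2 * Real.log (d η ^ 2)) = 0 :=
      sum_eq_zero fun η hη => by rw [← mul_assoc, hl η hη, zero_mul]
    simp only [ent, this, ← ha, ← h]
    simpa using mul_nonneg (Real.exp_pos L).le (sq_nonneg b)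
  have hbpos : 0 < b := by
    by_contra hb'
    rw [not_lt] at hb'
    exact hapos.ne' (weighted_sq_eq_zero E h0.le h1.le d hb')
  have key : ∀ η, 2 * (d η ^ 2 - (a / b) * |d η|) + 2 * d η ^ 2 * (Real.log a - Real.log b)
      ≤ d η ^ 2 * Real.log (d η ^ 2) := by
    intro η
    rw [← sq_abs (d η)]
    rcases eq_or_lt_of_le (abs_nonneg (d η)) with h | ht
    · simp [← h]
    set t := |d η|
    have hx : 0 < t * b / a := by positivity
    have h' := Real.log_le_sub_one_of_pos (inv_pos.2 hx)
    rw [Real.log_inv, Real.log_div (by positivity) hapos.ne',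
      Real.log_mul ht.ne' hbpos.ne'] at h'
    rw [Real.log_pow]
    push_cast
    have h'' := mul_le_mul_of_nonneg_left h' (sq_nonneg t)
    rw [mul_sub (t ^ 2) _ 1, show t ^ 2 * (t * b / a)⁻¹ = a / b * t by field_simp] at h''
    nlinarith
  have hsum := avg_mono E h0.le h1.le fun η (_ : η ⊆ E) => key η
  rw [avg_add, avg_mul, avg_sub, avg_mul] at hsum
  have e3 : avg E p (fun η => 2 * d η ^ 2 * (Real.log a - Real.log b))
      = 2 * (Real.log a - Real.log b) * a := by
    rw [ha, ← avg_mul]; exact avg_congr E p fun η _ => by ring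
  rw [e3, ← ha, ← hb, div_mul_cancel₀ _ hbpos.ne', sub_self, mul_zero, zero_add] at hsum
  have hl := Real.log_le_sub_one_of_pos (show 0 < Real.exp L * b ^ 2 / a by positivity)
  rw [Real.log_div (by positivity) hapos.ne', Real.log_mul (Real.exp_pos L).ne' (by positivity),
    Real.log_exp, Real.log_pow] at hl
  push_cast at hl
  have hl' := mul_le_mul_of_nonneg_left hl hapos.le
  rw [mul_sub a _ 1, mul_div_cancel₀ _ hapos.ne'] at hl'
  simp only [ent, ← ha]
  linarith

/-- The inequality of Falik and Samorodnitsky. -/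
theorem falik_samorodnitsky (E : Finset α) {p : ℝ} (h0 : 0 < p) (h1 : p < 1)
    (f : Finset α → ℝ) (L : ℝ) :
    L * var E p f
      ≤ 2 * dir E p f + Real.exp L * ∑ e ∈ E, avg E p (fun η => |dlt e f η|) ^ 2 := by
  obtain ⟨D, -, hD⟩ := exists_pieces E h0.le h1.le
  obtain ⟨hvar, habs, hdir⟩ := hD f
  rw [← hvar, mul_sum, mul_sum]
  calc ∑ k ∈ E, L * avg E p (fun η => D k f η ^ 2)
      ≤ ∑ k ∈ E, (2 * dir E p (D k f) + Real.exp L * avg E p (fun η => |dlt k f η|) ^ 2) := by
        refine sum_le_sum fun k hk => (ent_sq_ge E h0 h1 _ L).trans (add_le_add (lsi E h0 h1 _)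
          (mul_le_mul_of_nonneg_left ?_ (Real.exp_pos L).le))
        refine pow_le_pow_left₀ (avg_nonneg E h0.le h1.le fun η _ => abs_nonneg _)
          ((habs k hk).trans ?_) 2
        have hI := avg_nonneg E h0.le h1.le (f := fun η => |dlt k f η|) fun η _ => abs_nonneg _
        nlinarith [mul_nonneg hI (sq_nonneg (p - 1 / 2))]
    _ ≤ _ := by
        rw [sum_add_distrib, ← mul_sum]
        linarith

/-- Russo's formula as a sum of influences. -/
theorem hasDerivAt_dlt (E : Finset α) (f : Finset α → ℝ) {p : ℝ} (h0 : 0 < p) (h1 : p < 1) :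
    HasDerivAt (fun q => avg E q f) (∑ e ∈ E, avg E p (dlt e f)) p := by
  refine (hasDerivAt_avg E f h0 h1).congr_deriv ?_
  rw [div_eq_iff (sub_pos.2 h1).ne', sum_mul]
  have hsum : ∀ η, η ⊆ E → ∑ e ∈ E \ η, (f (insert e η) - f η)
      = ∑ e ∈ E, (if e ∈ η then 0 else dlt e f η) := by
    intro η hη
    rw [sdiff_eq_filter, sum_filter]
    refine sum_congr rfl fun e _ => ?_
    by_cases he : e ∈ η
    · simp [he]
    · simp [he, dlt]
  rw [avg_congr E p hsum, avg_sum]
  refine sum_congr rfl fun e he => ?_
  have hne := notMem_erase e E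
  rw [avg_edge he, avg_edge he (f := dlt e f)]
  have e1 : avg (E.erase e) p (fun η => if e ∈ η then 0 else dlt e f η)
      = avg (E.erase e) p (dlt e f) :=
    avg_congr _ p fun η hη => if_neg fun h => hne (hη h)
  have e2 : avg (E.erase e) p (fun η => dlt e f (insert e η)) = avg (E.erase e) p (dlt e f) :=
    avg_congr _ p fun η hη => by
      rw [(dlt_self hne hη f).1, (dlt_self hne hη f).2]
  rw [e1, e2]
  simp [avg_const]
  ring

/-- Thinning an independent product. -/
theorem avg_thin (E : Finset α) (p r : ℝ) (f : Finset α → ℝ) :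
    avg E p (fun η => avg E r (fun ξ => f (η ∩ ξ))) = avg E (p * r) f := by
  induction E using Finset.induction_on generalizing f with
  | empty => simp [avg_empty]
  | @insert e E he ih =>
    rw [avg_insert he, avg_insert he]
    have i1 := ih (fun η => f (insert e η))
    have i0 := ih f
    have c1 : avg E p (fun η => avg (insert e E) r (fun ξ => f (insert e η ∩ ξ)))
        = avg E p (fun η => r * avg E r (fun ξ => f (insert e (η ∩ ξ)))
          + (1 - r) * avg E r (fun ξ => f (η ∩ ξ))) := by
      refine avg_congr E p fun η hη => ?_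
      rw [avg_insert he]
      congr 2
      · exact avg_congr E r fun ξ hξ => by rw [← insert_inter_distrib]
      · exact avg_congr E r fun ξ hξ => by
          rw [insert_inter_of_notMem fun h => he (hξ h)]
    have c0 : avg E p (fun η => avg (insert e E) r (fun ξ => f (η ∩ ξ)))
        = avg E p (fun η => avg E r (fun ξ => f (η ∩ ξ))) := by
      refine avg_congr E p fun η hη => ?_
      rw [avg_insert he, avg_congr E r (g := fun ξ => f (η ∩ ξ)) fun ξ _ => by
        rw [inter_insert_of_notMem fun h => he (hη h)]]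
      ring
    rw [c1, c0, avg_add, avg_mul, avg_mul, i1, i0]
    ring

end Vale.Agent.P151.Growth
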