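import Vale.Agent.P151.Key
import Vale.Agent.P151.Link
import Vale.Agent.P151.Growth.Entropy

/-!
# Shared definitions for the growth criterion
-/

namespace Vale.Agent.P151.Growth

open Finset Filter Vale.Agent.P165

variable {Γ : Type} [Group Γ] [DecidableEq Γ] {S : Finset Γ}

variable (S) in
/-- The constant of the two-ghost inequality. -/
noncomputable def ghostC (p : ℝ) : ℝ := 80 * Real.sqrt (2 * S.card + 1) / (p * (1 - p))

omit [Group Γ] [DecidableEq Γ] in
theorem ghostC_pos {p : ℝ} (h0 : 0 < p) (h1 : p < 1) : 0 < ghostC S p := by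
  have := sub_pos.2 h1
  unfold ghostC; positivity

variable (S) in
/-- Uniformly in large windows, two vertices at distance at most `r` are apart at scale `n` with
probability at most `A`. -/
def ApartLe (p : ℝ) (n r : ℕ) (A : ℝ) : Prop :=
  ∀ T : ℕ, ∀ᶠ M : ℕ in atTop, ∀ u ∈ ball S T, ∀ x : Γ, u⁻¹ * x ∈ ball S r →
    avg (eball S 1 M) p (fun η => ind (Apart n η u x)) ≤ A

theorem ApartLe.mono {p : ℝ} {n r r' : ℕ} {A A' : ℝ} (h : ApartLe S p n r A) (hr : r' ≤ r)
    (hA : A ≤ A') : ApartLe S p n r' A' :=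
  fun T => (h T).mono fun _ hM u hu x hx => (hM u hu x (ball_mono hr hx)).trans hA

/-- Two large clusters at the ends of an edge, in large windows, for all parameters up to `P`. -/
theorem split_le_upto (hS : Gens S) {P : ℝ} (hP0 : 0 < P) (hP1 : P < 1)
    (hlim : Tendsto (fun m => tail S P m) atTop (nhds 0)) {n : ℕ} (hn : 1 ≤ n) (T : ℕ) :
    ∀ᶠ M : ℕ in atTop, ∀ q : ℝ, 0 < q → q ≤ P → ∀ u ∈ ball S T, ∀ a : {a // a ∈ S},
      avg (eball S 1 M) q (fun η => ind (nb S u a ∉ cls η u ∧ n ≤ csize η u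
        ∧ n ≤ csize η (nb S u a))) ≤ 3 * ghostC S q / Real.sqrt n := by
  obtain ⟨R, hR⟩ := (hlim.eventually (eventually_le_nhds
    (show 0 < 80 * Real.sqrt (2 * S.card + 1) / Real.sqrt n from
      div_pos (by positivity) (Real.sqrt_pos.2 (by exact_mod_cast hn))))).exists
  refine eventually_atTop.2 ⟨T + 2 * R + 2, fun M hM q h0 hq u hu a => ?_⟩
  have h1 : q < 1 := hq.trans_lt hP1
  have hRq : tail S q R ≤ ghostC S q / Real.sqrt n := by
    refine ((tail_mono_param h0.le hq hP1.le R).trans hR).trans ?_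
    unfold ghostC
    refine div_le_div_of_nonneg_right ?_ (Real.sqrt_nonneg _)
    rw [le_div_iff₀ (mul_pos h0 (sub_pos.2 h1))]
    refine mul_le_of_le_one_right (by positivity) ?_
    nlinarith
  set E := eball S (1 : Γ) M with hE
  have hv : Valid S E := valid_eball hS (Subset.refl _)
  set v := nb S u a with hvdef
  have hvT : v ∈ ball S (T + 1) := mul_mem_ball_succ hu a.2
  have hpt : ∀ η, η ⊆ E → ind (v ∉ cls η u ∧ n ≤ csize η u ∧ n ≤ csize η v)
      ≤ ind (Split n (2 * R) η u v) + (ind (R ≤ csize η u) + ind (R ≤ csize η v)) := by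
    intro η _
    have n1 := ind_nonneg (Split n (2 * R) η u v)
    have n2 := ind_nonneg (R ≤ csize η u)
    have n3 := ind_nonneg (R ≤ csize η v)
    by_cases h : v ∉ cls η u ∧ n ≤ csize η u ∧ n ≤ csize η v
    swap
    · rw [ind_false h]; linarith
    rw [ind_true h]
    by_cases h2 : R ≤ csize η u
    · rw [ind_true h2]; linarith
    by_cases h3 : R ≤ csize η v
    · rw [ind_true h3]; linarith
    rw [ind_true (show Split n (2 * R) η u v from ⟨h.1, h.2.1, h.2.2, by omega⟩)]; linarith
  refine (avg_mono E h0.le h1.le hpt).trans ?_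
  rw [avg_add, avg_add, tail_eq hS hv (eball_one hu (by omega)),
    tail_eq hS hv (eball_one hvT (by omega)), mul_div_assoc]
  have := two_ghost hS h0 h1 hn (2 * R) hv a
    (show eball S u (2 * R + 1) ⊆ E from eball_one hu (by omega))
  simp only [ghostC] at *
  linarith

/-- Two large clusters at the ends of an edge, in large windows. -/
theorem split_le (hS : Gens S) {p : ℝ} (h0 : 0 < p) (h1 : p < 1)
    (hlim : Tendsto (fun m => tail S p m) atTop (nhds 0)) {n : ℕ} (hn : 1 ≤ n) (T : ℕ) :
    ∀ᶠ M : ℕ in atTop, ∀ u ∈ ball S T, ∀ a : {a // a ∈ S},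
      avg (eball S 1 M) p (fun η => ind (nb S u a ∉ cls η u ∧ n ≤ csize η u
        ∧ n ≤ csize η (nb S u a))) ≤ 3 * ghostC S p / Real.sqrt n :=
  (split_le_upto hS h0 h1 hlim hn T).mono fun _ h => h p h0 le_rfl

/-- Gluing along a shortest path. -/
theorem apartLe_base (hS : Gens S) {p : ℝ} (h0 : 0 < p) (h1 : p < 1)
    (hlim : Tendsto (fun m => tail S p m) atTop (nhds 0)) {n : ℕ} (hn : 1 ≤ n) (r : ℕ) :
    ApartLe S p n r (r * p⁻¹ ^ r * (3 * ghostC S p / Real.sqrt n)) := by
  intro T
  set B := ghostC S p / Real.sqrt n with hB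
  have hB0 : 0 < B := div_pos (ghostC_pos h0 h1) (Real.sqrt_pos.2 (by exact_mod_cast hn))
  obtain ⟨R, hR⟩ := (hlim.eventually (eventually_le_nhds hB0)).exists
  refine eventually_atTop.2 ⟨T + r + 2 * R + 1, fun M hM u hu x hx => ?_⟩
  obtain ⟨l, hl, hlx⟩ := exists_word hx
  have h := apart_le hS h0 h1 hn R (M := M) l u T hu (by omega)
  rw [hlx, mul_inv_cancel_left] at h
  refine h.trans (mul_le_mul (mul_le_mul (by exact_mod_cast hl)
    (pow_le_pow_right₀ ((one_le_inv₀ h0).2 h1.le) hl) (by positivity) (by positivity)) ?_ ?_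
    (by positivity))
  · rw [show 3 * ghostC S p / Real.sqrt n = 3 * B by rw [hB]; ring]
    simp only [hB, ghostC] at *
    linarith
  · have := tail_nonneg (S := S) h0.le h1.le R
    have := sub_pos.2 h1
    positivity

variable (S) in
/-- The chance that `w` is joined to `1` by a cluster of at most `N` vertices. -/
noncomputable def capConn (q : ℝ) (N : ℕ) (w : Γ) : ℝ :=
  avg (eball S 1 (N + 1)) q fun η => ind (w ∈ cls η 1 ∧ csize η 1 ≤ N)

theorem capConn_eq (hS : Gens S) (q : ℝ) {N M T : ℕ} {u : Γ} (hu : u ∈ ball S T)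
    (hM : T + N + 1 ≤ M) (w : Γ) :
    avg (eball S 1 M) q (fun η => ind (u * w ∈ cls η u ∧ csize η u ≤ N)) = capConn S q N w := by
  set E := eball S (1 : Γ) M with hE
  have hv : Valid S E := valid_eball hS (Subset.refl _)
  have hv' : Valid S (eball S (1 : Γ) (N + 1)) := valid_eball hS (Subset.refl _)
  have hloc : ∀ x y η, Valid S η → ind (y ∈ cls η x ∧ csize η x ≤ N)
      = ind (y ∈ cls (η ∩ eball S x (N + 1)) x ∧ csize (η ∩ eball S x (N + 1)) x ≤ N) := by
    intro x y η hη
    set η' := η ∩ eball S x (N + 1) with hη'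
    by_cases h' : csize η' x ≤ N
    · have e := cls_inter (R := N + 1) hS hη (E := eball S x (N + 1)) (x := x) inter_subset_right
        (Or.inr (by rw [← hη']; omega))
      rw [← hη'] at e
      simp only [csize, e]
    · have h2 : csize η' x ≤ csize η x := card_le_card (cls_mono inter_subset_left x)
      rw [ind_false fun h => h' (h2.trans h.2), ind_false fun h => h' h.2]
  refine avg_translate (x := u) (y := 1) (R := N + 1) (eball_one hu (by omega)) (Subset.refl _) q
    (fun η hη => hloc u (u * w) η fun e he => hv e (hη he))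
    (fun η hη => hloc 1 w η fun e he => hv' e (hη he)) fun η _ => ?_
  have e1 := cls_shift u 1 η
  have e2 := csize_shift u 1 η
  rw [mul_one] at e1 e2
  simp only [e2, shift_one]
  refine ind_congr (and_congr_left fun _ => ?_)
  rw [e1]
  exact ⟨fun h => by obtain ⟨z, hz, hzw⟩ := mem_image.1 h; exact mul_left_cancel hzw ▸ hz,
    fun h => mem_image.2 ⟨_, h, rfl⟩⟩

variable (S) in
/-- The average over the ball of radius `s` around `w`. -/
noncomputable def mean (w : Γ) (s : ℕ) (g : Γ → ℝ) : ℝ :=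
  (∑ b ∈ ball S s, g (w * b)) / (ball S s).card

variable (S) in
/-- The share of the ball that lies in clusters of size at least `n`. -/
noncomputable def bigMass (w : Γ) (s n : ℕ) (η : Finset (Sym2 Γ)) : ℝ :=
  mean S w s fun z => ind (n ≤ csize η z)

/-- The linear ramp from `n` to `2 n`. -/
noncomputable def ramp (n k : ℕ) : ℝ := min 1 (max 0 (((k : ℝ) - n) / n))

variable (S) in
/-- The ball average of the ramp of the cluster size. -/
noncomputable def rampMass (w : Γ) (s n : ℕ) (η : Finset (Sym2 Γ)) : ℝ :=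
  mean S w s fun z => ramp n (csize η z)

/-- The decreasing cut-off, `1` up to `ρ` and `0` from `2 ρ`. -/
noncomputable def cut (ρ x : ℝ) : ℝ := min 1 (max 0 ((2 * ρ - x) / ρ))

end Vale.Agent.P151.Growth
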