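import Vale.Agent.P151.Growth.Local

/-!
# A small witness cluster meeting one of two large clusters
-/

namespace Vale.Agent.P151.Growth

open Finset Vale.Agent.P165

variable {Γ : Type} [Group Γ] [DecidableEq Γ] {S : Finset Γ}

section Avg3

variable {α : Type} [DecidableEq α] (E : Finset α) (p r : ℝ)

theorem avg3_mono {p r : ℝ} (h0 : 0 ≤ p) (h1 : p ≤ 1) (r0 : 0 ≤ r) (r1 : r ≤ 1)
    {F G : Finset α → Finset α → Finset α → ℝ}
    (h : ∀ η η' ξ, η ⊆ E → η' ⊆ E → ξ ⊆ E → F η η' ξ ≤ G η η' ξ) :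
    avg3 E p r F ≤ avg3 E p r G :=
  avg_mono E h0 h1 fun η hη => avg_mono E h0 h1 fun η' hη' =>
    avg_mono E r0 r1 fun ξ hξ => h η η' ξ hη hη' hξ

theorem avg3_add (F G : Finset α → Finset α → Finset α → ℝ) :
    avg3 E p r (fun η η' ξ => F η η' ξ + G η η' ξ) = avg3 E p r F + avg3 E p r G := by
  simp only [avg3, avg_add]

theorem avg3_sum {β : Type} (s : Finset β) (F : β → Finset α → Finset α → Finset α → ℝ) :
    avg3 E p r (fun η η' ξ => ∑ b ∈ s, F b η η' ξ) = ∑ b ∈ s, avg3 E p r (F b) := by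
  simp only [avg3, avg_sum]

theorem avg3_fst (f : Finset α → ℝ) : avg3 E p r (fun η _ _ => f η) = avg E p f := by
  simp only [avg3, avg_const]

end Avg3

theorem avg3_swap (E : Finset (Sym2 Γ)) (p r : ℝ) (Z : Finset (Sym2 Γ) → Finset Γ)
    (hZ : ∀ η η', η ⊆ E → η' ⊆ E → Z (mix S (Z η) η η') = Z η)
    (F : Finset (Sym2 Γ) → Finset (Sym2 Γ) → Finset (Sym2 Γ) → ℝ) :
    avg3 E p r (fun η η' ξ => F (mix S (Z η) η η') (mix S (Z η) η' η) ξ) = avg3 E p r F :=
  avg_swap E p Z hZ fun α β => avg E r (F α β)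

theorem sum_ind_eq {ι : Type} (s : Finset ι) (P : ι → Prop) [DecidablePred P] :
    ∑ i ∈ s, ind (P i) = ((s.filter P).card : ℝ) := by
  rw [← sum_boole]
  refine sum_congr rfl fun i _ => ?_
  by_cases h : P i
  · rw [ind_true h, if_pos h]
  · rw [ind_false h, if_neg h]

omit [Group Γ] [DecidableEq Γ] in
/-- At most `N` indices land in a set of at most `N` points. -/
theorem sum_ind_mem {ι : Type} [DecidableEq ι] (s : Finset ι) {φ : ι → Γ}
    (hφ : Function.Injective φ) {Q : ι → Prop} {P : Prop} {W : Finset Γ} {N : ℕ}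
    (h : ∀ i ∈ s, Q i → P ∧ φ i ∈ W ∧ W.card ≤ N) :
    ∑ i ∈ s, ind (Q i) ≤ N * ind P := by
  classical
  rw [sum_ind_eq]
  rcases (s.filter Q).eq_empty_or_nonempty with he | ⟨i, hi⟩
  · rw [he, card_empty, Nat.cast_zero]
    exact mul_nonneg (Nat.cast_nonneg _) (ind_nonneg _)
  obtain ⟨hP, -, hW⟩ := h i (mem_filter.1 hi).1 (mem_filter.1 hi).2
  rw [ind_true hP, mul_one, Nat.cast_le]
  exact (card_le_card_of_injOn φ (fun j hj => mem_coe.2 (h j (mem_filter.1 hj).1 (mem_filter.1 hj).2).2.1)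
    hφ.injOn).trans hW

omit [Group Γ] [DecidableEq Γ] in
theorem le_sum2 {κ : Type} [Fintype κ] {U : Finset Γ} {g : Γ → κ → ℝ} (h : ∀ a t, 0 ≤ g a t) {a : Γ}
    (ha : a ∈ U) (t : κ) : g a t ≤ ∑ b ∈ U, ∑ i, g b i :=
  (single_le_sum (fun i _ => h a i) (mem_univ t)).trans
    (single_le_sum (f := fun b => ∑ i, g b i) (fun b _ => sum_nonneg fun i _ => h b i) ha)

/-- A small thinned cluster of `u` meets the cluster of `x`, which is apart from that of `u`. -/
def Meet (n N : ℕ) (u x : Γ) (η η' ξ : Finset (Sym2 Γ)) : Prop :=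
  Apart n η u x ∧ csize (η' ∩ ξ) u ≤ N ∧ ¬Disjoint (cls (η' ∩ ξ) u) (cls η x)

/-- The three cases. -/
theorem meet_pointwise (hS : Gens S) {E η η' ξ : Finset (Sym2 Γ)} (hE : Valid S E) (hη : η ⊆ E)
    (hη' : η' ⊆ E) {n m N R : ℕ} (hmn : m ≤ n) {u x : Γ} :
    ind (Meet n N u x η η' ξ) ≤
      (∑ a ∈ (ball S N).image (u * ·), ∑ s, ind (a ∈ cls (η' ∩ ξ) u ∧ csize (η' ∩ ξ) u ≤ N) *
          ind (Apart n η a (nb S a s)))
      + (∑ a ∈ (ball S N).image (u * ·), ∑ s,
          (ind (Join S m R N a (nb S a s) u (mix S (cls η u) η η') (mix S (cls η u) η' η) ξ)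
            + ind (R ≤ csize (mix S (cls η u) η η') (nb S a s))))
      + (∑ a ∈ (ball S N).image (u * ·), ∑ s, ∑ f ∈ E,
          ind (f ∉ mix S (cls η u ∪ cls η x) η η') *
            ind (Cut S n m R N a (nb S a s) u f (insert f (mix S (cls η u ∪ cls η x) η η'))
              (mix S (cls η u ∪ cls η x) η' η) ξ))
      + (ind (R ≤ csize η u) + ind (R ≤ csize η x)) := by
  set U := (ball S N).image (u * ·) with hU
  set X1 := ∑ a ∈ U, ∑ s, ind (a ∈ cls (η' ∩ ξ) u ∧ csize (η' ∩ ξ) u ≤ N) *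
    ind (Apart n η a (nb S a s))
  set X2 := ∑ a ∈ U, ∑ s,
    (ind (Join S m R N a (nb S a s) u (mix S (cls η u) η η') (mix S (cls η u) η' η) ξ)
      + ind (R ≤ csize (mix S (cls η u) η η') (nb S a s)))
  set X3 := ∑ a ∈ U, ∑ s, ∑ f ∈ E, ind (f ∉ mix S (cls η u ∪ cls η x) η η') *
    ind (Cut S n m R N a (nb S a s) u f (insert f (mix S (cls η u ∪ cls η x) η η'))
      (mix S (cls η u ∪ cls η x) η' η) ξ)
  have i1 : ∀ a ∈ U, ∀ s, ind (a ∈ cls (η' ∩ ξ) u ∧ csize (η' ∩ ξ) u ≤ N) *
      ind (Apart n η a (nb S a s)) ≤ X1 := fun a ha s =>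
    le_sum2 (g := fun b t => ind (b ∈ cls (η' ∩ ξ) u ∧ csize (η' ∩ ξ) u ≤ N) *
      ind (Apart n η b (nb S b t))) (fun _ _ => mul_nonneg (ind_nonneg _) (ind_nonneg _)) ha s
  have i2 : ∀ a ∈ U, ∀ s,
      ind (Join S m R N a (nb S a s) u (mix S (cls η u) η η') (mix S (cls η u) η' η) ξ)
        + ind (R ≤ csize (mix S (cls η u) η η') (nb S a s)) ≤ X2 := fun a ha s =>
    le_sum2 (g := fun b t =>
      ind (Join S m R N b (nb S b t) u (mix S (cls η u) η η') (mix S (cls η u) η' η) ξ)
        + ind (R ≤ csize (mix S (cls η u) η η') (nb S b t)))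
      (fun _ _ => add_nonneg (ind_nonneg _) (ind_nonneg _)) ha s
  have i3 : ∀ a ∈ U, ∀ s, ∀ f ∈ E, ind (f ∉ mix S (cls η u ∪ cls η x) η η') *
      ind (Cut S n m R N a (nb S a s) u f (insert f (mix S (cls η u ∪ cls η x) η η'))
        (mix S (cls η u ∪ cls η x) η' η) ξ) ≤ X3 := fun a ha s f hf =>
    (single_le_sum (f := fun g => ind (g ∉ mix S (cls η u ∪ cls η x) η η') *
      ind (Cut S n m R N a (nb S a s) u g (insert g (mix S (cls η u ∪ cls η x) η η'))
        (mix S (cls η u ∪ cls η x) η' η) ξ))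
      (fun g _ => mul_nonneg (ind_nonneg _) (ind_nonneg _)) hf).trans
      (le_sum2 (g := fun b t => ∑ g ∈ E, ind (g ∉ mix S (cls η u ∪ cls η x) η η') *
        ind (Cut S n m R N b (nb S b t) u g (insert g (mix S (cls η u ∪ cls η x) η η'))
          (mix S (cls η u ∪ cls η x) η' η) ξ))
        (fun _ _ => sum_nonneg fun g _ => mul_nonneg (ind_nonneg _) (ind_nonneg _)) ha s)
  have n1 : 0 ≤ X1 := sum_nonneg fun a _ => sum_nonneg fun t _ =>
    mul_nonneg (ind_nonneg _) (ind_nonneg _)
  have n2 : 0 ≤ X2 := sum_nonneg fun a _ => sum_nonneg fun t _ =>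
    add_nonneg (ind_nonneg _) (ind_nonneg _)
  have n3 : 0 ≤ X3 := sum_nonneg fun a _ => sum_nonneg fun t _ => sum_nonneg fun g _ =>
    mul_nonneg (ind_nonneg _) (ind_nonneg _)
  have n4 := ind_nonneg (R ≤ csize η u)
  have n5 := ind_nonneg (R ≤ csize η x)
  by_cases hM : Meet n N u x η η' ξ
  swap
  · rw [ind_false hM]; linarith
  rw [ind_true hM]
  by_cases hRu : R ≤ csize η u
  · rw [ind_true hRu]; linarith
  by_cases hRx : R ≤ csize η x
  · rw [ind_true hRx]; linarith
  obtain ⟨⟨hxu, hnu, hnx⟩, hN, hmeet⟩ := hM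
  obtain ⟨z, hzW, hzx⟩ := not_disjoint_iff.1 hmeet
  have hv : Valid S η := fun e he => hE e (hη he)
  have hv' : Valid S η' := fun e he => hE e (hη' he)
  have hdisj : ∀ c, c ∈ cls η x → c ∉ cls η u := fun c hc hcu => hxu (by
    rw [← cls_eq_left hcu, cls_eq_left hc]; exact self_mem_cls η x)
  obtain ⟨wk⟩ := mem_cls.1 hzW
  rcases last_exit (D := touch (nb S) (cls η u)) (↑(cls η u) : Set Γ) (fun e he => touch_ends he) wk
    (fun h => hdisj z hzx h) with h | ⟨a, b, ha, hb, hne, hab, hbz⟩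
  · exact absurd (self_mem_cls η u) h.1
  have ha : a ∈ cls η u := ha
  have hb : b ∉ cls η u := hb
  have haW : a ∈ cls (η' ∩ ξ) u := mem_cls.2
    ((mem_cls.1 hzW).trans ((cl_mono sdiff_subset hbz).symm.trans (cl_edge hne hab).symm))
  have haU : a ∈ U := mem_image.2 ⟨u⁻¹ * a, ball_mono (by omega)
    (cls_subset_ball hS (fun e he => hv' e (inter_subset_left he)) haW), mul_inv_cancel_left u a⟩
  obtain ⟨s, rfl⟩ := (hS.labelling.adj a b).1 (hv' _ (inter_subset_left hab))
  set b := nb S a s with hbdef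
  have eau : cls η a = cls η u := cls_eq_left ha
  by_cases hbx : b ∈ cls η x
  · have hap : Apart n η a b := ⟨eau.symm ▸ hb, by rw [csize, eau]; exact hnu,
      by rw [csize, cls_eq_left hbx]; exact hnx⟩
    have := i1 a haU s
    rw [ind_true (show a ∈ cls (η' ∩ ξ) u ∧ csize (η' ∩ ξ) u ≤ N from ⟨haW, hN⟩), ind_true hap,
      one_mul] at this
    linarith
  have eW : cls (η' ∩ ξ) a = cls (η' ∩ ξ) u := cls_eq_left haW
  obtain ⟨w2⟩ := hbz.symm
  rcases last_exit (D := touch (nb S) (cls η x)) (↑(cls η x) : Set Γ) (fun e he => touch_ends he) w2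
    (fun h => hbx h) with h | ⟨c, d, hc, hd, hcd, hf, hdb⟩
  · exact absurd hzx h.1
  have hc : c ∈ cls η x := hc
  have hd : d ∉ cls η x := hd
  set Z := cls η u ∪ cls η x with hZ
  set C := cls (η' \ touch (nb S) Z) b with hC
  by_cases hbig : m ≤ C.card
  · -- the cluster behind the edge is large
    set α := mix S (cls η u) η η' with hα
    have eα : cls α a = cls η u := by
      rw [cls_eq_left (show a ∈ cls α u by rw [cls_mix hS hv hv' Subset.rfl]; exact ha),
        cls_mix hS hv hv' Subset.rfl]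
    have hsub : η' \ touch (nb S) Z ⊆ α := fun e he => mem_mix.2 (Or.inr ⟨(mem_sdiff.1 he).1,
      fun h => (mem_sdiff.1 he).2 (touch_mono subset_union_left h)⟩)
    have := i2 a haU s
    by_cases hRb : R ≤ csize α b
    · rw [ind_true hRb] at this
      have := ind_nonneg (Join S m R N a b u α (mix S (cls η u) η' η) ξ)
      linarith
    have hsp : Split m (2 * R) α a b := by
      refine ⟨eα.symm ▸ hb, ?_, hbig.trans (card_le_card (cls_mono hsub b)), ?_⟩
      · rw [csize, eα]; exact hmn.trans hnu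
      · have : csize α a = csize η u := congrArg Finset.card eα
        omega
    have hseen : Seen S N (cls α a) a u α (mix S (cls η u) η' η) ξ := by
      unfold Seen
      rw [eα, hα, mix_mix_left]
      unfold csize
      rw [eW]
      exact ⟨self_mem_cls _ u, hN⟩
    rw [ind_true (show Join S m R N a b u α (mix S (cls η u) η' η) ξ from ⟨hsp, hseen⟩)] at this
    have := ind_nonneg (R ≤ csize α b)
    linarith
  -- reopen the edge `f`
  set α := mix S Z η η' with hα
  set f := s(c, d) with hfdef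
  have hfη' : f ∈ η' := inter_subset_left (mem_sdiff.1 hf).1
  have hfu : f ∉ touch (nb S) (cls η u) := (mem_sdiff.1 hf).2
  have hdu : d ∉ cls η u := fun h => hfu (by
    rw [hfdef, Sym2.eq_swap] at hfη' ⊢; exact mem_touch_of_end hS hv' h hfη')
  have hsub : η' \ touch (nb S) Z ⊆ α := fun e he =>
    mem_mix.2 (Or.inr ⟨(mem_sdiff.1 he).1, (mem_sdiff.1 he).2⟩)
  have hdC : d ∈ C := by
    refine mem_cls.2 (cl_mono (fun e he => ?_) hdb).symm
    obtain ⟨⟨he1, he2⟩, he3⟩ := (by simpa only [mem_sdiff] using he :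
      (e ∈ η' ∩ ξ ∧ e ∉ touch (nb S) (cls η u)) ∧ e ∉ touch (nb S) (cls η x))
    refine mem_sdiff.2 ⟨inter_subset_left he1, fun h => ?_⟩
    rw [hZ, touch_union, mem_union] at h
    exact h.elim he2 he3
  have hdb' : d ∈ cls α b := cls_mono hsub b hdC
  have hclosed : cls α b ⊆ C.filter (· ∉ Z) := by
    refine cls_subset_closed (mem_filter.2 ⟨self_mem_cls _ b, fun h =>
      (mem_union.1 h).elim hb hbx⟩) fun g k hg hgk hgkα => ?_
    obtain ⟨hgC, hgZ⟩ := mem_filter.1 hg
    rcases mem_mix.1 hgkα with ⟨he, ht⟩ | ⟨he, ht⟩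
    · obtain ⟨v, hvZ, hve⟩ := touch_ends ht
      rcases Sym2.mem_iff.1 hve with rfl | rfl
      · exact absurd hvZ hgZ
      refine absurd ?_ hgZ
      rw [Sym2.eq_swap] at he
      exact (mem_union.1 hvZ).elim (fun h => mem_union_left _ (cls_step h hgk.symm he))
        fun h => mem_union_right _ (cls_step h hgk.symm he)
    · refine mem_filter.2 ⟨cls_step hgC hgk (mem_sdiff.2 ⟨he, ht⟩), fun h => ht ?_⟩
      rw [Sym2.eq_swap] at he ⊢
      exact mem_touch_of_end hS hv' h he
  have hαb : csize α b < m := by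
    have := card_le_card (hclosed.trans (filter_subset _ _))
    unfold csize; omega
  have hcb : c ∉ cls α b := fun h => (mem_filter.1 (hclosed h)).2 (mem_union_right _ hc)
  have hva : Valid S α := fun e he => hE e (mix_subset hη hη' he)
  have eu : cls α u = cls η u := cls_mix hS hv hv' subset_union_left
  have ex : cls α x = cls η x := cls_mix hS hv hv' subset_union_right
  have ea : cls α a = cls η u := (cls_eq_left (eu.symm ▸ ha)).trans eu
  have ec : cls α c = cls η x := (cls_eq_left (ex.symm ▸ hc)).trans ex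
  have hfα : f ∉ α := fun h => by
    rcases mem_mix.1 h with ⟨he, -⟩ | ⟨-, ht⟩
    · exact hd (cls_step hc hcd he)
    · exact ht (touch_mono subset_union_right (mem_touch_of_end hS hv' hc hfη'))
  set α' := insert f α with hα'
  have hva' : Valid S α' := fun e he => by
    rcases mem_insert.1 he with rfl | h
    · exact hv' _ hfη'
    · exact hva e h
  have ea' : cls α' a = cls η u := by
    rw [← ea]
    refine cls_congr_touch hS hva hva' ?_
    rw [ea, hα', insert_inter_of_notMem hfu]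
  have eb' : cls α' b = cls α b ∪ cls η x := by
    rw [cls_eq (mem_cls.1 (cls_mono (subset_insert f α) b hdb')), hfdef, Sym2.eq_swap,
      cls_insert hcd.symm, ← cls_eq (mem_cls.1 hdb'), ec]
  have hsp : Split n (4 * R) α' a b := by
    refine ⟨ea'.symm ▸ hb, by rw [csize, ea']; exact hnu, ?_, ?_⟩
    · rw [csize, eb']; exact hnx.trans (card_le_card subset_union_right)
    · rw [csize, csize, ea', eb']
      have := card_union_le (cls α b) (cls η x)
      unfold csize at hαb hRu hRx hnu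
      omega
  have eo : outer α f b = cls η x := by
    rw [hfdef, Sym2.eq_swap, outer_eq hdb' hcb, ec]
  have hcut : Cut S n m R N a b u f α' (mix S Z η' η) ξ := by
    refine ⟨mem_insert_self _ _, hsp, ?_⟩
    rw [hα', erase_insert hfα]
    refine ⟨hαb, ?_⟩
    unfold Seen
    rw [ea, eo, ← hZ, hα, mix_mix_left]
    unfold csize
    rw [eW]
    exact ⟨self_mem_cls _ u, hN⟩
  have := i3 a haU s f (hη' hfη')
  rw [ind_true hfα, one_mul, ind_true hcut] at this
  linarith

/-- The edge at `a` carries a small cluster through `y`. -/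
theorem join_sum (hS : Gens S) {p r : ℝ} (h0 : 0 < p) (h1 : p < 1) (r0 : 0 ≤ r) (r1 : r ≤ 1)
    {m R N M T : ℕ} (hm : 1 ≤ m) {u : Γ} (hu : u ∈ ball S T) (hM : T + N + (2 * R + N + 1) ≤ M)
    (s : {a // a ∈ S}) :
    ∑ a ∈ (ball S N).image (u * ·), avg3 (eball S 1 M) p r
      (fun α β ξ => ind (Join S m R N a (nb S a s) u α β ξ)) ≤ N * ghostB S p m := by
  set L := 2 * R + N + 1 with hL
  set E := eball S (1 : Γ) M with hE
  set E0 := eball S (1 : Γ) L with hE0
  have hv : Valid S E := valid_eball hS Subset.rfl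
  rw [sum_image fun a _ b _ h => mul_left_cancel h]
  calc ∑ g ∈ ball S N, avg3 E p r (fun α β ξ => ind (Join S m R N (u * g) (nb S (u * g) s) u α β ξ))
      = ∑ g ∈ ball S N, avg3 E0 p r
          (fun α β ξ => ind (Join S m R N 1 (nb S 1 s) g⁻¹ α β ξ)) := by
        refine sum_congr rfl fun g hg => ?_
        rw [avg3_window (a := u * g) (L := L) (eball_one (mem_ball_add hu hg) hM) p r
          (F := fun α β ξ => ind (Join S m R N (u * g) (nb S (u * g) s) u α β ξ))
          fun α β ξ hα hβ _ => ind_congr (join_local hS (fun e he => hv e (hα he))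
            (fun e he => hv e (hβ he)) s le_rfl)]
        refine congrArg (avg3 E0 p r) (funext fun α => funext fun β => funext fun ξ => ind_congr ?_)
        have := join_shift (S := S) (u * g) 1 (nb S 1 s) g⁻¹ m R N α β ξ
        rwa [mul_one, show u * g * nb S 1 s = nb S (u * g) s by simp [nb],
          mul_inv_cancel_right] at this
    _ = avg3 E0 p r (fun α β ξ => ∑ g ∈ ball S N, ind (Join S m R N 1 (nb S 1 s) g⁻¹ α β ξ)) :=
        (avg3_sum E0 p r _ _).symm
    _ ≤ avg3 E0 p r (fun α _ _ => N * ind (Split m (2 * R) α 1 (nb S 1 s))) :=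
        avg3_mono E0 h0.le h1.le r0 r1 fun α β ξ _ _ _ =>
          sum_ind_mem (φ := fun g : Γ => g⁻¹) (P := Split m (2 * R) α 1 (nb S 1 s))
            (W := cls (mix S (cls α 1) β α ∩ ξ) 1)
            (ball S N) inv_injective fun g _ h => ⟨h.1, h.2.1, h.2.2⟩
    _ ≤ N * ghostB S p m := by
        rw [avg3_fst, avg_mul]
        exact mul_le_mul_of_nonneg_left (two_ghost hS h0 h1 hm (2 * R) (valid_eball hS Subset.rfl) s
          (eball_mono (T := 0) (near_self 1) (by omega))) (Nat.cast_nonneg _)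

/-- The edge at `a` carries a small cluster through `y` and few pivotal edges. -/
theorem cut_sum (hS : Gens S) {p r : ℝ} (h0 : 0 < p) (h1 : p < 1) (r0 : 0 ≤ r) (r1 : r ≤ 1)
    {n m R N M T : ℕ} (hm : 1 ≤ m) (hmn : 2 * m ≤ n) {u : Γ} (hu : u ∈ ball S T)
    (hM : T + N + (4 * R + N + 1) ≤ M) (s : {a // a ∈ S}) :
    ∑ a ∈ (ball S N).image (u * ·), avg3 (eball S 1 M) p r
      (fun α β ξ => ∑ f ∈ eball S 1 M, ind (Cut S n m R N a (nb S a s) u f α β ξ))
      ≤ m * (N * ghostB S p n) := by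
  set L := 4 * R + N + 1 with hL
  set E := eball S (1 : Γ) M with hE
  set E0 := eball S (1 : Γ) L with hE0
  have hv : Valid S E := valid_eball hS Subset.rfl
  rw [sum_image fun a _ b _ h => mul_left_cancel h]
  calc ∑ g ∈ ball S N, avg3 E p r
          (fun α β ξ => ∑ f ∈ E, ind (Cut S n m R N (u * g) (nb S (u * g) s) u f α β ξ))
      = ∑ g ∈ ball S N, avg3 E0 p r
          (fun α β ξ => ∑ f ∈ E0, ind (Cut S n m R N 1 (nb S 1 s) g⁻¹ f α β ξ)) := by
        refine sum_congr rfl fun g hg => ?_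
        set a := u * g with ha
        have hsub : eball S a L ⊆ E := eball_one (mem_ball_add hu hg) hM
        have hcut : ∀ α β ξ : Finset (Sym2 Γ), α ⊆ E →
            ∑ f ∈ E, ind (Cut S n m R N a (nb S a s) u f α β ξ)
              = ∑ f ∈ eball S a L, ind (Cut S n m R N a (nb S a s) u f α β ξ) := fun α β ξ hα =>
          (sum_subset hsub fun f _ hf => ind_false fun h =>
            hf (cut_mem hS (fun e he => hv e (hα he)) s (by omega) (by omega) h)).symm
        rw [avg3_window (a := a) (L := L) hsub p r fun α β ξ hα hβ _ => by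
          rw [hcut α β ξ hα, hcut _ _ _ (inter_subset_left.trans hα)]
          exact sum_congr rfl fun f _ => ind_congr (cut_local hS (fun e he => hv e (hα he))
            (fun e he => hv e (hβ he)) s (by omega) le_rfl)]
        refine avg_congr _ _ fun α hα => avg_congr _ _ fun β _ => avg_congr _ _ fun ξ _ => ?_
        have hsα : shift a α ⊆ eball S a L := by
          refine (image_subset_image hα).trans ?_
          rw [← shift, shift_eball, mul_one]
        dsimp only
        rw [hcut _ _ _ (hsα.trans hsub), show eball S a L = shift a E0 by rw [shift_eball, mul_one],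
          shift, sum_image fun e _ e' _ h => Sym2.map.injective (mul_right_injective a) h]
        refine sum_congr rfl fun f _ => ind_congr ?_
        have := cut_shift (S := S) a 1 (nb S 1 s) g⁻¹ f n m R N α β ξ
        rwa [mul_one, show a * nb S 1 s = nb S a s by simp [nb],
          show a * g⁻¹ = u by simp [ha]] at this
    _ = avg3 E0 p r (fun α β ξ => ∑ g ∈ ball S N, ∑ f ∈ E0,
          ind (Cut S n m R N 1 (nb S 1 s) g⁻¹ f α β ξ)) := (avg3_sum E0 p r _ _).symm
    _ ≤ avg3 E0 p r (fun α _ _ => (m * N : ℝ) * ind (Split n (4 * R) α 1 (nb S 1 s))) := by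
        refine avg3_mono E0 h0.le h1.le r0 r1 fun α β ξ _ _ _ => ?_
        rw [sum_comm]
        refine (sum_le_sum fun f _ => sum_ind_mem (φ := fun g : Γ => g⁻¹)
          (P := f ∈ α ∧ Split n (4 * R) α 1 (nb S 1 s) ∧ csize (α.erase f) (nb S 1 s) < m)
          _ inv_injective fun g _ h => ⟨⟨h.1, h.2.1, h.2.2.1⟩, h.2.2.2.1, h.2.2.2.2⟩).trans ?_
        rw [← mul_sum]
        by_cases hsp : Split n (4 * R) α 1 (nb S 1 s)
        · rw [ind_true hsp, mul_one, mul_comm (m : ℝ)]
          refine mul_le_mul_of_nonneg_left ?_ (Nat.cast_nonneg _)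
          classical
          rw [sum_ind_eq, Nat.cast_le]
          refine (card_le_card fun f hf => ?_).trans
            (card_cut_le (κ := α) (b := nb S 1 s) (hmn.trans hsp.2.2.1))
          obtain ⟨-, h1, -, h3⟩ := mem_filter.1 hf
          exact mem_filter.2 ⟨h1, h3⟩
        · rw [sum_eq_zero fun f _ => ind_false fun h => hsp h.2.1, ind_false hsp]
          simp
    _ ≤ m * (N * ghostB S p n) := by
        rw [avg3_fst, avg_mul, mul_assoc]
        refine mul_le_mul_of_nonneg_left (mul_le_mul_of_nonneg_left ?_ (Nat.cast_nonneg _))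
          (Nat.cast_nonneg _)
        exact two_ghost hS h0 h1 (by omega) (4 * R) (valid_eball hS Subset.rfl) s
          (eball_mono (T := 0) (near_self 1) (by omega))

/-- The probability that a small witness meets the cluster of `x`. -/
theorem meet_le (hS : Gens S) {p r : ℝ} (h0 : 0 < p) (h1 : p < 1) (r0 : 0 ≤ r) (r1 : r ≤ 1)
    {n m N R M T : ℕ} (hm : 1 ≤ m) (hmn : 2 * m ≤ n) {u x : Γ} (hu : u ∈ ball S T) {K : ℕ}
    (hx : x ∈ ball S K) (hKM : K + R ≤ M) (hM : T + N + (4 * R + N + 1) + 1 ≤ M) {B : ℝ}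
    (hB : ∀ v ∈ ball S (T + N), ∀ s : {a // a ∈ S},
      avg (eball S 1 M) p (fun η => ind (Apart n η v (nb S v s))) ≤ B) (hB0 : 0 ≤ B) :
    avg3 (eball S 1 M) p r (fun η η' ξ => ind (Meet n N u x η η' ξ))
      ≤ S.card * (N * B) + S.card * (N * ghostB S p m)
        + (1 - p) / p * (S.card * (m * (N * ghostB S p n)))
        + (S.card * (ball S N).card + 2) * tail S p R := by
  set E := eball S (1 : Γ) M with hE
  have hv : Valid S E := valid_eball hS Subset.rfl
  set U := (ball S N).image (u * ·) with hU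
  have hUT : ∀ a ∈ U, a ∈ ball S (T + N) := fun a ha => by
    obtain ⟨g, hg, rfl⟩ := mem_image.1 ha
    exact mem_ball_add hu hg
  have hcardU : U.card = (ball S N).card := card_image_of_injective _ (mul_right_injective u)
  refine (avg3_mono E h0.le h1.le r0 r1 fun η η' ξ hη hη' _ =>
    meet_pointwise hS (R := R) (m := m) hv hη hη' (by omega)).trans ?_
  rw [avg3_add, avg3_add, avg3_add, avg3_add,
    avg3_swap E p r (fun η => cls η u) (fun η η' hη hη' => cls_mix hS (fun e he => hv e (hη he))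
      (fun e he => hv e (hη' he)) Subset.rfl)
      (fun α β ξ => ∑ a ∈ U, ∑ s, (ind (Join S m R N a (nb S a s) u α β ξ)
        + ind (R ≤ csize α (nb S a s)))),
    avg3_swap E p r (fun η => cls η u ∪ cls η x) (fun η η' hη hη' => by
      have hh := fun (z : Γ) (h : cls η z ⊆ cls η u ∪ cls η x) => cls_mix hS
        (fun e he => hv e (hη he)) (fun e he => hv e (hη' he)) (η := η) (η' := η') h
      rw [hh u subset_union_left, hh x subset_union_right])
      (fun α β ξ => ∑ a ∈ U, ∑ s, ∑ f ∈ E,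
        ind (f ∉ α) * ind (Cut S n m R N a (nb S a s) u f (insert f α) β ξ))]
  have b1 : avg3 E p r (fun η η' ξ => ∑ a ∈ U, ∑ s,
      ind (a ∈ cls (η' ∩ ξ) u ∧ csize (η' ∩ ξ) u ≤ N) * ind (Apart n η a (nb S a s)))
      ≤ S.card * (N * B) := by
    set π := fun a => avg E p fun η' => avg E r fun ξ =>
      ind (a ∈ cls (η' ∩ ξ) u ∧ csize (η' ∩ ξ) u ≤ N)
    have e : ∀ a s, avg3 E p r (fun η η' ξ => ind (a ∈ cls (η' ∩ ξ) u ∧ csize (η' ∩ ξ) u ≤ N)
        * ind (Apart n η a (nb S a s)))
        = π a * avg E p (fun η => ind (Apart n η a (nb S a s))) := by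
      intro a s
      rw [← avg_mul]
      refine avg_congr E p fun η _ => ?_
      simp only [π, mul_comm _ (ind (Apart n η a (nb S a s))), avg_mul]
    simp only [avg3_sum, e]
    have hπ : ∑ a ∈ U, π a ≤ N := by
      simp only [π, ← avg_sum]
      refine (avg_mono E h0.le h1.le fun η' _ => avg_mono E r0 r1 fun ξ _ =>
        (sum_ind_mem U (φ := id) (P := True) Function.injective_id
          fun a _ h => ⟨trivial, h⟩).trans_eq (by rw [ind_true trivial, mul_one])).trans_eq ?_
      simp [avg_const]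
    calc _ ≤ ∑ a ∈ U, ∑ _s : {a // a ∈ S}, π a * B :=
          sum_le_sum fun a ha => sum_le_sum fun s _ => mul_le_mul_of_nonneg_left (hB a (hUT a ha) s)
            (avg_nonneg _ h0.le h1.le fun _ _ => avg_nonneg _ r0 r1 fun _ _ => ind_nonneg _)
      _ = S.card * ((∑ a ∈ U, π a) * B) := by
          rw [sum_comm, sum_const, card_univ, Fintype.card_coe, nsmul_eq_mul, sum_mul]
      _ ≤ S.card * (N * B) :=
          mul_le_mul_of_nonneg_left (mul_le_mul_of_nonneg_right hπ hB0) (Nat.cast_nonneg _)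
  have b2 : avg3 E p r (fun α β ξ => ∑ a ∈ U, ∑ s, (ind (Join S m R N a (nb S a s) u α β ξ)
      + ind (R ≤ csize α (nb S a s))))
      ≤ S.card * (N * ghostB S p m) + S.card * (ball S N).card * tail S p R := by
    simp only [avg3_sum, avg3_add, avg3_fst, sum_add_distrib]
    refine add_le_add ?_ (le_of_eq ?_)
    · rw [sum_comm]
      refine (sum_le_sum fun s _ => join_sum hS h0 h1 r0 r1 hm hu (by omega) s).trans_eq ?_
      rw [sum_const, card_univ, Fintype.card_coe, nsmul_eq_mul]
    · have ht : ∀ a ∈ U, ∀ s : {a // a ∈ S},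
          avg E p (fun η => ind (R ≤ csize η (nb S a s))) = tail S p R := fun a ha s =>
        tail_eq hS hv (show eball S (nb S a s) R ⊆ E from
          eball_one (mul_mem_ball_succ (hUT a ha) s.2) (by omega)) p
      rw [sum_congr rfl fun a ha => sum_congr rfl fun s _ => ht a ha s]
      simp only [sum_const, card_univ, Fintype.card_coe, nsmul_eq_mul, hcardU]
      ring
  have b3 : avg3 E p r (fun α β ξ => ∑ a ∈ U, ∑ s, ∑ f ∈ E,
      ind (f ∉ α) * ind (Cut S n m R N a (nb S a s) u f (insert f α) β ξ))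
      ≤ (1 - p) / p * (S.card * (m * (N * ghostB S p n))) := by
    have hc : 0 ≤ (1 - p) / p := div_nonneg (sub_nonneg.2 h1.le) h0.le
    have e : ∀ a s, avg3 E p r (fun α β ξ => ∑ f ∈ E,
        ind (f ∉ α) * ind (Cut S n m R N a (nb S a s) u f (insert f α) β ξ))
        ≤ (1 - p) / p * avg3 E p r (fun α β ξ => ∑ f ∈ E, ind (Cut S n m R N a (nb S a s) u f α β ξ)) := by
      intro a s
      simp only [avg3, avg_sum, avg_mul]
      rw [← avg_sum, avg_open E h0 fun f α => avg E p fun β => avg E r fun ξ =>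
        ind (Cut S n m R N a (nb S a s) u f α β ξ), avg_sum]
      refine mul_le_mul_of_nonneg_left (sum_le_sum fun f _ => avg_mono E h0.le h1.le fun α _ => ?_) hc
      exact mul_le_of_le_one_left (avg_nonneg _ h0.le h1.le fun _ _ =>
        avg_nonneg _ r0 r1 fun _ _ => ind_nonneg _) (ind_le_one _)
    simp only [avg3_sum _ _ _ U, avg3_sum _ _ _ (univ : Finset {a // a ∈ S})]
    refine (sum_le_sum fun a _ => sum_le_sum fun s _ => e a s).trans ?_
    rw [sum_comm]
    simp only [← mul_sum]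
    refine mul_le_mul_of_nonneg_left ?_ hc
    refine (sum_le_sum fun s _ => cut_sum hS h0 h1 r0 r1 hm hmn hu (by omega) s).trans_eq ?_
    rw [sum_const, card_univ, Fintype.card_coe, nsmul_eq_mul]
  rw [avg3_fst, avg3_fst, tail_eq hS hv (eball_one hu (by omega)), tail_eq hS hv (eball_one hx hKM)]
  linarith

end Vale.Agent.P151.Growth
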