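import Vale.Agent.P151.Growth.Defs
import Vale.Agent.P151.Growth.Meet

/-!
# Gluing with a capped witness
-/

namespace Vale.Agent.P151.Growth

open Finset Vale.Agent.P165

variable {Γ : Type} [Group Γ] [DecidableEq Γ] {S : Finset Γ}

variable (S) in
/-- The error of one gluing step. -/
noncomputable def glueErr (p : ℝ) (n m N : ℕ) : ℝ :=
  16 * (S.card + 1) * N * ghostC S p / (p * (1 - p)) * (1 / Real.sqrt m + m / Real.sqrt n)

omit [Group Γ] in
theorem monotone_join (u y : Γ) :
    Monotone fun η : Finset (Sym2 Γ) => ind (y ∈ cls η u) :=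
  fun _ _ h => ind_mono fun hy => cls_mono h u hy

/-- Given the cluster of `x`, the rest of the configuration is fresh. -/
theorem apart_fresh (hS : Gens S) {E : Finset (Sym2 Γ)} (hE : Valid S E) {p : ℝ} (h0 : 0 ≤ p)
    (h1 : p ≤ 1) (n : ℕ) (u x y : Γ) :
    avg E p (fun η => ind (Apart n η u x) *
      avg E p fun η' => ind (y ∈ cls (η' \ touch (nb S) (cls η x)) u))
      ≤ avg E p (fun η => ind (Apart n η y x)) := by
  classical
  set Cs := E.powerset.image fun η => cls η x with hCs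
  have hone : ∀ η, η ⊆ E → ∀ g : ℝ, g = ∑ C ∈ Cs, ind (cls η x = C) * g := by
    intro η hη g
    rw [sum_eq_single_of_mem (cls η x) (hCs ▸ mem_image.2 ⟨η, mem_powerset.2 hη, rfl⟩ : cls η x ∈ Cs)
      (fun C _ hC => by rw [ind_false fun h => hC h.symm, zero_mul]), ind_true rfl, one_mul]
  rw [avg_congr E p fun η hη => hone η hη _, avg_sum,
    avg_congr E p (g := fun η => ∑ C ∈ Cs, ind (cls η x = C) * ind (Apart n η y x))
      fun η hη => hone η hη _, avg_sum]
  refine sum_le_sum fun C _ => ?_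
  set A := E ∩ touch (nb S) C with hA
  have hAE : A ⊆ E := inter_subset_left
  have e1 : ∀ η, η ⊆ E → η ∩ A = η ∩ touch (nb S) C := fun η hη => by
    rw [hA, ← inter_assoc, inter_eq_left.2 hη]
  have e2 : ∀ η, η ⊆ E → η \ A = η \ touch (nb S) C := fun η hη => by
    rw [hA]
    ext e
    rw [mem_sdiff, mem_sdiff, mem_inter]
    exact ⟨fun h => ⟨h.1, fun h' => h.2 ⟨hη h.1, h'⟩⟩, fun h => ⟨h.1, fun h' => h.2 h'.2⟩⟩
  set f : Finset (Sym2 Γ) → ℝ := fun ζ => ind (cls ζ x = C ∧ u ∉ C ∧ n ≤ C.card) with hf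
  set g : Finset (Sym2 Γ) → ℝ := fun ζ => ind (n ≤ csize ζ u) with hg
  set k : Finset (Sym2 Γ) → ℝ := fun ζ => ind (y ∈ cls ζ u) with hk
  set H := avg E p (fun η' => ind (y ∈ cls (η' \ touch (nb S) C) u)) with hH
  have eH : H = avg (E \ A) p k := by
    have h := avg_split hAE p (fun _ => (1 : ℝ)) k
    rw [avg_one, one_mul] at h
    rw [← h, hH]
    exact avg_congr E p fun η hη => by simp only [hk, one_mul, e2 η hη]
  have hleft : avg E p (fun η => ind (cls η x = C) * (ind (Apart n η u x) *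
      avg E p fun η' => ind (y ∈ cls (η' \ touch (nb S) (cls η x)) u)))
      ≤ avg A p f * avg (E \ A) p g * H := by
    rw [← avg_split hAE p f g, mul_comm _ H, ← avg_mul]
    have hH0 : 0 ≤ H := avg_nonneg E h0 h1 fun _ _ => ind_nonneg _
    refine avg_mono E h0 h1 fun η hη => ?_
    have n1 : 0 ≤ H * (f (η ∩ A) * g (η \ A)) :=
      mul_nonneg hH0 (mul_nonneg (ind_nonneg _) (ind_nonneg _))
    by_cases hC : cls η x = C
    swap
    · rw [ind_false hC, zero_mul]; exact n1
    by_cases hap : Apart n η u x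
    swap
    · rw [ind_false hap, zero_mul, mul_zero]; exact n1
    have hv : Valid S η := fun e he => hE e (hη he)
    have huC : u ∉ C := fun hu => hap.1 (by
      rw [cls_eq_left (show u ∈ cls η x by rw [hC]; exact hu)]; exact self_mem_cls η x)
    have hu : cls (η \ touch (nb S) C) u = cls η u := by
      refine Subset.antisymm (cls_mono sdiff_subset u) (cls_subset_of_edges fun a b ha hb hab =>
        mem_sdiff.2 ⟨hab, fun ht => ?_⟩)
      obtain ⟨v, hvC, hve⟩ := touch_ends ht
      refine hap.1 ?_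
      have hvu : v ∈ cls η u := by rcases Sym2.mem_iff.1 hve with rfl | rfl <;> assumption
      rw [← cls_eq_left hvu, cls_eq_left (show v ∈ cls η x by rw [hC]; exact hvC)]
      exact self_mem_cls η x
    have hx : cls (η ∩ touch (nb S) C) x = C := by
      rw [← hC]; exact cls_inter_of_touch hS hv Subset.rfl
    simp only [hf, hg, e1 η hη, e2 η hη]
    rw [ind_true hC, ind_true hap, hC, ← hH, one_mul, one_mul,
      ind_true (show cls (η ∩ touch (nb S) C) x = C ∧ u ∉ C ∧ n ≤ C.card from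
        ⟨hx, huC, hC ▸ hap.2.2⟩),
      ind_true (show n ≤ csize (η \ touch (nb S) C) u by rw [csize, hu]; exact hap.2.1),
      one_mul, mul_one]
  refine hleft.trans ?_
  rw [mul_assoc, eH]
  refine (mul_le_mul_of_nonneg_left (harris (E \ A) h0 h1 (monotone_big n u) (monotone_join u y))
    (avg_nonneg A h0 h1 fun _ _ => ind_nonneg _)).trans ?_
  rw [← avg_split hAE p f fun ζ => ind (n ≤ csize ζ u) * ind (y ∈ cls ζ u)]
  refine avg_mono E h0 h1 fun η hη => ?_
  simp only [hf, e1 η hη, e2 η hη, ← ind_and]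
  refine ind_mono ?_
  rintro ⟨⟨hx, huC, hn⟩, hbig, hy⟩
  have hv : Valid S η := fun e he => hE e (hη he)
  have hC : cls η x = C := by
    rw [← hx]
    refine cls_congr_touch hS (fun e he => hv e (inter_subset_left he)) hv ?_
    rw [hx, inter_assoc, inter_self]
  have hyu : y ∈ cls η u := cls_mono sdiff_subset u hy
  refine ⟨hC, fun hxy => huC ?_, ?_, by rw [csize, hC]; exact hn⟩
  · rw [← hC, cls_eq_left hxy, cls_eq_left hyu]; exact self_mem_cls η u
  · rw [csize, cls_eq_left hyu]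
    exact hbig.trans (card_le_card (cls_mono sdiff_subset u))

/-- Apartness times the chance of a witness. -/
theorem apart_chain (hS : Gens S) {E : Finset (Sym2 Γ)} (hE : Valid S E) {p r : ℝ} (h0 : 0 ≤ p)
    (h1 : p ≤ 1) (r0 : 0 ≤ r) (r1 : r ≤ 1) (n N : ℕ) (u x y : Γ) :
    avg E p (fun η => ind (Apart n η u x)) *
        avg E (p * r) (fun η => ind (y ∈ cls η u ∧ csize η u ≤ N))
      ≤ avg3 E p r (fun η η' ξ => ind (Meet n N u x η η' ξ))
        + avg E p (fun η => ind (Apart n η y x)) := by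
  rw [← avg_thin E p r fun η => ind (y ∈ cls η u ∧ csize η u ≤ N), mul_comm, ← avg_mul]
  refine (avg_mono E h0 h1 fun η hη => ?_).trans
    ((avg_add E p _ _).le.trans (add_le_add le_rfl (apart_fresh hS hE h0 h1 n u x y)))
  rw [mul_comm, ← avg_mul, ← avg_mul, ← avg_add]
  refine avg_mono E h0 h1 fun η' hη' => ?_
  rw [← avg_mul]
  refine (avg_mono E r0 r1 (g := fun ξ => ind (Meet n N u x η η' ξ)
    + ind (Apart n η u x) * ind (y ∈ cls (η' \ touch (nb S) (cls η x)) u)) fun ξ hξ => ?_).trans_eq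
    (by rw [avg_add, avg_const])
  rw [← ind_and, ← ind_and]
  have n1 := ind_nonneg (Meet n N u x η η' ξ)
  have n2 := ind_nonneg (Apart n η u x ∧ y ∈ cls (η' \ touch (nb S) (cls η x)) u)
  by_cases h : Apart n η u x ∧ y ∈ cls (η' ∩ ξ) u ∧ csize (η' ∩ ξ) u ≤ N
  swap
  · rw [ind_false h]; linarith
  rw [ind_true h]
  by_cases hd : Disjoint (cls (η' ∩ ξ) u) (cls η x)
  · rw [ind_true (show Apart n η u x ∧ y ∈ cls (η' \ touch (nb S) (cls η x)) u from ⟨h.1, ?_⟩)]
    · linarith
    refine cls_mono (fun e he => ?_) u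
      (cls_subset_of_edges (η' := (η' ∩ ξ) \ touch (nb S) (cls η x)) (fun a b ha hb hab =>
        mem_sdiff.2 ⟨hab, fun ht => ?_⟩) h.2.1)
    · exact mem_sdiff.2 ⟨inter_subset_left (mem_sdiff.1 he).1, (mem_sdiff.1 he).2⟩
    · obtain ⟨v, hv, hve⟩ := touch_ends ht
      rcases Sym2.mem_iff.1 hve with rfl | rfl
      exacts [disjoint_left.1 hd ha hv, disjoint_left.1 hd hb hv]
  · rw [ind_true (show Meet n N u x η η' ξ from ⟨h.1, h.2.2, hd⟩)]; linarith

theorem capConn_zero {q : ℝ} (w : Γ) : capConn S q 0 w = 0 := by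
  rw [capConn, avg_congr _ q (g := fun _ => 0) fun η _ => ind_false fun h =>
    absurd (csize_pos η 1) (by omega), avg_const]

/-- Gluing along one witness. -/
theorem glue_step (hS : Gens S) {p q : ℝ} (h0 : 0 < p) (h1 : p < 1) (hq0 : 0 ≤ q) (hqp : q ≤ p)
    (hlim : Filter.Tendsto (fun k => tail S p k) Filter.atTop (nhds 0)) {n m N r r' : ℕ} (hm : 1 ≤ m)
    (hmn : 2 * m ≤ n) {A δ : ℝ} (_hA0 : 0 ≤ A) (hδ : 0 < δ) (hA : ApartLe S p n r' A)
    (hwit : ∀ v ∈ ball S r, ∃ w : Γ, w⁻¹ * v ∈ ball S r' ∧ δ ≤ capConn S q N w) :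
    ApartLe S p n r ((glueErr S p n m N + A) / δ) := by
  have hN : 1 ≤ N := by
    obtain ⟨w, -, hw⟩ := hwit 1 (one_mem_ball r)
    by_contra h
    rw [Nat.lt_one_iff.1 (not_le.1 h), capConn_zero] at hw
    linarith
  have hp' : 0 < 1 - p := sub_pos.2 h1
  have hn : 1 ≤ n := by omega
  set G := ghostC S p with hG
  have hG0 : 0 < G := ghostC_pos h0 h1
  have hsn : 0 < Real.sqrt n := Real.sqrt_pos.2 (by exact_mod_cast hn)
  have hsm : 0 < Real.sqrt m := Real.sqrt_pos.2 (by exact_mod_cast hm)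
  set K : ℝ := ((S.card * (ball S N).card + 2 : ℕ) : ℝ) with hK
  have hK0 : 0 < K := by rw [hK]; positivity
  obtain ⟨R, hR⟩ := (hlim.eventually (eventually_le_nhds
    (show 0 < G / Real.sqrt m / K by positivity))).exists
  intro T
  filter_upwards [hA (T + r + r'), split_le hS h0 h1 hlim hn (T + N),
    Filter.eventually_ge_atTop (T + r + r' + 2 * N + 4 * R + 2)] with M hMA hMB hM u hu x hx
  obtain ⟨w, hw, hwδ⟩ := hwit _ hx
  set y := u * w with hy
  have hyball : y ∈ ball S (T + r + r') := by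
    have h := mem_ball_add hu (mem_ball_add hx (inv_mem_ball hS hw))
    rw [show u * (u⁻¹ * x * (w⁻¹ * (u⁻¹ * x))⁻¹) = y by rw [hy]; group] at h
    exact ball_mono (by omega) h
  have hy2 : avg (eball S 1 M) p (fun η => ind (Apart n η y x)) ≤ A :=
    hMA y hyball x (by rw [hy, mul_inv_rev, mul_assoc]; exact hw)
  have hv : Valid S (eball S (1 : Γ) M) := valid_eball hS Subset.rfl
  have hr1 : q / p ≤ 1 := (div_le_one h0).2 hqp
  have hr0 : 0 ≤ q / p := div_nonneg hq0 h0.le
  have hB0 : 0 ≤ 3 * G / Real.sqrt n := by positivity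
  have hxball : x ∈ ball S (T + r) := by simpa using mem_ball_add hu hx
  have hmeet := meet_le hS (r := q / p) (N := N) (R := R) (M := M) h0 h1 hr0 hr1 hm hmn hu hxball
    (by omega) (by omega) (fun v hv s => hMB v hv s) hB0
  have hch := apart_chain hS hv h0.le h1.le hr0 hr1 n N u x y
  rw [mul_div_cancel₀ q h0.ne', hy, capConn_eq hS q hu (by omega) w, ← hy] at hch
  rw [le_div_iff₀ hδ]
  refine (mul_le_mul_of_nonneg_left hwδ (avg_nonneg _ h0.le h1.le fun _ _ => ind_nonneg _)).trans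
    (hch.trans (add_le_add (hmeet.trans ?_) hy2))
  have eB : ∀ k : ℕ, ghostB S p k = G / Real.sqrt k := fun k => rfl
  rw [eB, eB]
  have hjunk : (S.card * (ball S N).card + 2 : ℝ) * tail S p R ≤ G / Real.sqrt m := by
    have h := mul_le_mul_of_nonneg_left hR hK0.le
    rw [mul_div_cancel₀ _ hK0.ne', hK] at h
    push_cast at h
    exact h
  set a := G / Real.sqrt n with ha
  set b := G / Real.sqrt m with hb
  have ha0 : 0 ≤ a := by positivity
  have hb0 : 0 ≤ b := by positivity
  set k : ℝ := 1 / (p * (1 - p)) with hk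
  have hk1 : 1 ≤ k := by
    rw [hk, le_div_iff₀ (mul_pos h0 hp'), one_mul]; nlinarith
  have hk2 : (1 - p) / p ≤ k := by
    rw [hk, div_le_div_iff₀ h0 (mul_pos h0 hp')]; nlinarith [mul_pos h0 hp', mul_pos h0 (mul_pos hp' hp')]
  have hgl : glueErr S p n m N = 16 * (S.card + 1) * N * k * (b + m * a) := by
    rw [glueErr, ← hG, ha, hb, hk]; field_simp
  rw [hgl, show 3 * G / Real.sqrt n = 3 * a by rw [ha]; ring]
  have hN' : (1 : ℝ) ≤ N := by exact_mod_cast hN
  have hm' : (1 : ℝ) ≤ m := by exact_mod_cast hm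
  have hS0 : (0 : ℝ) ≤ S.card := Nat.cast_nonneg _
  have e1 : a ≤ k * (m * a) :=
    (le_mul_of_one_le_left ha0 hm').trans (le_mul_of_one_le_left (by positivity) hk1)
  have e2 : b ≤ k * b := le_mul_of_one_le_left hb0 hk1
  have e3 : b ≤ N * (k * b) := e2.trans (le_mul_of_one_le_left (by positivity) hN')
  have c1 : (S.card : ℝ) * (N * (3 * a)) ≤ 3 * ((S.card + 1) * N * k) * (m * a) := by
    rw [show 3 * ((S.card + 1) * N * k) * (m * a) = (S.card + 1) * (N * (3 * (k * (m * a))))
      by ring]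
    gcongr
    linarith
  have c2 : (S.card : ℝ) * (N * b) + b ≤ ((S.card + 1) * N * k) * b := by
    rw [show ((S.card + 1) * N * k) * b = S.card * (N * (k * b)) + N * (k * b) by ring]
    gcongr
  have c3 : (1 - p) / p * (S.card * (m * (N * a))) ≤ ((S.card + 1) * N * k) * (m * a) := by
    rw [show ((S.card + 1) * N * k) * (m * a) = k * ((S.card + 1) * (m * (N * a))) by ring]
    gcongr
    linarith
  have hX : 0 ≤ (S.card + 1) * N * k := by positivity
  linarith [mul_nonneg hX hb0, mul_nonneg hX (mul_nonneg (zero_le_one.trans hm') ha0)]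

end Vale.Agent.P151.Growth
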