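import Vale.Agent.P151.Decay
import Vale.Agent.P151.Growth.Entropy

/-!
# Small influences, and thinning of the cluster tail
-/

namespace Vale.Agent.P151.Growth

open Finset Vale.Agent.P165

section Influence

variable {α : Type} [DecidableEq α]

/-- Small influences make the variance small. -/
theorem var_le_of_infl (E : Finset α) {p : ℝ} (h0 : 0 < p) (h1 : p < 1) (f : Finset α → ℝ)
    {iota K : ℝ} (hiota : ∀ e ∈ E, avg E p (fun η => |dlt e f η|) ≤ iota)
    (hK : ∑ e ∈ E, avg E p (fun η => |dlt e f η|) ≤ K)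
    (hdiff : ∀ e ∈ E, ∀ η, η ⊆ E → |dlt e f η| ≤ 1) (hpos : 0 < iota * K) (hlt : iota * K < 1) :
    var E p f ≤ max (3 * √(iota * K)) (4 * K / Real.log (1 / (iota * K))) := by
  by_cases hle : var E p f ≤ 3 * √(iota * K)
  · exact le_max_of_le_left hle
  refine le_max_of_le_right ?_
  rw [not_le] at hle
  set B := iota * K with hB
  have hV : 0 < var E p f := (by positivity : (0:ℝ) ≤ 3 * √B).trans_lt hle
  have hI : ∑ e ∈ E, avg E p (fun η => |dlt e f η|) ^ 2 ≤ B := by
    have hS : ∑ e ∈ E, avg E p (fun η => |dlt e f η|) ^ 2 ≤ iota * ∑ e ∈ E, avg E p (fun η => |dlt e f η|) := by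
      rw [mul_sum]
      exact sum_le_sum fun e he => by
        rw [sq]; exact mul_le_mul_of_nonneg_right (hiota e he) (avg_nonneg E h0.le h1.le fun _ _ => abs_nonneg _)
    by_cases hi : 0 ≤ iota
    · exact hS.trans (mul_le_mul_of_nonneg_left hK hi)
    rcases E.eq_empty_or_nonempty with h | h
    · simpa [h] using hpos.le
    · obtain ⟨e, he⟩ := h
      exact absurd ((avg_nonneg E h0.le h1.le fun _ _ => abs_nonneg _).trans (hiota e he)) hi
  have hD : ∑ e ∈ E, avg E p (fun η => dlt e f η ^ 2) ≤ K := by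
    refine le_trans (sum_le_sum fun e he => avg_mono E h0.le h1.le fun η hη => ?_) hK
    rw [← sq_abs, sq]
    exact mul_le_of_le_one_left (abs_nonneg _) (hdiff e he η hη)
  have h := falik_samorodnitsky E h0 h1 f (Real.log (var E p f / B))
  rw [Real.exp_log (div_pos hV hpos)] at h
  have hI' : var E p f / B * ∑ e ∈ E, avg E p (fun η => |dlt e f η|) ^ 2 ≤ var E p f := by
    refine (mul_le_mul_of_nonneg_left hI (div_pos hV hpos).le).trans_eq ?_
    rw [div_mul_cancel₀ _ hpos.ne']
  have hc : Real.log (1 / B) / 2 + 1 ≤ Real.log (var E p f / B) := by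
    rw [Real.log_div hV.ne' hpos.ne', one_div, Real.log_inv]
    have := (Real.log_lt_log (mul_pos three_pos (Real.sqrt_pos.2 hpos)) hle).le
    rw [Real.log_mul three_ne_zero (Real.sqrt_pos.2 hpos).ne', Real.log_sqrt hpos.le] at this
    have h3 : (1 : ℝ) ≤ Real.log 3 :=
      (Real.le_log_iff_exp_le three_pos).2 Real.exp_one_lt_three.le
    linarith
  have hL : 0 < Real.log (1 / B) := Real.log_pos ((one_lt_div hpos).2 hlt)
  have hmul := mul_le_mul_of_nonneg_left hc hV.le
  rw [le_div_iff₀ hL]
  simp only [dir] at h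
  linarith

end Influence

section Tail

variable {Γ : Type} [Group Γ] [DecidableEq Γ] {S : Finset Γ}

omit [Group Γ] in
/-- A large cluster contains few edges that already make it large. -/
theorem exists_few_edges {η : Finset (Sym2 Γ)} {x : Γ} {n : ℕ} (h : n ≤ csize η x) :
    ∃ F, F ⊆ η ∧ F.card ≤ n ∧ n ≤ csize F x := by
  induction n with
  | zero => exact ⟨∅, empty_subset _, by simp, Nat.zero_le _⟩
  | succ n ih =>
    obtain ⟨F, hF, hc, hn⟩ := ih (by omega)
    by_cases hbig : n + 1 ≤ csize F x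
    · exact ⟨F, hF, by omega, hbig⟩
    obtain ⟨y, hy, hyF⟩ := exists_mem_notMem_of_card_lt_card
      (show (cls F x).card < (cls η x).card by unfold csize at h hbig; omega)
    obtain ⟨w⟩ := mem_cls.1 hy
    rcases last_exit (D := ∅) (↑(cls F x) : Set Γ) (fun e he => absurd he (notMem_empty e)) w
      (by simpa using hyF) with ⟨hx, -⟩ | ⟨a, b, ha, hb, hab, he, -⟩
    · exact absurd (self_mem_cls F x) hx
    refine ⟨insert s(a, b) F, insert_subset he hF, (card_insert_le _ _).trans (by omega), ?_⟩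
    have hlt : (cls F x).card < (cls (insert s(a, b) F) x).card := by
      refine card_lt_card ⟨cls_mono (subset_insert _ _) x, fun hss => hb (hss (mem_cls.2 ?_))⟩
      exact (cl_mono (subset_insert _ _) (mem_cls.1 ha)).trans (cl_edge hab (mem_insert_self _ _))
    unfold csize at hn ⊢
    omega

/-- Thinning keeps a large cluster with probability at least `r ^ n`. -/
theorem tail_thin {p r : ℝ} (hp0 : 0 ≤ p) (hp1 : p ≤ 1) (hr0 : 0 ≤ r) (hr1 : r ≤ 1) (n : ℕ) :
    r ^ n * tail S p n ≤ tail S (p * r) n := by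
  unfold tail
  conv_rhs => rw [← avg_thin]
  rw [← avg_mul]
  refine avg_mono _ hp0 hp1 fun η hη => ?_
  by_cases hn : n ≤ csize η (1 : Γ)
  · obtain ⟨F, hF, hc, hFn⟩ := exists_few_edges hn
    have hforce := avg_forced (hF.trans hη) r fun _ => (1 : ℝ)
    rw [avg_one, mul_one] at hforce
    rw [ind_true hn, mul_one]
    refine (pow_le_pow_of_le_one hr0 hr1 hc).trans (hforce.symm.le.trans ?_)
    refine avg_mono _ hr0 hr1 fun ξ _ => ?_
    show (if F ⊆ ξ then (1 : ℝ) else 0) ≤ ind _
    split_ifs with hFξ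
    · rw [ind_true (show n ≤ csize (η ∩ ξ) 1 from
        hFn.trans (card_le_card (cls_mono (subset_inter hF hFξ) 1)))]
    · exact ind_nonneg _
  · rw [ind_false hn, mul_zero]
    exact avg_nonneg _ hr0 hr1 fun _ _ => ind_nonneg _

end Tail

end Vale.Agent.P151.Growth
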