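import Vale.Agent.P151.Growth.Witness
import Vale.Agent.P151.Growth.Glue
import Vale.Agent.P151.Growth.Thin

/-!
# No percolation at the threshold for groups of growth above `exp (r ^ (1/2))`
-/

namespace Vale.Agent.P151.Growth

open Finset Filter Vale.Agent.P165 Real

variable {Γ : Type} [Group Γ] [DecidableEq Γ] {S : Finset Γ}

theorem ball_split {r s : ℕ} {v : Γ} (hv : v ∈ ball S (r + s)) :
    ∃ w ∈ ball S s, w⁻¹ * v ∈ ball S r := by
  obtain ⟨l, hl, hlv⟩ := exists_word hv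
  refine ⟨((l.take s).map Subtype.val).prod,
    ball_mono (by simp) (prod_mem_ball (l.take s)), ?_⟩
  rw [← hlv]
  conv in (List.map Subtype.val l).prod => rw [← List.take_append_drop s l]
  rw [List.map_append, List.prod_append, inv_mul_cancel_left]
  exact ball_mono (by simp; omega) (prod_mem_ball (l.drop s))

/-- Repeated gluing along equal steps. -/
theorem glue_iter (hS : Gens S) {p q : ℝ} (h0 : 0 < p) (h1 : p < 1) (hq0 : 0 ≤ q) (hqp : q ≤ p)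
    (hlim : Tendsto (fun m => tail S p m) atTop (nhds 0)) {n m N r₀ s : ℕ} (hm : 1 ≤ m)
    (hmn : 2 * m ≤ n) {A δ g : ℝ} (hA0 : 0 ≤ A) (hδ : 0 < δ) (hδ1 : δ ≤ 1) (hg : 0 ≤ g)
    (hge : glueErr S p n m N ≤ g) (hA : ApartLe S p n r₀ A)
    (hwit : ∀ w ∈ ball S s, δ ≤ capConn S q N w) :
    ∀ K : ℕ, ApartLe S p n (r₀ + K * s) (δ⁻¹ ^ K * (A + K * g))
  | 0 => by simpa using hA
  | K + 1 => by
    have ih := glue_iter hS h0 h1 hq0 hqp hlim hm hmn hA0 hδ hδ1 hg hge hA hwit K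
    have h := glue_step hS h0 h1 hq0 hqp hlim hm hmn (r := r₀ + (K + 1) * s) (by positivity) hδ ih
      fun v hv => by
        rw [show r₀ + (K + 1) * s = (r₀ + K * s) + s by ring] at hv
        obtain ⟨w, hw, hwv⟩ := ball_split hv
        exact ⟨w, hwv, hwit w hw⟩
    refine h.mono le_rfl ?_
    rw [div_eq_inv_mul, pow_succ', mul_assoc δ⁻¹]
    refine mul_le_mul_of_nonneg_left ?_ (inv_nonneg.2 hδ.le)
    have h1' : (1 : ℝ) ≤ δ⁻¹ ^ K := one_le_pow₀ ((one_le_inv₀ hδ).2 hδ1)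
    have := mul_le_mul_of_nonneg_right h1' hg
    push_cast
    linarith

theorem pow_two_exp (j : ℕ) : ((2 ^ j : ℕ) : ℝ) = exp ((j : ℝ) * log 2) := by
  push_cast
  rw [exp_nat_mul, exp_log two_pos]

omit [Group Γ] [DecidableEq Γ] in
/-- The gluing error with the cut at `n ^ (1/4)`. -/
theorem glueErr_le {p G e : ℝ} (h0 : 0 < p) (h1 : p < 1) (he : 0 < e) (hep : e ≤ p * (1 - p))
    (hG : ghostC S p ≤ G) {ℓ N : ℕ} (hℓ : 16 * N ≤ ℓ) :
    glueErr S p (2 ^ ℓ) (2 ^ (ℓ / 4)) (2 ^ N)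
      ≤ 96 * (S.card + 1) * G / e * exp (-(ℓ : ℝ) / 25) := by
  set k := ℓ / 4 with hk
  have k1 : (4 * k : ℝ) ≤ ℓ := by exact_mod_cast (by omega : 4 * k ≤ ℓ)
  have k2 : (ℓ : ℝ) ≤ 4 * k + 3 := by exact_mod_cast (by omega : ℓ ≤ 4 * k + 3)
  have k3 : (16 * N : ℝ) ≤ ℓ := by exact_mod_cast hℓ
  have hg := (ghostC_pos (S := S) h0 h1).le
  have l1 := log_two_gt_d9
  have l2 := log_two_lt_d9
  have e1 : (N : ℝ) * log 2 - (k : ℝ) * log 2 / 2 ≤ 1 + -(ℓ : ℝ) / 25 := by nlinarith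
  have e2 : (N : ℝ) * log 2 + ((k : ℝ) * log 2 - (ℓ : ℝ) * log 2 / 2) ≤ 1 + -(ℓ : ℝ) / 25 := by
    nlinarith
  have hexp : exp (1 + -(ℓ : ℝ) / 25) ≤ 3 * exp (-(ℓ : ℝ) / 25) := by
    rw [exp_add]
    exact mul_le_mul_of_nonneg_right (exp_one_lt_d9.le.trans (by norm_num)) (exp_pos _).le
  unfold glueErr
  simp only [pow_two_exp]
  rw [← exp_half, ← exp_half, one_div, ← exp_neg, ← exp_sub]
  calc 16 * (S.card + 1) * exp ((N : ℝ) * log 2) * ghostC S p / (p * (1 - p))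
        * (exp (-((k : ℝ) * log 2 / 2)) + exp ((k : ℝ) * log 2 - (ℓ : ℝ) * log 2 / 2))
      = 16 * (S.card + 1) * ghostC S p / (p * (1 - p))
        * (exp ((N : ℝ) * log 2 - (k : ℝ) * log 2 / 2)
          + exp ((N : ℝ) * log 2 + ((k : ℝ) * log 2 - (ℓ : ℝ) * log 2 / 2))) := by
        rw [sub_eq_add_neg ((N : ℝ) * log 2), exp_add, exp_add]; ring
    _ ≤ 16 * (S.card + 1) * G / e * (3 * exp (-(ℓ : ℝ) / 25) + 3 * exp (-(ℓ : ℝ) / 25)) := by
        have : 0 ≤ G := hg.trans hG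
        exact mul_le_mul (div_le_div₀ (by positivity) (mul_le_mul_of_nonneg_left hG (by positivity))
          he hep) (add_le_add ((exp_le_exp.2 e1).trans hexp) ((exp_le_exp.2 e2).trans hexp))
          (by positivity) (by positivity)
    _ = _ := by ring

/-- The accumulated cost of the glued steps. -/
theorem gluing_cost {C η c₀ G₀ Cg x y z δ : ℝ} {K : ℕ} (hC : 0 < C) (hx0 : 0 < x)
    (hK2 : (K : ℝ) ≤ z + 1) (hK3 : (K : ℝ) ≤ (2 / c₀ + 1) * y)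
    (y1 : 4 * C / c₀ ≤ x ^ η / 200) (y2 : C ≤ x ^ (1 - η) / 200) (hDℓ' : x ≤ y)
    (z4 : 18 * G₀ * y * exp (-(17 / 100) * y) ≤ 1)
    (z5 : 2 * (2 / c₀ + 1) * Cg * y * exp (-(1 / 100) * y) ≤ 1)
    (hA0 : 0 ≤ 9 * G₀ * y * exp (-y / 5)) (hg0 : 0 ≤ Cg * exp (-y / 25)) (hb0 : 0 < c₀)
    (hz : z = 2 / c₀ * y * x ^ (-(2 * η))) (hδ : δ = exp (-C * x ^ η)) :
    δ⁻¹ ^ K * (9 * G₀ * y * exp (-y / 5) + K * (Cg * exp (-y / 25))) ≤ exp (-y / 50) := by
  have hy0 : 0 < y := hx0.trans_le hDℓ'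
  have hcost : (K : ℝ) * (C * x ^ η) ≤ y / 100 := by
    refine (mul_le_mul_of_nonneg_right hK2 (by positivity)).trans ?_
    have a1 : z * (C * x ^ η) ≤ y / 200 := by
      have e1 : x ^ (-(2 * η)) * x ^ η = (x ^ η)⁻¹ := by
        rw [← rpow_add hx0, ← rpow_neg hx0.le]; congr 1; ring
      rw [hz, show 2 / c₀ * y * x ^ (-(2 * η)) * (C * x ^ η)
        = 2 * C / c₀ * y * (x ^ (-(2 * η)) * x ^ η) by ring, e1, ← div_eq_mul_inv,
        div_le_iff₀ (rpow_pos_of_pos hx0 η)]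
      have h3 := mul_le_mul_of_nonneg_right y1 (show (0 : ℝ) ≤ y by positivity)
      rw [show 4 * C / c₀ * y = 2 * (2 * C / c₀ * y) by ring] at h3
      nlinarith [rpow_nonneg hx0.le η, show (0 : ℝ) ≤ 2 * C / c₀ * y by positivity]
    have a2 : C * x ^ η ≤ y / 200 := by
      have h3 := mul_le_mul_of_nonneg_right y2 (rpow_nonneg hx0.le η)
      rw [div_mul_eq_mul_div, ← rpow_add hx0, sub_add_cancel, rpow_one] at h3
      linarith
    nlinarith [a1, a2]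
  have hinv : δ⁻¹ ^ K ≤ exp (y / 100) := by
    rw [hδ, neg_mul, exp_neg, inv_inv, ← exp_nat_mul, exp_le_exp]; exact hcost
  have w1 : exp (y / 100) * (9 * G₀ * y * exp (-y / 5)) ≤ exp (-y / 50) / 2 := by
    have h3 := mul_le_mul_of_nonneg_right z4 (exp_pos (-y / 50)).le
    rw [one_mul, mul_assoc (18 * G₀ * y), ← exp_add] at h3
    rw [mul_left_comm, ← exp_add]
    rw [show -(17 / 100) * y + -y / 50 = y / 100 + -y / 5 by ring] at h3
    linarith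
  have w2 : exp (y / 100) * (K * (Cg * exp (-y / 25))) ≤ exp (-y / 50) / 2 := by
    have h3 := mul_le_mul_of_nonneg_right z5 (exp_pos (-y / 50)).le
    rw [one_mul, mul_assoc (2 * (2 / c₀ + 1) * Cg * y), ← exp_add,
      show -(1 / 100) * y + -y / 50 = y / 100 + -y / 25 by ring, exp_add] at h3
    have h4 := mul_le_mul_of_nonneg_left (mul_le_mul_of_nonneg_right hK3 hg0) (exp_pos (y / 100)).le
    nlinarith [h3, h4]
  calc δ⁻¹ ^ K * (9 * G₀ * y * exp (-y / 5) + K * (Cg * exp (-y / 25)))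
      ≤ exp (y / 100) * (9 * G₀ * y * exp (-y / 5) + K * (Cg * exp (-y / 25))) :=
        mul_le_mul_of_nonneg_right hinv (by positivity)
    _ ≤ exp (-y / 50) := by rw [mul_add]; linarith

/-- The radius reached by the glued steps. -/
theorem radius_reach {c₀ η x y : ℝ} {r r₀ K s : ℕ} (hb0 : 0 < c₀) (hx0 : 0 < x)
    (hr : (r : ℝ) ≤ y * x ^ (1 - 2 * η)) (hK1 : 2 / c₀ * y * x ^ (-(2 * η)) ≤ K)
    (hs2 : c₀ / 2 * x ≤ s) : r ≤ r₀ + K * s := by
  have hh : y * x ^ (1 - 2 * η) ≤ K * (c₀ / 2 * x) := by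
    refine le_trans (le_of_eq ?_) (mul_le_mul_of_nonneg_right hK1 (by positivity))
    rw [sub_eq_add_neg, rpow_add hx0, rpow_one]
    field_simp
  have : (r : ℝ) ≤ ((r₀ + K * s : ℕ) : ℝ) := by
    push_cast
    have := mul_le_mul_of_nonneg_left hs2 (Nat.cast_nonneg (α := ℝ) K)
    linarith [Nat.cast_nonneg (α := ℝ) r₀]
  exact_mod_cast this

/-- Gluing far beyond the radius of the witnesses. -/
theorem long_gluing (hS : Gens S) [Infinite Γ] (hc : (cayley S).Connected)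
    (hpc : pc (cayley S) < 1) {C η : ℝ} {Λ : ℕ} (hΛ : 1 ≤ Λ) (hC : 0 < C) (hη : 0 < η)
    (hη1 : η < 1) :
    ∃ D₀ : ℕ, ∀ D ≥ D₀, ∀ q p : ℝ, 0 ≤ q → q ≤ p → pc (cayley S) / 2 ≤ p → p < pc (cayley S) →
      (∀ z ∈ ball S ⌊base S * D⌋₊, exp (-C * (D : ℝ) ^ η) ≤ capConn S q (2 ^ (Λ * D)) z) →
      ∀ ℓ r : ℕ, 16 * (Λ * D) ≤ ℓ → (r : ℝ) ≤ ℓ * (D : ℝ) ^ (1 - 2 * η) →
        ApartLe S p (2 ^ ℓ) r (exp (-(ℓ : ℝ) / 50)) := by
  have hpc0 := pc_pos hS hc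
  have hb0 := base_pos (S := S) rfl hpc0 hpc.le
  set c₀ := base S with hc₀
  set e : ℝ := pc (cayley S) / 2 * (1 - pc (cayley S)) with he
  have he0 : 0 < e := mul_pos (by linarith) (by linarith)
  set G₀ := ghostU S with hG₀
  set Cg : ℝ := 96 * (S.card + 1) * G₀ / e with hCg
  have E1 : ∀ᶠ x : ℝ in atTop, 4 * C / c₀ ≤ x ^ η / 200 :=
    ((tendsto_rpow_atTop hη).atTop_div_const (by norm_num)).eventually_ge_atTop _
  have E2 : ∀ᶠ x : ℝ in atTop, C ≤ x ^ (1 - η) / 200 :=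
    ((tendsto_rpow_atTop (by linarith)).atTop_div_const (by norm_num)).eventually_ge_atTop _
  have E3 : ∀ᶠ x : ℝ in atTop, 2 ≤ c₀ * x :=
    (tendsto_id.const_mul_atTop hb0).eventually_ge_atTop 2
  have E4 : ∀ᶠ x : ℝ in atTop, 18 * G₀ * x ^ 1 * exp (-(17 / 100) * x ^ (1 : ℝ)) ≤ 1 :=
    eventually_pow_exp _ _ (by norm_num) one_pos
  have E5 : ∀ᶠ x : ℝ in atTop,
      2 * (2 / c₀ + 1) * Cg * x ^ 1 * exp (-(1 / 100) * x ^ (1 : ℝ)) ≤ 1 :=
    eventually_pow_exp _ _ (by norm_num) one_pos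
  obtain ⟨X, hX⟩ := eventually_atTop.1 ((((E1.and E2).and E3).and (E4.and E5)).and
    (eventually_ge_atTop (8 : ℝ)))
  refine ⟨⌈X⌉₊, fun D hD q p hq0 hqp hp hp1 hwit ℓ r hℓ hr => ?_⟩
  have hXD : X ≤ (D : ℝ) := le_trans (Nat.le_ceil X) (by exact_mod_cast hD)
  have hDℓ : D ≤ ℓ := le_trans (le_trans (Nat.le_mul_of_pos_left D hΛ)
    (Nat.le_mul_of_pos_left _ (by norm_num))) hℓ
  have hDℓ' : (D : ℝ) ≤ ℓ := by exact_mod_cast hDℓ
  obtain ⟨⟨⟨⟨y1, y2⟩, y3⟩, -⟩, y6⟩ := hX D hXD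
  obtain ⟨⟨⟨-, z3⟩, ⟨z4, z5⟩⟩, z6⟩ := hX ℓ (hXD.trans hDℓ')
  rw [rpow_one, pow_one] at z4 z5
  have h0 : 0 < p := by linarith
  have h1 : p < 1 := hp1.trans hpc
  have hlim := tail_lim hS hc h0 hp1
  set x := (D : ℝ) with hx
  set y := (ℓ : ℝ) with hy
  have hx0 : 0 < x := by linarith
  set s := ⌊c₀ * x⌋₊ with hs
  have hs2 : c₀ / 2 * x ≤ s := by linarith [Nat.lt_floor_add_one (c₀ * x)]
  set z := 2 / c₀ * y * x ^ (-(2 * η)) with hz
  have hz0 : 0 ≤ z := by positivity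
  set K := ⌈z⌉₊ with hK
  have hK1 : z ≤ K := Nat.le_ceil z
  have hK2 : (K : ℝ) ≤ z + 1 := (Nat.ceil_lt_add_one hz0).le
  have hxη : x ^ (-(2 * η)) ≤ 1 := rpow_le_one_of_one_le_of_nonpos (by linarith) (by linarith)
  have hK3 : (K : ℝ) ≤ (2 / c₀ + 1) * y := by
    refine hK2.trans ?_
    have h1 : z ≤ 2 / c₀ * y := mul_le_of_le_one_right (by positivity) hxη
    rw [add_mul, one_mul]
    linarith
  set δ := exp (-C * x ^ η) with hδ
  have hδ1 : δ ≤ 1 := exp_le_one_iff.2 (by rw [neg_mul, neg_nonpos]; positivity)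
  have hbase := apartLe_short (r := ⌊c₀ * y⌋₊) hS hc hpc hp hp1 (j := ℓ)
    ((Nat.floor_le (by positivity)).trans (by linarith [show 0 ≤ c₀ * y by positivity]))
  have hA0 : 0 ≤ 9 * G₀ * y * exp (-y / 5) := by
    have : 0 ≤ G₀ := (ghostC_pos h0 h1).le.trans (ghostC_le hpc0 hpc hp hp1.le)
    positivity
  have hg := glueErr_le (S := S) (G := G₀) (e := e) h0 h1 he0
    (mul_le_mul hp (by linarith) (by linarith) h0.le) (ghostC_le hpc0 hpc hp hp1.le) hℓ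
  have hg0 : 0 ≤ Cg * exp (-y / 25) := by
    have : 0 ≤ G₀ := (ghostC_pos h0 h1).le.trans (ghostC_le hpc0 hpc hp hp1.le)
    positivity
  have hk4 : ℓ / 4 + 1 ≤ ℓ := by
    have : (8 : ℕ) ≤ ℓ := by rw [hy] at z6; exact_mod_cast z6
    omega
  have hmn : 2 * 2 ^ (ℓ / 4) ≤ (2 : ℕ) ^ ℓ := by
    rw [← pow_succ']
    exact Nat.pow_le_pow_right (by norm_num) hk4
  have hwit' : ∀ w ∈ ball S s, δ ≤ capConn S q (2 ^ (Λ * D)) w := by
    intro w hw
    rw [hδ]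
    rw [hs, hc₀, hx] at hw
    exact hwit w hw
  have hg' : glueErr S p (2 ^ ℓ) (2 ^ (ℓ / 4)) (2 ^ (Λ * D)) ≤ Cg * exp (-y / 25) := by
    rw [hCg, hy]; exact hg
  have hbase' : ApartLe S p (2 ^ ℓ) ⌊c₀ * y⌋₊ (9 * G₀ * y * exp (-y / 5)) := by
    rw [hG₀]; exact hbase
  have hiter := glue_iter (n := 2 ^ ℓ) (m := 2 ^ (ℓ / 4)) (N := 2 ^ (Λ * D)) (r₀ := ⌊c₀ * y⌋₊)
    (s := s) (A := 9 * G₀ * y * exp (-y / 5)) (δ := δ) (g := Cg * exp (-y / 25)) hS h0 h1 hq0 hqp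
    hlim Nat.one_le_two_pow hmn hA0 (exp_pos _) hδ1 hg0 hg' hbase' hwit' K
  refine hiter.mono ?_ ?_
  · exact radius_reach hb0 hx0 hr hK1 hs2
  · exact gluing_cost hC hx0 hK2 hK3 y1 y2 hDℓ' z4 z5 hA0 hg0 hb0 (K := K) rfl rfl

/-- Chebyshev's bound for a hole in a large ball. -/
theorem hole_le (hS : Gens S) {p T₀ : ℝ} (h0 : 0 ≤ p) (h1 : p ≤ 1) (hT₀ : 0 < T₀) {n s : ℕ}
    (hn : T₀ ≤ tail S p n) (T : ℕ) :
    ∀ᶠ M : ℕ in atTop, ∀ w ∈ ball S T,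
      avg (eball S 1 M) p (fun η => ind (bigMass S w s n η < T₀ / 2))
        ≤ 4 / T₀ ^ 2 * (2 * S.card * (n : ℝ) ^ 2 / (ball S s).card) := by
  refine eventually_atTop.2 ⟨T + s + n, fun M hM w hw => ?_⟩
  set E := eball S (1 : Γ) M
  set X := bigMass S w s n with hX
  set t := tail S p n with ht
  have ht' : avg E p X = t := avg_bigMass hS p hw hM
  have hv := var_bigMass hS h0 h1 (valid_eball hS (Subset.refl E)) w s n
  refine le_trans (le_trans (avg_mono E h0 h1 (g := fun η => 4 / T₀ ^ 2 * (X η - t) ^ 2)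
    fun η _ => ?_) ?_) (mul_le_mul_of_nonneg_left hv (by positivity))
  · by_cases h : bigMass S w s n η < T₀ / 2
    · rw [ind_true h, div_mul_eq_mul_div, le_div_iff₀ (by positivity)]
      nlinarith
    · rw [ind_false h]; positivity
  · rw [avg_mul]
    refine le_of_eq (congrArg _ ?_)
    have e : avg E p (fun η => (X η - t) ^ 2)
        = avg E p (fun η => X η ^ 2 + ((-2 * t) * X η + t ^ 2)) :=
      avg_congr E p fun η _ => by ring
    rw [e, avg_add, avg_add, avg_mul, avg_const, var, ← hX, ht']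
    ring

/-- A small squared difference of tails. -/
theorem tail_drop (hS : Gens S) {p : ℝ} (h0 : 0 ≤ p) (h1 : p ≤ 1) {n N R : ℕ} (hnN : n ≤ N)
    {A a : ℝ} (hA : ApartLe S p n (2 * R) A) (hV : (N : ℝ) / (ball S R).card ≤ a ^ 2 / 2)
    (hAa : A ≤ a ^ 2 / 2) (ha : 0 ≤ a) : tail S p n - a ≤ tail S p N := by
  have h := mid_le hS h0 h1 hnN hA
  have := (abs_le.1 (abs_le_of_sq_le_sq (h.trans (show _ ≤ a ^ 2 by linarith)) ha)).2
  linarith

/-- Stretched exponential growth beats a linear exponent. -/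
theorem volume_beats {c β : ℝ} (hG : Grow S c β) {R : ℕ} {b₀ N : ℝ} (hR : 1 ≤ R)
    (hN : N ≤ exp b₀) {b : ℝ} (hb : b₀ + b ≤ c * (R : ℝ) ^ β) :
    N / (ball S R).card ≤ exp (-b) := by
  refine (div_le_div₀ (exp_pos _).le hN (exp_pos _)
    ((exp_le_exp.2 hb).trans (hG.ball_ge R hR))).trans (le_of_eq ?_)
  rw [← exp_sub]; ring_nf

/-- The first stage: no drop of the tail over a bounded range of scales. -/
theorem stage_one (hS : Gens S) {c β η θ : ℝ} (hG : Grow S c β) (hθ : 0 < θ)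
    (hgain : 1 < β * (2 - 2 * η)) (hη1 : η < 1) {Λ K₀ : ℕ} (hΛ : 1 ≤ Λ) (hK₀ : 1 ≤ K₀) :
    ∃ D₀ : ℕ, ∀ D ≥ D₀, ∀ p : ℝ, 0 ≤ p → p ≤ 1 →
      θ * (3 / 4) ≤ tail S p (2 ^ (16 * (Λ * D))) →
      (∀ r : ℕ, (r : ℝ) ≤ (16 * (Λ * D) : ℕ) * (D : ℝ) ^ (1 - 2 * η) →
        ApartLe S p (2 ^ (16 * (Λ * D))) r (exp (-((16 * (Λ * D) : ℕ) : ℝ) / 50))) →
      θ / 2 ≤ tail S p (2 ^ (K₀ * (16 * (Λ * D)) + 1)) := by
  obtain ⟨hc0, hβ0, hβ1, -⟩ := id hG
  set B : ℝ := c * (4 : ℝ) ^ β with hB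
  have hB0 : 0 < B := by positivity
  set u := β * (2 - 2 * η) - 1 with hu
  have hu0 : 0 < u := by linarith
  have E1 : ∀ᶠ x : ℝ in atTop, ((2 * K₀ : ℕ) + 1) * (16 * Λ) / B ≤ x ^ u :=
    (tendsto_rpow_atTop hu0).eventually_ge_atTop _
  have E2 : ∀ᶠ x : ℝ in atTop, 32 / θ ^ 2 * x ^ 0 * exp (-(16 / 50) * x ^ (1 : ℝ)) ≤ 1 :=
    eventually_pow_exp _ 0 (by norm_num) one_pos
  obtain ⟨X, hX⟩ := eventually_atTop.1 ((E1.and E2).and (eventually_ge_atTop (1 : ℝ)))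
  refine ⟨⌈X⌉₊, fun D hD p h0 h1 ht hA => ?_⟩
  obtain ⟨⟨y1, y2⟩, y3⟩ := hX D (le_trans (Nat.le_ceil X) (by exact_mod_cast hD))
  rw [rpow_one, pow_zero, mul_one] at y2
  set x := (D : ℝ) with hx
  have hx0 : 0 < x := by linarith
  set L := 16 * (Λ * D) with hL
  have hLx : (L : ℝ) = 16 * Λ * x := by rw [hL, hx]; push_cast; ring
  have hΛ' : (1 : ℝ) ≤ Λ := by exact_mod_cast hΛ
  set v := (L : ℝ) * x ^ (1 - 2 * η) / 2 with hv
  set R := ⌊v⌋₊ with hR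
  have hv0 : 0 < v := by rw [hv, hLx]; positivity
  have hv4 : 4 * x ^ (2 - 2 * η) ≤ v / 2 := by
    have e : x ^ (2 - 2 * η) = x * x ^ (1 - 2 * η) := by
      rw [show 2 - 2 * η = 1 + (1 - 2 * η) by ring, rpow_add hx0, rpow_one]
    rw [e, hv, hLx]
    have := mul_le_mul_of_nonneg_right hΛ' (show 0 ≤ x * x ^ (1 - 2 * η) by positivity)
    linarith
  have hv8 : 1 ≤ x ^ (2 - 2 * η) := one_le_rpow y3 (by linarith)
  have hR2 : 4 * x ^ (2 - 2 * η) ≤ R := by linarith [Nat.lt_floor_add_one v]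
  have hR1 : 1 ≤ R := Nat.le_floor (by push_cast; linarith)
  have hA' := hA (2 * R) (by push_cast; linarith [Nat.floor_le hv0.le])
  have hpow : ((2 * K₀ : ℕ) + 1 : ℝ) * L ≤ c * (R : ℝ) ^ β := by
    have h := rpow_le_rpow (by positivity) hR2 hβ0.le
    rw [mul_rpow (by norm_num) (by positivity), ← rpow_mul hx0.le,
      show (2 - 2 * η) * β = 1 + u by rw [hu]; ring, rpow_add hx0, rpow_one] at h
    rw [div_le_iff₀ hB0, hB] at y1
    rw [hLx]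
    have h2 := mul_le_mul_of_nonneg_left h hc0.le
    linarith [mul_le_mul_of_nonneg_left y1 hx0.le]
  have hL1 : (1 : ℝ) ≤ L := by rw [hLx]; nlinarith
  have hN : ((2 ^ (K₀ * L + 1) : ℕ) : ℝ) ≤ exp ((2 * K₀ : ℕ) * (L : ℝ)) := by
    rw [pow_two_exp, exp_le_exp]
    push_cast
    have hK : (1 : ℝ) ≤ K₀ := by exact_mod_cast hK₀
    linarith [mul_le_mul_of_nonneg_left (show log 2 ≤ 1 by linarith [log_two_lt_d9])
      (show (0 : ℝ) ≤ K₀ * L + 1 by positivity), one_le_mul_of_one_le_of_one_le hK hL1]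
  have hsmall : exp (-(L : ℝ) / 50) ≤ (θ / 4) ^ 2 / 2 := by
    have h3 : exp (-(L : ℝ) / 50) ≤ exp (-(16 / 50) * x) := by
      rw [exp_le_exp, hLx]; nlinarith
    rw [div_mul_eq_mul_div, div_le_one (by positivity)] at y2
    nlinarith
  have hnN : 2 ^ L ≤ 2 ^ (K₀ * L + 1) :=
    Nat.pow_le_pow_right (by norm_num) ((Nat.le_mul_of_pos_left L hK₀).trans (Nat.le_succ _))
  have := tail_drop (a := θ / 4) hS h0 h1 hnN hA'
    ((volume_beats hG hR1 hN (b := L) (by linarith)).trans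
      ((exp_le_exp.2 (by linarith)).trans hsmall)) hsmall (by linarith)
  linarith

/-- The error of the long path at the second stage. -/
theorem path_error {θ l H : ℝ} {R₁ : ℕ} {d : ℕ} (hθ : 0 < θ) (hl : 0 ≤ l)
    (hH : H = 4 / (θ / 2) ^ 2 * (2 * d * exp (-l))) (hR : (R₁ : ℝ) ≤ exp (l / 200)) :
    ((2 * R₁ : ℕ) + 1 : ℝ) * H
      + ((2 * R₁ : ℕ) + 2 : ℝ) * exp (-l / 50) / (θ / 2 / 2) ^ 2
      ≤ exp (l / 200) * exp (-l / 50) * (4 * (64 / θ ^ 2 * (2 * d + 1))) := by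
  have q1 : ((2 * R₁ : ℕ) + 2 : ℝ) ≤ 4 * exp (l / 200) := by
    push_cast
    linarith [hR, one_le_exp (show 0 ≤ l / 200 by positivity)]
  have q2 : exp (-l) ≤ exp (-l / 50) := exp_le_exp.2 (by linarith)
  have q3 : H ≤ 32 * d / θ ^ 2 * exp (-l / 50) := by
    refine le_trans (le_of_eq ?_) (mul_le_mul_of_nonneg_left q2 (by positivity))
    rw [hH]; field_simp; ring
  calc _ ≤ ((2 * R₁ : ℕ) + 2 : ℝ) * (32 * d / θ ^ 2 * exp (-l / 50))
        + ((2 * R₁ : ℕ) + 2 : ℝ) * exp (-l / 50) / (θ / 2 / 2) ^ 2 := by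
        refine add_le_add_left (mul_le_mul (by linarith) q3 (by rw [hH]; positivity) (by positivity)) _
    _ = ((2 * R₁ : ℕ) + 2 : ℝ) * (exp (-l / 50) * ((32 * d + 16) / θ ^ 2)) := by
        field_simp; ring
    _ ≤ 4 * exp (l / 200) * (exp (-l / 50) * ((64 * (2 * d + 1)) / θ ^ 2)) := by
        refine mul_le_mul q1 (mul_le_mul_of_nonneg_left
          (div_le_div_of_nonneg_right ?_ (by positivity)) (exp_pos _).le) (by positivity)
          (by positivity)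
        linarith [Nat.cast_nonneg (α := ℝ) d]
    _ = _ := by ring

/-- The range of scales reached by the long path. -/
theorem range_exp {c β l : ℝ} {J R₁ : ℕ} (hc0 : 0 < c) (hβ0 : 0 < β) (hl : 0 ≤ l)
    (hR₁' : exp (l / 200) / 2 ≤ R₁) (hJ : (J : ℝ) ≤ exp (β * l / 400)) (hlJ : l ≤ (J : ℝ) + 1)
    (z3 : 5 / (c / 2 ^ β) ≤ exp (β / 400 * l)) :
    (J : ℝ) + 1 + l / 50 ≤ c * (R₁ : ℝ) ^ β := by
  have w1 := rpow_le_rpow (by positivity) hR₁' hβ0.le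
  rw [div_rpow (exp_pos _).le (by norm_num), ← exp_mul] at w1
  have w2 := mul_le_mul_of_nonneg_left w1 hc0.le
  set e := exp (β * l / 400) with he
  have w3 : exp (l / 200 * β) = e * e := by rw [he, ← exp_add]; ring_nf
  have w4 : 5 ≤ c / 2 ^ β * e := by
    rw [div_le_iff₀ (by positivity)] at z3
    rw [he, show β * l / 400 = β / 400 * l by ring]
    linarith
  have w5 : (J : ℝ) ≤ e := hJ
  have w7 := hlJ
  rw [w3] at w2
  have e1 : 1 ≤ e := one_le_exp (by positivity)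
  have w8 := mul_le_mul_of_nonneg_right w4 (zero_le_one.trans e1)
  linarith [show c * (e * e / 2 ^ β) = c / 2 ^ β * e * e by ring]

/-- A ball of super-exponential volume has no hole. -/
theorem hole_small (hS : Gens S) {c β p T₀ : ℝ} (hG : Grow S c β) (h0 : 0 ≤ p) (h1 : p ≤ 1)
    (hT₀ : 0 < T₀) {l s : ℕ} (hn : T₀ ≤ tail S p (2 ^ l)) (hs1 : 1 ≤ s)
    (hpow : 4 * (l : ℝ) ≤ c * (s : ℝ) ^ β) (T : ℕ) :
    ∀ᶠ M : ℕ in atTop, ∀ w ∈ ball S T,
      avg (eball S 1 M) p (fun η => ind (bigMass S w s (2 ^ l) η < T₀ / 2))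
        ≤ 4 / T₀ ^ 2 * (2 * S.card * exp (-(l : ℝ))) := by
  refine (hole_le hS h0 h1 hT₀ hn T).mono fun M h w hw => (h w hw).trans ?_
  rw [mul_div_assoc (2 * (S.card : ℝ))]
  refine mul_le_mul_of_nonneg_left (mul_le_mul_of_nonneg_left ?_ (by positivity)) (by positivity)
  refine volume_beats hG hs1 (b₀ := 3 * (l : ℝ)) ?_ (by linarith)
  rw [pow_two_exp, ← exp_nat_mul, exp_le_exp]
  push_cast
  linarith [mul_le_mul_of_nonneg_left (show log 2 ≤ 1 by linarith [log_two_lt_d9])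
    (Nat.cast_nonneg (α := ℝ) l), Nat.cast_nonneg (α := ℝ) l]

/-- The second stage: no drop up to a scale exponentially larger. -/
theorem stage_two (hS : Gens S) {c β η θ : ℝ} (hG : Grow S c β) (hθ : 0 < θ) (hθ1 : θ ≤ 1)
    (hgain : 1 < β * (2 - 2 * η)) (hη1 : η < 1) {Λ K₀ : ℕ} (hΛ : 1 ≤ Λ) (hK₀ : 1 ≤ K₀) :
    ∃ D₀ : ℕ, ∀ D ≥ D₀, ∀ p : ℝ, 0 ≤ p → p ≤ 1 →
      θ / 2 ≤ tail S p (2 ^ (K₀ * (16 * (Λ * D)) + 1)) →
      (∀ r : ℕ, (r : ℝ) ≤ (K₀ * (16 * (Λ * D)) : ℕ) * (D : ℝ) ^ (1 - 2 * η) →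
        ApartLe S p (2 ^ (K₀ * (16 * (Λ * D)))) r
          (exp (-((K₀ * (16 * (Λ * D)) : ℕ) : ℝ) / 50))) →
      θ / 4 ≤ tail S p (2 ^ (⌊exp (β * (K₀ * (16 * (Λ * D)) : ℕ) / 400)⌋₊ + 1)) := by
  obtain ⟨hc0, hβ0, hβ1, -⟩ := id hG
  set B : ℝ := c * (2 : ℝ) ^ β with hB
  have hB0 : 0 < B := by positivity
  set u := β * (2 - 2 * η) - 1 with hu
  have hu0 : 0 < u := by linarith
  set Z : ℝ := 64 / θ ^ 2 * (4 * (64 / θ ^ 2 * (2 * S.card + 1))) with hZ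
  have E1 : ∀ᶠ x : ℝ in atTop, 4 * (16 * Λ * K₀) / B ≤ x ^ u :=
    (tendsto_rpow_atTop hu0).eventually_ge_atTop _
  have E2 : ∀ᶠ x : ℝ in atTop, Z * x ^ 0 * exp (-(3 / 200) * x ^ (1 : ℝ)) ≤ 1 :=
    eventually_pow_exp _ 0 (by norm_num) one_pos
  have E3 : ∀ᶠ x : ℝ in atTop, 5 / (c / 2 ^ β) ≤ exp (β / 400 * x) :=
    (tendsto_exp_atTop.comp (tendsto_id.const_mul_atTop (by positivity))).eventually_ge_atTop _
  obtain ⟨X, hX⟩ := eventually_atTop.1 (((E1.and E2).and E3).and (eventually_ge_atTop (1 : ℝ)))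
  refine ⟨⌈X⌉₊, fun D hD p h0 h1 ht hA => ?_⟩
  have hXD : X ≤ (D : ℝ) := le_trans (Nat.le_ceil X) (by exact_mod_cast hD)
  obtain ⟨⟨⟨y1, -⟩, -⟩, y3⟩ := hX D hXD
  set x := (D : ℝ) with hx
  have hx0 : 0 < x := by linarith
  set l := K₀ * (16 * (Λ * D)) with hl
  have hlx : (l : ℝ) = 16 * Λ * K₀ * x := by rw [hl, hx]; push_cast; ring
  have hΛ' : (1 : ℝ) ≤ Λ := by exact_mod_cast hΛ
  have hK' : (1 : ℝ) ≤ K₀ := by exact_mod_cast hK₀
  have hl16 : 16 * x ≤ (l : ℝ) := by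
    rw [hlx]
    linarith [mul_le_mul_of_nonneg_right (one_le_mul_of_one_le_of_one_le hΛ' hK') hx0.le]
  obtain ⟨⟨⟨-, z2⟩, z3⟩, z4⟩ := hX (l : ℝ) (by linarith)
  rw [rpow_one, pow_zero, mul_one] at z2
  set v := (l : ℝ) * x ^ (1 - 2 * η) / 3 with hv
  set s := ⌊v⌋₊ with hs
  have hv0 : 0 < v := by rw [hv]; positivity
  have hv8 : 1 ≤ x ^ (2 - 2 * η) := one_le_rpow y3 (by linarith)
  have hv4 : 16 / 3 * x ^ (2 - 2 * η) ≤ v := by
    have e : x ^ (2 - 2 * η) = x * x ^ (1 - 2 * η) := by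
      rw [show 2 - 2 * η = 1 + (1 - 2 * η) by ring, rpow_add hx0, rpow_one]
    rw [e, hv]
    have := mul_le_mul_of_nonneg_right hl16 (rpow_nonneg hx0.le (1 - 2 * η))
    linarith
  have hs2 : 2 * x ^ (2 - 2 * η) ≤ s := by linarith [Nat.lt_floor_add_one v]
  have hs1 : 1 ≤ s := Nat.le_floor (by push_cast; linarith)
  have hA' := hA (2 * s + 1) (by
    push_cast
    linarith [Nat.floor_le hv0.le])
  have hpow : 4 * (l : ℝ) ≤ c * (s : ℝ) ^ β := by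
    have h := rpow_le_rpow (by positivity) hs2 hβ0.le
    rw [mul_rpow (by norm_num) (by positivity), ← rpow_mul hx0.le,
      show (2 - 2 * η) * β = 1 + u by rw [hu]; ring, rpow_add hx0, rpow_one] at h
    rw [div_le_iff₀ hB0, hB] at y1
    rw [hlx]
    have h2 := mul_le_mul_of_nonneg_left h hc0.le
    linarith [mul_le_mul_of_nonneg_left y1 hx0.le]
  set H := 4 / (θ / 2) ^ 2 * (2 * S.card * exp (-(l : ℝ))) with hH
  have hn' : θ / 2 ≤ tail S p (2 ^ l) :=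
    ht.trans (tail_antitone hS h0 h1 (Nat.pow_le_pow_right (by norm_num) (Nat.le_succ l)))
  have hHole : ∀ T : ℕ, ∀ᶠ M : ℕ in atTop, ∀ w ∈ ball S T,
      avg (eball S 1 M) p (fun η => ind (bigMass S w s (2 ^ l) η < θ / 2 / 2)) ≤ H := by
    exact fun T => hole_small hS hG h0 h1 (half_pos hθ) hn' hs1 hpow T
  set R₁ := ⌊exp ((l : ℝ) / 200)⌋₊ with hR₁
  have hR₁' : exp ((l : ℝ) / 200) / 2 ≤ R₁ := by
    have := Nat.lt_floor_add_one (exp ((l : ℝ) / 200))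
    have := Nat.one_le_cast (α := ℝ) |>.2
      (Nat.le_floor (a := exp ((l : ℝ) / 200)) (n := 1) (by push_cast; exact one_le_exp (by positivity)))
    rw [← hR₁] at this
    linarith
  have hR₁1 : 1 ≤ R₁ := Nat.le_floor (by push_cast; exact one_le_exp (by positivity))
  have hpath := apartLe_path (R := 2 * R₁) (τ := θ / 2 / 2) hS h0 h1 (by positivity) (by linarith)
    hA' hHole
  set A₂ := ((2 * R₁ : ℕ) + 1 : ℝ) * H
    + ((2 * R₁ : ℕ) + 2 : ℝ) * exp (-(l : ℝ) / 50) / (θ / 2 / 2) ^ 2 with hA₂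
  have hsmall : exp ((l : ℝ) / 200) * exp (-(l : ℝ) / 50)
      * (4 * (64 / θ ^ 2 * (2 * S.card + 1))) ≤ θ ^ 2 / 64 := by
    rw [← exp_add, show (l : ℝ) / 200 + -(l : ℝ) / 50 = -(3 / 200) * l by ring]
    rw [hZ, mul_assoc (64 / θ ^ 2), div_mul_eq_mul_div, div_le_one (by positivity)] at z2
    linarith
  have hA₂' : A₂ ≤ (θ / 4) ^ 2 / 2 :=
    (path_error hθ (Nat.cast_nonneg l) hH (Nat.floor_le (exp_pos _).le)).trans
      (hsmall.trans (by linarith [sq_nonneg θ, show (θ / 4) ^ 2 / 2 = θ ^ 2 / 32 by ring]))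
  set J := ⌊exp (β * (l : ℝ) / 400)⌋₊ with hJ
  have hlJ : 2 ^ l ≤ 2 ^ (J + 1) ∨ 2 ^ (J + 1) ≤ 2 ^ l := le_total _ _
  rcases hlJ with hlJ | hlJ
  swap
  · exact le_trans (by linarith) (hn'.trans (tail_antitone hS h0 h1 hlJ))
  have hV : ((2 ^ (J + 1) : ℕ) : ℝ) / (ball S R₁).card ≤ (θ / 4) ^ 2 / 2 := by
    refine le_trans (volume_beats hG hR₁1 (b₀ := (J : ℝ) + 1) (b := (l : ℝ) / 50) ?_ ?_) ?_
    · rw [pow_two_exp, exp_le_exp]
      push_cast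
      exact mul_le_of_le_one_right (by positivity) (by linarith [log_two_lt_d9])
    · exact range_exp hc0 hβ0 (Nat.cast_nonneg l) hR₁' (Nat.floor_le (exp_pos _).le)
        (by exact_mod_cast (Nat.pow_le_pow_iff_right (by norm_num)).1 hlJ) z3
    · refine le_trans ?_ (hsmall.trans (by linarith [sq_nonneg θ, show (θ / 4) ^ 2 / 2 = θ ^ 2 / 32 by ring]))
      rw [neg_div, mul_assoc]
      refine le_trans ?_ (le_mul_of_one_le_left (by positivity) (one_le_exp (by positivity)))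
      refine le_mul_of_one_le_right (exp_pos _).le ?_
      have h64 : (64 : ℝ) ≤ 64 / θ ^ 2 := by
        rw [le_div_iff₀ (by positivity)]; linarith [pow_le_one₀ (n := 2) hθ.le hθ1]
      linarith [mul_le_mul h64 (show (1 : ℝ) ≤ 2 * (S.card : ℝ) + 1 by
        linarith [Nat.cast_nonneg (α := ℝ) S.card]) zero_le_one (by linarith)]
  have := tail_drop (a := θ / 4) hS h0 h1 hlJ hpath hV hA₂' (by linarith)
  linarith

/-- No percolation at the threshold when balls grow faster than `exp (r ^ (1/2))`. -/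
theorem no_percolation_of_growth (hS : Gens S) [Infinite Γ] (hc : (cayley S).Connected)
    (hpc : pc (cayley S) < 1) {c β₀ : ℝ} (hc0 : 0 < c) (hβ₀ : 1 / 2 < β₀)
    (hgrow : ∀ r : ℕ, 1 ≤ r → exp (c * (r : ℝ) ^ β₀) ≤ ((ball S r).card : ℝ))
    (p : unitInterval) (hp : (p : ℝ) = pc (cayley S)) :
    perc (cayley S) p (hasInfinite (cayley S)) = 0 := by
  have := countable hS hc
  have hpc0 := pc_pos hS hc
  set P := pc (cayley S) with hP
  refine no_infinite hS hc p ?_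
  rw [hp]
  by_contra hnot
  obtain ⟨θ, hθ, hθn⟩ : ∃ θ : ℝ, 0 < θ ∧ ∀ n, θ ≤ tail S P n := by
    by_contra hcon
    push Not at hcon
    refine hnot (tendsto_order.2 ⟨fun a ha => Eventually.of_forall fun n =>
      ha.trans_le (tail_nonneg hpc0.le hpc.le n), fun a ha => ?_⟩)
    obtain ⟨n, hn⟩ := hcon a ha
    exact eventually_atTop.2 ⟨n, fun m hm => (tail_antitone hS hpc0.le hpc.le hm).trans_lt hn⟩
  have hθ1 : θ ≤ 1 := (hθn 0).trans (tail_le_one hpc0.le hpc.le 0)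
  obtain ⟨β, hβ2, hβlt⟩ := exists_between (lt_min hβ₀ (show (1 : ℝ) / 2 < 1 by norm_num))
  have hβ0 : 0 < β := by linarith
  have hβ1 : β < 1 := hβlt.trans_le (min_le_right _ _)
  have hG : Grow S c β := ⟨hc0, hβ0, hβ1, fun r hr => le_trans (exp_le_exp.2
    (mul_le_mul_of_nonneg_left (rpow_le_rpow_of_exponent_le (by exact_mod_cast hr)
      (hβlt.trans_le (min_le_left _ _)).le) hc0.le)) (hgrow r hr)⟩
  set η := (1 - 1 / (2 * β)) / 2 with hη
  have hη0 : 0 < η := by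
    have : 1 / (2 * β) < 1 := by rw [div_lt_one (by linarith)]; linarith
    rw [hη]; linarith
  have hη1 : η < 1 := by
    have : 0 < 1 / (2 * β) := by positivity
    rw [hη]; linarith
  have hgain : 1 < β * (2 - 2 * η) := by
    rw [hη, show β * (2 - 2 * ((1 - 1 / (2 * β)) / 2)) = β + 1 / 2 by field_simp; ring]
    linarith
  obtain ⟨Λ, C, J₀, hΛ, hC, hwit⟩ := witness hS hc hpc hθ hθn hη0 hη1
  obtain ⟨D₁, hlong⟩ := long_gluing (C := C) (η := η) (Λ := Λ) hS hc hpc (by omega) hC hη0 hη1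
  set K₀ := ⌈3200 / β ^ 2⌉₊ with hK₀
  have hK₀1 : 1 ≤ K₀ := Nat.one_le_ceil_iff.2 (by positivity)
  obtain ⟨D₂, hone⟩ := stage_one (η := η) (θ := θ) (Λ := Λ) hS hG hθ hgain hη1 (by omega) hK₀1
  obtain ⟨D₃, htwo⟩ := stage_two (η := η) (θ := θ) (Λ := Λ) hS hG hθ hθ1 hgain hη1 (by omega) hK₀1
  obtain ⟨j₀, hcrit⟩ := criterion hS hc hpc hG (show 0 < θ / 4 by linarith)
  obtain ⟨D₄, hD₄⟩ := eventually_atTop.1 (tendsto_natCast_atTop_atTop.eventually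
    (((tendsto_exp_atTop.comp (tendsto_id.const_mul_atTop
      (show 0 < β / 400 by linarith))).eventually_ge_atTop ((j₀ : ℝ) + 2)).and
    ((tendsto_exp_atTop.comp (tendsto_id.const_mul_atTop
      (show (0 : ℝ) < 1 by norm_num))).eventually_ge_atTop (9 / P))))
  obtain ⟨D, hD, hz⟩ := hwit (max (max J₀ D₁) (max (max D₂ D₃) (max D₄ 1))) (by omega)
  set j₁ := max (max J₀ D₁) (max (max D₂ D₃) (max D₄ 1)) with hj₁
  set q := P * (1 - (2 : ℝ)⁻¹ ^ j₁ / 4) with hq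
  set L := 16 * (Λ * D) with hL
  set p' := P * (1 - (2 : ℝ)⁻¹ ^ L / 4) with hp'
  have hDL : D ≤ L := le_trans (Nat.le_mul_of_pos_left D (by omega : 0 < Λ))
    (Nat.le_mul_of_pos_left _ (by norm_num))
  have hhalf : ∀ k : ℕ, 0 < (2 : ℝ)⁻¹ ^ k ∧ (2 : ℝ)⁻¹ ^ k ≤ 1 := fun k =>
    ⟨by positivity, pow_le_one₀ (by norm_num) (by norm_num)⟩
  have hq0 : 0 ≤ q := mul_nonneg hpc0.le (by linarith [(hhalf j₁).2])
  have hqp : q ≤ p' := mul_le_mul_of_nonneg_left (by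
    linarith [pow_le_pow_of_le_one (show (0 : ℝ) ≤ 2⁻¹ by norm_num) (by norm_num)
      (show j₁ ≤ L by omega)]) hpc0.le
  have hp2 : P / 2 ≤ p' := by
    rw [hp']; linarith [mul_le_mul_of_nonneg_left (hhalf L).2 hpc0.le]
  have hplt : p' < P := by rw [hp']; linarith [mul_pos hpc0 (hhalf L).1]
  have hp0 : 0 ≤ p' := by linarith
  have hp1 : p' ≤ 1 := by linarith
  have hgl := hlong D (by omega) q p' hq0 hqp hp2 hplt hz
  have ht0 : θ * (3 / 4) ≤ tail S p' (2 ^ L) := by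
    refine le_trans ?_ (tail_thin (p := P) hpc0.le hpc.le (r := 1 - (2 : ℝ)⁻¹ ^ L / 4)
      (by linarith [(hhalf L).2]) (by linarith [(hhalf L).1]) (2 ^ L))
    rw [mul_comm θ]
    refine mul_le_mul ?_ (hθn _) hθ.le (pow_nonneg (by linarith [(hhalf L).2]) _)
    have h := one_add_mul_le_pow (a := -((2 : ℝ)⁻¹ ^ L / 4)) (by linarith [(hhalf L).2]) (2 ^ L)
    rw [← sub_eq_add_neg] at h
    refine le_trans (le_of_eq ?_) h
    push_cast
    rw [inv_pow]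
    field_simp
    norm_num
  have ht1 := hone D (by omega) p' hp0 hp1 ht0 fun r hr => hgl L r le_rfl hr
  have hlL : L ≤ K₀ * L := Nat.le_mul_of_pos_left L hK₀1
  have ht2 := htwo D (by omega) p' hp0 hp1 ht1 fun r hr => hgl (K₀ * L) r hlL hr
  set l := K₀ * L with hl
  set J := ⌊exp (β * (l : ℝ) / 400)⌋₊ with hJ
  obtain ⟨u1, u2⟩ := hD₄ l (by omega)
  have hJ2 : exp (β * (l : ℝ) / 400) / 2 ≤ J := by
    have := Nat.lt_floor_add_one (exp (β * (l : ℝ) / 400))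
    simp only [Function.comp, id, show β / 400 * (l : ℝ) = β * l / 400 by ring] at u1
    linarith [Nat.cast_nonneg (α := ℝ) j₀]
  have hj₀J : j₀ ≤ J := Nat.le_floor (by
    simp only [Function.comp, id, show β / 400 * (l : ℝ) = β * l / 400 by ring] at u1
    linarith)
  have hfin := hcrit J hj₀J p' hp2 ht2
  set e := exp (β * (l : ℝ) / 400) with he
  have hJpos : 0 < (J : ℝ) := (by positivity : 0 < e / 2).trans_le hJ2
  have h1 : (J : ℝ) ^ (-(β / 4)) ≤ 2 * exp (-(β ^ 2 * l / 1600)) := by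
    refine (rpow_le_rpow_of_nonpos (by positivity) hJ2 (by linarith)).trans ?_
    rw [div_rpow (exp_pos _).le (by norm_num), rpow_neg (by norm_num : (0:ℝ) ≤ 2), div_inv_eq_mul,
      ← exp_mul, mul_comm, show β * (l : ℝ) / 400 * -(β / 4) = -(β ^ 2 * l / 1600) by ring]
    refine mul_le_mul_of_nonneg_right ?_ (exp_pos _).le
    conv_rhs => rw [← rpow_one 2]
    exact rpow_le_rpow_of_exponent_le one_le_two (by linarith)
  have h2 : 2 * (L : ℝ) ≤ β ^ 2 * l / 1600 := by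
    have h := Nat.le_ceil (3200 / β ^ 2)
    rw [← hK₀, div_le_iff₀ (by positivity)] at h
    rw [hl]; push_cast
    linarith [mul_le_mul_of_nonneg_right h (Nat.cast_nonneg (α := ℝ) L)]
  have h3 : exp (-(2 * (L : ℝ))) ≤ (2 : ℝ)⁻¹ ^ L * exp (-(L : ℝ)) := by
    rw [two_mul, neg_add, exp_add]
    refine mul_le_mul_of_nonneg_right ?_ (exp_pos _).le
    rw [inv_pow, ← exp_log (show (0:ℝ) < 2 ^ L by positivity), ← exp_neg, exp_le_exp, log_pow]
    linarith [mul_le_mul_of_nonneg_left (show log 2 ≤ 1 by linarith [log_two_lt_d9])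
      (Nat.cast_nonneg (α := ℝ) L)]
  have h4 : 9 * exp (-(L : ℝ)) ≤ P := by
    obtain ⟨-, h⟩ := hD₄ L (by omega)
    simp only [Function.comp, id, one_mul] at h
    rw [div_le_iff₀ hpc0] at h
    rw [exp_neg, ← div_eq_mul_inv, div_le_iff₀ (exp_pos _)]
    linarith
  have h5 : exp (-(β ^ 2 * l / 1600)) ≤ exp (-(2 * (L : ℝ))) := exp_le_exp.2 (by linarith)
  have h6 := mul_le_mul_of_nonneg_left h4 (hhalf L).1.le
  rw [hp'] at hfin
  linarith [mul_pos (hhalf L).1 hpc0]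

end Vale.Agent.P151.Growth
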