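import Vale.Agent.P151.Key

/-!
# Exchanging two configurations off explored clusters
-/

namespace Vale.Agent.P151

open Finset Vale.Agent.P165

variable {Γ : Type} [Group Γ] [DecidableEq Γ] {S : Finset Γ}

omit [Group Γ] in
/-- A set closed under the open edges contains the cluster of each of its points. -/
theorem cls_subset_closed {η : Finset (Sym2 Γ)} {x : Γ} {K : Finset Γ} (hx : x ∈ K)
    (h : ∀ a b, a ∈ K → a ≠ b → s(a, b) ∈ η → b ∈ K) : cls η x ⊆ K := by
  intro y hy
  obtain ⟨w⟩ := mem_cls.1 hy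
  suffices ∀ {u v : Γ} (w : (SimpleGraph.fromEdgeSet (η : Set (Sym2 Γ))).Walk u v),
      u ∈ K → v ∈ K from this w hx
  intro u v w
  induction w with
  | nil => exact id
  | @cons a b c hadj _ ih =>
    intro ha
    obtain ⟨h1, h2⟩ := (SimpleGraph.fromEdgeSet_adj _).1 hadj
    exact ih (h a b ha h2 h1)

omit [Group Γ] in
theorem cls_step {η : Finset (Sym2 Γ)} {x a b : Γ} (ha : a ∈ cls η x) (hne : a ≠ b)
    (h : s(a, b) ∈ η) : b ∈ cls η x :=
  mem_cls.2 ((mem_cls.1 ha).trans (cl_edge hne h))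

omit [Group Γ] in
/-- The cluster only uses edges with both ends inside it. -/
theorem cls_subset_of_edges {η η' : Finset (Sym2 Γ)} {x : Γ}
    (h : ∀ a b, a ∈ cls η x → b ∈ cls η x → s(a, b) ∈ η → s(a, b) ∈ η') :
    cls η x ⊆ cls η' x := by
  intro y hy
  have h0 : cls η x ⊆ cls η x ∩ cls η' x := by
    refine cls_subset_closed (mem_inter.2 ⟨self_mem_cls _ _, self_mem_cls _ _⟩) ?_
    intro a b ha hne hab
    rw [mem_inter] at ha ⊢
    have hb := cls_step ha.1 hne hab
    exact ⟨hb, cls_step ha.2 hne (h a b ha.1 hb hab)⟩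
  exact (mem_inter.1 (h0 hy)).2

theorem mem_touch_of_end (hS : Gens S) {η : Finset (Sym2 Γ)} (hv : Valid S η) {C : Finset Γ}
    {a b : Γ} (ha : a ∈ C) (h : s(a, b) ∈ η) : s(a, b) ∈ touch (nb S) C := by
  obtain ⟨s, rfl⟩ := (hS.labelling.adj a b).1 (hv _ h)
  exact mem_touch ha s

theorem touch_ends {C : Finset Γ} {e : Sym2 Γ} (he : e ∈ touch (nb S) C) : ∃ v ∈ C, v ∈ e := by
  obtain ⟨⟨v, s⟩, hv, rfl⟩ := mem_image.1 he
  exact ⟨v, (mem_product.1 hv).1, Sym2.mem_mk_left _ _⟩

theorem touch_mono {C D : Finset Γ} (h : C ⊆ D) : touch (nb S) C ⊆ touch (nb S) D :=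
  image_subset_image (product_subset_product h (Subset.refl _))

theorem touch_union (C D : Finset Γ) :
    touch (nb S) (C ∪ D) = touch (nb S) C ∪ touch (nb S) D := by
  simp only [touch, union_product, image_union]

/-- A cluster is determined by the edges touching it. -/
theorem cls_congr_touch (hS : Gens S) {η η' : Finset (Sym2 Γ)} (hv : Valid S η)
    (hv' : Valid S η') {x : Γ}
    (h : η ∩ touch (nb S) (cls η x) = η' ∩ touch (nb S) (cls η x)) : cls η' x = cls η x := by
  refine Subset.antisymm (cls_subset_closed (self_mem_cls η x) fun a b ha hne hab => ?_)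
    (cls_subset_of_edges fun a b ha _ hab => ?_)
  · have : s(a, b) ∈ η ∩ touch (nb S) (cls η x) := by
      rw [h]; exact mem_inter.2 ⟨hab, mem_touch_of_end hS hv' ha hab⟩
    exact cls_step ha hne (mem_inter.1 this).1
  · have : s(a, b) ∈ η' ∩ touch (nb S) (cls η x) := by
      rw [← h]; exact mem_inter.2 ⟨hab, mem_touch_of_end hS hv ha hab⟩
    exact (mem_inter.1 this).1

variable (S) in
/-- Keep `η` on the edges touching `Z` and take `η'` elsewhere. -/
def mix (Z : Finset Γ) (η η' : Finset (Sym2 Γ)) : Finset (Sym2 Γ) :=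
  η ∩ touch (nb S) Z ∪ η' \ touch (nb S) Z

theorem mem_mix {Z : Finset Γ} {η η' : Finset (Sym2 Γ)} {e : Sym2 Γ} :
    e ∈ mix S Z η η' ↔ (e ∈ η ∧ e ∈ touch (nb S) Z) ∨ (e ∈ η' ∧ e ∉ touch (nb S) Z) := by
  simp [mix]

theorem mix_subset {Z : Finset Γ} {η η' E : Finset (Sym2 Γ)} (h : η ⊆ E) (h' : η' ⊆ E) :
    mix S Z η η' ⊆ E :=
  union_subset (inter_subset_left.trans h) (sdiff_subset.trans h')

theorem mix_inter_touch {Z Z' : Finset Γ} (h : Z' ⊆ Z) (η η' : Finset (Sym2 Γ)) :
    mix S Z η η' ∩ touch (nb S) Z' = η ∩ touch (nb S) Z' := by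
  ext e
  simp only [mem_inter, mem_mix]
  exact ⟨fun ⟨h1, h2⟩ => ⟨(h1.resolve_right fun h3 => h3.2 (touch_mono h h2)).1, h2⟩,
    fun ⟨h1, h2⟩ => ⟨Or.inl ⟨h1, touch_mono h h2⟩, h2⟩⟩

theorem mix_mix_left (Z : Finset Γ) (η η' : Finset (Sym2 Γ)) :
    mix S Z (mix S Z η η') (mix S Z η' η) = η := by
  ext e
  simp only [mem_mix]
  tauto

theorem cls_mix (hS : Gens S) {η η' : Finset (Sym2 Γ)} (hv : Valid S η) (hv' : Valid S η')
    {Z : Finset Γ} {x : Γ} (hZ : cls η x ⊆ Z) : cls (mix S Z η η') x = cls η x :=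
  cls_congr_touch hS hv (fun e he => by
    rcases mem_union.1 he with h | h
    · exact hv e (inter_subset_left h)
    · exact hv' e (sdiff_subset h)) (mix_inter_touch hZ η η').symm

/-- The exchange off a set of explored clusters preserves the law of an independent pair. -/
theorem avg_swap (E : Finset (Sym2 Γ)) (p : ℝ) (Z : Finset (Sym2 Γ) → Finset Γ)
    (hZ : ∀ η η', η ⊆ E → η' ⊆ E → Z (mix S (Z η) η η') = Z η)
    (F : Finset (Sym2 Γ) → Finset (Sym2 Γ) → ℝ) :
    avg E p (fun η => avg E p fun η' => F (mix S (Z η) η η') (mix S (Z η) η' η))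
      = avg E p (fun η => avg E p (F η)) := by
  simp only [avg, mul_sum]
  rw [← sum_product', ← sum_product']
  refine sum_nbij' (fun q => (mix S (Z q.1) q.1 q.2, mix S (Z q.1) q.2 q.1))
    (fun q => (mix S (Z q.1) q.1 q.2, mix S (Z q.1) q.2 q.1)) ?_ ?_ ?_ ?_ ?_
  · intro q hq
    simp only [mem_product, mem_powerset] at hq ⊢
    exact ⟨mix_subset hq.1 hq.2, mix_subset hq.2 hq.1⟩
  · intro q hq
    simp only [mem_product, mem_powerset] at hq ⊢
    exact ⟨mix_subset hq.1 hq.2, mix_subset hq.2 hq.1⟩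
  · intro q hq
    simp only [mem_product, mem_powerset] at hq
    simp only [hZ _ _ hq.1 hq.2, mix_mix_left, Prod.mk.eta]
  · intro q hq
    simp only [mem_product, mem_powerset] at hq
    simp only [hZ _ _ hq.1 hq.2, mix_mix_left, Prod.mk.eta]
  · intro q hq
    simp only [mem_product, mem_powerset] at hq
    obtain ⟨η, η'⟩ := q
    set T := touch (nb S) (Z η)
    have hd : ∀ A B : Finset (Sym2 Γ), Disjoint (A ∩ T) (B \ T) := fun A B =>
      disjoint_left.2 fun e h1 h2 => (mem_sdiff.1 h2).2 (mem_inter.1 h1).2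
    have c1 : (mix S (Z η) η η').card = (η ∩ T).card + (η' \ T).card := card_union_of_disjoint (hd _ _)
    have c2 : (mix S (Z η) η' η).card = (η' ∩ T).card + (η \ T).card := card_union_of_disjoint (hd _ _)
    have e1 := card_inter_add_card_sdiff η T
    have e2 := card_inter_add_card_sdiff η' T
    have l1 := card_le_card hq.1
    have l2 := card_le_card hq.2
    have l3 := card_le_card (mix_subset (S := S) (Z := Z η) hq.1 hq.2)
    have l4 := card_le_card (mix_subset (S := S) (Z := Z η) hq.2 hq.1)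
    have hw : ∀ A B : Finset (Sym2 Γ), wt E p A * wt E p B
        = p ^ (A.card + B.card) * (1 - p) ^ (E.card - A.card + (E.card - B.card)) := by
      intro A B; simp only [wt, pow_add]; ring
    dsimp only at l1 l2 l3 l4 ⊢
    rw [← mul_assoc, ← mul_assoc, hw, hw,
      show (mix S (Z η) η η').card + (mix S (Z η) η' η).card = η.card + η'.card by omega,
      show E.card - (mix S (Z η) η η').card + (E.card - (mix S (Z η) η' η).card)
        = E.card - η.card + (E.card - η'.card) by omega]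

/-- Opening an edge costs a factor `(1 - p) / p`. -/
theorem avg_open {α : Type} [DecidableEq α] (E : Finset α) {p : ℝ} (h0 : 0 < p)
    (G : α → Finset α → ℝ) :
    avg E p (fun η => ∑ f ∈ E, ind (f ∉ η) * G f (insert f η))
      = (1 - p) / p * avg E p (fun η => ∑ f ∈ E, ind (f ∈ η) * G f η) := by
  rw [avg_sum, avg_sum, mul_sum]
  refine sum_congr rfl fun f hf => ?_
  rw [avg_edge hf, avg_edge hf]
  have a : avg (E.erase f) p (fun η => ind (f ∉ η) * G f (insert f η))
      = avg (E.erase f) p (fun η => G f (insert f η)) :=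
    avg_congr _ p fun η hη => by rw [ind_true fun h => notMem_erase f E (hη h), one_mul]
  have b : avg (E.erase f) p (fun η => ind (f ∈ η) * G f η) = 0 := by
    rw [avg_congr _ p (g := fun _ => 0) fun η hη => by
      rw [ind_false fun h => notMem_erase f E (hη h), zero_mul], avg_const]
  have c : avg (E.erase f) p (fun η => ind (f ∉ insert f η) * G f (insert f (insert f η))) = 0 := by
    rw [avg_congr _ p (g := fun _ => 0) fun η _ => by
      rw [ind_false fun h => h (mem_insert_self f η), zero_mul], avg_const]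
  have d : avg (E.erase f) p (fun η => ind (f ∈ insert f η) * G f (insert f η))
      = avg (E.erase f) p (fun η => G f (insert f η)) :=
    avg_congr _ p fun η _ => by rw [ind_true (mem_insert_self f η), one_mul]
  rw [a, b, c, d]
  field_simp
  ring

omit [Group Γ] in
theorem exit_edge {κ : Finset (Sym2 Γ)} {b : Γ} {m : ℕ} {f : Sym2 Γ}
    (hm : m ≤ csize κ b) (hlt : csize (κ.erase f) b < m) :
    ∃ i o, f = s(i, o) ∧ i ≠ o ∧ f ∈ κ ∧ i ∈ cls (κ.erase f) b ∧ o ∉ cls (κ.erase f) b ∧
      cls κ b = cls (κ.erase f) b ∪ cls (κ.erase f) o := by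
  have hout : ∃ i o, i ∈ cls (κ.erase f) b ∧ o ∉ cls (κ.erase f) b ∧ i ≠ o ∧ s(i, o) ∈ κ := by
    by_contra hc
    simp only [not_exists, not_and] at hc
    have : cls κ b ⊆ cls (κ.erase f) b :=
      cls_subset_closed (self_mem_cls _ _) fun a c ha hne hac =>
        by_contra fun h => hc a c ha h hne hac
    have := card_le_card this
    simp only [csize] at hm hlt
    omega
  obtain ⟨i, o, hi, ho, hne, hio⟩ := hout
  have hf : f = s(i, o) := by
    by_contra h
    exact ho (cls_step hi hne (mem_erase.2 ⟨fun hh => h hh.symm, hio⟩))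
  refine ⟨i, o, hf, hne, hf ▸ hio, hi, ho, ?_⟩
  rw [cls_eq (mem_cls.1 (cls_mono (erase_subset f κ) b hi)), cls_eq (mem_cls.1 hi)]
  conv_lhs => rw [← insert_erase (hf ▸ hio : f ∈ κ), hf, cls_insert hne]
  rw [hf]

omit [Group Γ] in
/-- Few edges cut a large cluster leaving a small part at a given point. -/
theorem card_cut_le {κ : Finset (Sym2 Γ)} {b : Γ} {m : ℕ} (hm : 2 * m ≤ csize κ b) :
    (κ.filter fun f => csize (κ.erase f) b < m).card ≤ m := by
  have hinj : ∀ f ∈ κ.filter (fun f => csize (κ.erase f) b < m),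
      ∀ g ∈ κ.filter (fun f => csize (κ.erase f) b < m),
      csize (κ.erase f) b = csize (κ.erase g) b → f = g := by
    intro f hf g hg heq
    rw [mem_filter] at hf hg
    by_contra hfg
    obtain ⟨i, o, hfe, hio, hfk, hi, ho, hunion⟩ := exit_edge (by omega) hf.2
    obtain ⟨j, k, hge, hjk, -, hj, hk, -⟩ := exit_edge (by omega) hg.2
    set A := cls (κ.erase f) b with hA
    set B := cls (κ.erase g) b with hB
    have hcard : A.card = B.card := heq
    -- an edge other than `f` with one end in `A` has both ends in `A`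
    have hclA : ∀ u v, u ∈ A → u ≠ v → s(u, v) ∈ κ → s(u, v) ≠ f → v ∈ A := fun u v hu hne h hf' =>
      cls_step hu hne (mem_erase.2 ⟨hf', h⟩)
    have hclB : ∀ u v, u ∈ B → u ≠ v → s(u, v) ∈ κ → s(u, v) ≠ g → v ∈ B := fun u v hu hne h hg' =>
      cls_step hu hne (mem_erase.2 ⟨hg', h⟩)
    have hsame : A ≠ B := by
      intro hAB
      refine hk (cls_step hj hjk (mem_erase.2 ⟨fun h => ?_, hge ▸ hg.1⟩))
      exact hk (hAB ▸ hclA j k (hAB ▸ hj) hjk (hge ▸ hg.1) fun h' => hfg (h'.symm.trans h))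
    by_cases hiB : i ∈ B
    swap
    · refine hsame (eq_of_subset_of_card_le ?_ hcard.le).symm
      refine cls_subset_of_edges fun u v hu hv h => mem_erase.2 ⟨fun h' => ?_, (mem_erase.1 h).2⟩
      rw [hfe, Sym2.eq_iff] at h'
      rcases h' with ⟨rfl, rfl⟩ | ⟨rfl, rfl⟩
      · exact hiB hu
      · exact hiB hv
    have hoB : o ∈ B := hclB i o hiB hio (hfe ▸ hfk) fun h => hfg (hfe.trans h)
    by_cases hjA : j ∈ A
    · have hkA : k ∈ A := hclA j k hjA hjk (hge ▸ hg.1) fun h => hfg (h.symm.trans hge.symm)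
      have hsub : cls (κ.erase f) o ⊆ B := by
        rw [hB, cls_eq (mem_cls.1 hoB)]
        refine cls_subset_of_edges fun u v hu _ h => mem_erase.2 ⟨fun h' => ?_, (mem_erase.1 h).2⟩
        have hd : u ∉ A := fun hh => ho (mem_cls.2 ((mem_cls.1 hh).trans (mem_cls.1 hu).symm))
        rw [hge, Sym2.eq_iff] at h'
        rcases h' with ⟨rfl, -⟩ | ⟨rfl, -⟩
        · exact hd hjA
        · exact hd hkA
      have h1 := card_le_card hsub
      have h2 := card_union_le A (cls (κ.erase f) o)
      rw [← hunion] at h2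
      simp only [csize] at hm
      have h3 : B.card < m := hg.2
      omega
    · refine hsame (eq_of_subset_of_card_le ?_ hcard.ge)
      refine cls_subset_of_edges fun u v hu hv h => mem_erase.2 ⟨fun h' => ?_, (mem_erase.1 h).2⟩
      rw [hge, Sym2.eq_iff] at h'
      rcases h' with ⟨rfl, -⟩ | ⟨-, rfl⟩
      · exact hjA hu
      · exact hjA hv
  calc _ ≤ (range m).card := card_le_card_of_injOn (fun f => csize (κ.erase f) b)
        (fun f hf => mem_coe.2 (mem_range.2 (mem_filter.1 hf).2)) hinj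
    _ = m := card_range m

end Vale.Agent.P151
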