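import Vale.Agent.P151.Growth.Criterion
import Vale.Agent.P151.Growth.Thin

/-!
# A witness scale below the critical point

If the cluster tail stays above `θ` at `pc`, then slightly below `pc` there is a scale `D` at
which every point within distance `base * D` of the identity lies in its cluster, of at most
`2 ^ (Λ D)` vertices, with probability at least `exp (-C D ^ η)`.
-/

namespace Vale.Agent.P151.Growth

open Finset Filter Vale.Agent.P165 Real

/-- A squaring recursion loses at most a double exponential. -/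
theorem pow_two_pow_le {u : ℕ → ℝ} {c : ℝ} (hc : 0 ≤ c) (h0 : c ≤ u 0) :
    ∀ i : ℕ, (∀ k < i, u k ^ 2 ≤ u (k + 1)) → c ^ (2 ^ i) ≤ u i
  | 0, _ => by simpa using h0
  | i + 1, h => by
      have ih := pow_two_pow_le hc h0 i fun k hk => h k (by omega)
      refine le_trans ?_ (h i (by omega))
      rw [pow_succ 2 i, pow_mul]
      exact pow_le_pow_left₀ (pow_nonneg hc _) ih 2

variable {Γ : Type} [Group Γ] [DecidableEq Γ] {S : Finset Γ}

/-- Harris' inequality at two points: both clusters large and not small in common means apart. -/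
theorem sq_tail_le (hS : Gens S) {q : ℝ} (h0 : 0 ≤ q) (h1 : q ≤ 1) {n N r : ℕ} {A : ℝ}
    (hA : ApartLe S q n r A) {z : Γ} (hz : z ∈ ball S r) :
    tail S q n ^ 2 ≤ A + capConn S q N z + tail S q N := by
  obtain ⟨M, hM, hA'⟩ := ((eventually_ge_atTop (r + n + N + 1)).and (hA 0)).exists
  set E := eball S (1 : Γ) M with hE
  have hv : Valid S E := valid_eball hS (Subset.refl _)
  have h1m : (1 : Γ) ∈ ball S 0 := one_mem_ball 0
  have hh := harris E h0 h1 (monotone_big n (1 : Γ)) (monotone_big n z)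
  rw [tail_eq hS hv (eball_one h1m (by omega)), tail_eq hS hv (eball_one hz (by omega)), ← sq] at hh
  refine hh.trans ((avg_mono E h0 h1 (g := fun η => ind (Apart n η 1 z)
      + (ind (1 * z ∈ cls η 1 ∧ csize η 1 ≤ N) + ind (N ≤ csize η 1))) fun η _ => ?_).trans ?_)
  · have n1 := ind_nonneg (Apart n η 1 z)
    have n2 := ind_nonneg (1 * z ∈ cls η 1 ∧ csize η 1 ≤ N)
    have n3 := ind_nonneg (N ≤ csize η 1)
    rw [← ind_and]
    by_cases hb : n ≤ csize η 1 ∧ n ≤ csize η z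
    swap
    · rw [ind_false hb]; linarith
    rw [ind_true hb]
    by_cases hzc : z ∈ cls η 1
    · rcases le_total (csize η 1) N with hN | hN
      · rw [ind_true (show 1 * z ∈ cls η 1 ∧ csize η 1 ≤ N from ⟨by rwa [one_mul], hN⟩)]
        linarith
      · rw [ind_true hN]
        linarith
    · rw [ind_true (show Apart n η 1 z from ⟨hzc, hb.1, hb.2⟩)]
      linarith
  · rw [avg_add, avg_add, capConn_eq hS q h1m (by omega) z,
      tail_eq hS hv (eball_one h1m (by omega)), ← add_assoc]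
    have := hA' 1 h1m z (by simpa using hz)
    linarith

/-- A witness scale slightly below `pc`. -/
theorem witness (hS : Gens S) [Infinite Γ] (hc : (cayley S).Connected) (hpc : pc (cayley S) < 1)
    {θ η : ℝ} (hθ : 0 < θ) (hθn : ∀ n, θ ≤ tail S (pc (cayley S)) n) (hη : 0 < η) (hη1 : η < 1) :
    ∃ (Λ : ℕ) (C : ℝ) (J₀ : ℕ), 2 ≤ Λ ∧ 0 < C ∧ ∀ j₁ ≥ J₀, ∃ D ≥ j₁,
      ∀ z ∈ ball S ⌊base S * D⌋₊, exp (-C * (D : ℝ) ^ η) ≤
        capConn S (pc (cayley S) * (1 - (2 : ℝ)⁻¹ ^ j₁ / 4)) (2 ^ (Λ * D)) z := by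
  set P := pc (cayley S) with hP
  have hpc0 : 0 < P := pc_pos hS hc
  have hθ1 : θ ≤ 1 := (hθn 0).trans (tail_le_one hpc0.le hpc.le 0)
  set a := log (4 / θ) with ha
  have ha0 : 0 < a := log_pos (by rw [lt_div_iff₀ hθ]; linarith)
  have hexpa : exp (-a) = θ / 4 := by
    rw [exp_neg, ha, exp_log (by positivity), inv_div]
  set Λ := ⌈(2 : ℝ) ^ (1 / η)⌉₊ with hΛ
  have hΛ2 : (2 : ℝ) < Λ := by
    refine lt_of_lt_of_le ?_ (Nat.le_ceil _)
    conv_lhs => rw [← rpow_one 2]
    exact rpow_lt_rpow_of_exponent_lt one_lt_two ((one_lt_div hη).2 hη1)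
  have hΛ3 : 3 ≤ Λ := by exact_mod_cast hΛ2
  have hΛη : (2 : ℝ) ≤ (Λ : ℝ) ^ η := by
    refine le_trans (le_of_eq ?_) (rpow_le_rpow (by positivity) (Nat.le_ceil _) hη.le)
    rw [← rpow_mul zero_le_two, one_div, inv_mul_cancel₀ hη.ne', rpow_one]
  -- the error of short gluing is negligible
  have E1 : ∀ᶠ x : ℝ in atTop, 9 * ghostU S * x ^ 1 * exp (-(1 / 10) * x ^ (1 : ℝ)) ≤ 1 :=
    eventually_pow_exp _ _ (by norm_num) one_pos
  have E2 : ∀ᶠ x : ℝ in atTop, 20 * a ≤ x ^ (1 - η) ∧ 1 ≤ x :=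
    ((tendsto_rpow_atTop (sub_pos.2 hη1)).eventually_ge_atTop _).and (eventually_ge_atTop 1)
  obtain ⟨J₀, hJ₀⟩ := eventually_atTop.1 (tendsto_natCast_atTop_atTop.eventually (E1.and E2))
  refine ⟨Λ, 2 * a, J₀ + 1, by omega, by positivity, fun j₁ hj₁ => ?_⟩
  set q := P * (1 - (2 : ℝ)⁻¹ ^ j₁ / 4) with hq
  have hx0 : (0 : ℝ) < 2⁻¹ ^ j₁ := by positivity
  have hx1 : (2 : ℝ)⁻¹ ^ j₁ ≤ 1 := pow_le_one₀ (by norm_num) (by norm_num)
  have hr0 : 0 ≤ 1 - (2 : ℝ)⁻¹ ^ j₁ / 4 := by linarith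
  have hqP : q < P := mul_lt_of_lt_one_right hpc0 (by linarith)
  have hq2 : P / 2 ≤ q := by
    rw [hq]; nlinarith
  have hq0 : 0 < q := by linarith
  have hq1 : q ≤ 1 := hqP.le.trans hpc.le
  -- the scales
  set sc : ℕ → ℕ := fun i => Λ ^ i * j₁ with hsc
  set u : ℕ → ℝ := fun i => tail S q (2 ^ sc i) / 2 with hu
  have hu0 : θ / 4 ≤ u 0 := by
    have hth := tail_thin (S := S) hpc0.le hpc.le hr0 (by linarith : 1 - (2 : ℝ)⁻¹ ^ j₁ / 4 ≤ 1)
      (2 ^ j₁)
    rw [← hq] at hth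
    have hb := one_add_mul_le_pow (a := -((2 : ℝ)⁻¹ ^ j₁ / 4)) (by linarith) (2 ^ j₁)
    have e : ((2 ^ j₁ : ℕ) : ℝ) * (2 : ℝ)⁻¹ ^ j₁ = 1 := by
      push_cast; rw [← mul_pow]; norm_num
    rw [← sub_eq_add_neg] at hb
    have h2 : 3 / 4 * θ ≤ tail S q (2 ^ j₁) := by
      refine le_trans ?_ hth
      exact mul_le_mul (by nlinarith) (hθn _) hθ.le (pow_nonneg hr0 _)
    simp only [hu, hsc, pow_zero, one_mul]
    linarith
  have hgood : ∃ i, tail S q (2 ^ sc (i + 1)) ≤ tail S q (2 ^ sc i) ^ 2 / 2 := by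
    by_contra hno
    push Not at hno
    have hall : ∀ i, (θ / 4) ^ (2 ^ i) ≤ u i := fun i =>
      pow_two_pow_le (by positivity) hu0 i fun k _ => by
        have := hno k
        simp only [hu]; nlinarith
    obtain ⟨C', δ, hδ, hdec⟩ := decay_below hS hc hq0 hqP
    set d := δ * log 2 with hd
    have hd0 : 0 < d := mul_pos hδ (log_pos one_lt_two)
    have F1 : ∀ᶠ i : ℕ in atTop, a * (2 / 3 : ℝ) ^ i ≤ d / 2 := by
      have h := (tendsto_pow_atTop_nhds_zero_of_lt_one (show (0 : ℝ) ≤ 2 / 3 by norm_num)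
        (by norm_num)).const_mul a
      rw [mul_zero] at h
      exact h.eventually (eventually_le_nhds (half_pos hd0))
    have F2 : ∀ᶠ i : ℕ in atTop, C' < d / 2 * (3 : ℝ) ^ i :=
      ((tendsto_pow_atTop_atTop_of_one_lt (by norm_num : (1 : ℝ) < 3)).const_mul_atTop
        (half_pos hd0)).eventually_gt_atTop _
    obtain ⟨i, f1, f2⟩ := (F1.and F2).exists
    have h3 : (3 : ℝ) ^ i ≤ (sc i : ℝ) := by
      have : 3 ^ i ≤ sc i :=
        (Nat.pow_le_pow_left hΛ3 i).trans (Nat.le_mul_of_pos_right _ (by omega))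
      exact_mod_cast this
    have h4 : a * 2 ^ i ≤ d / 2 * (3 : ℝ) ^ i := by
      have h := mul_le_mul_of_nonneg_right f1 (show (0 : ℝ) ≤ 3 ^ i by positivity)
      rwa [div_pow, mul_assoc, div_mul_cancel₀ _ (by positivity : (3 : ℝ) ^ i ≠ 0)] at h
    have hlow : exp (-(a * 2 ^ i)) ≤ u i := by
      refine le_trans (le_of_eq ?_) (hall i)
      rw [← hexpa, ← exp_nat_mul]; push_cast; ring_nf
    have hup : u i ≤ C' * exp (-(d * sc i)) := by
      have h := hdec (2 ^ sc i) Nat.one_le_two_pow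
      have e : ((2 ^ sc i : ℕ) : ℝ) ^ (-δ) = exp (-(d * sc i)) := by
        push_cast
        rw [← rpow_natCast, ← rpow_mul zero_le_two, rpow_def_of_pos two_pos, hd]
        ring_nf
      rw [e] at h
      have := tail_nonneg (S := S) hq0.le hq1 (2 ^ sc i)
      simp only [hu]; linarith
    have h5 : d * 3 ^ i ≤ d * sc i := mul_le_mul_of_nonneg_left h3 hd0.le
    have hC0 : 0 < C' := by
      have h := (exp_pos _).trans_le (hlow.trans hup)
      exact pos_of_mul_pos_left h (exp_pos _).le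
    have h6 : exp (-(a * 2 ^ i)) ≤ C' * exp (-(d * sc i)) := hlow.trans hup
    rw [exp_neg (d * _), ← div_eq_mul_inv, le_div_iff₀ (exp_pos _), ← exp_add] at h6
    linarith [add_one_le_exp (-(a * 2 ^ i) + d * sc i)]
  classical
  set i := Nat.find hgood with hi
  have hgi := Nat.find_spec hgood
  rw [← hi] at hgi
  have hui : (θ / 4) ^ (2 ^ i) ≤ u i := pow_two_pow_le (by positivity) hu0 i fun k hk => by
    have := Nat.find_min hgood hk
    simp only [hu]; nlinarith
  refine ⟨sc i, Nat.le_mul_of_pos_left _ (pow_pos (by omega) _), fun z hz => ?_⟩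
  set D := sc i with hD
  set x := (D : ℝ) with hx
  have hDj : j₁ ≤ D := Nat.le_mul_of_pos_left _ (pow_pos (by omega) _)
  obtain ⟨e1, e2, e3⟩ := hJ₀ D (by omega)
  rw [pow_one, rpow_one] at e1
  have hxpos : 0 < x := by linarith
  have hlow : 2 * exp (-(a * x ^ η)) ≤ tail S q (2 ^ D) := by
    have h2i : (2 : ℝ) ^ i ≤ x ^ η := by
      rw [hx, hD, hsc]
      push_cast
      rw [mul_rpow (by positivity) (Nat.cast_nonneg _), ← rpow_natCast (Λ : ℝ) i,
        ← rpow_mul (Nat.cast_nonneg _), mul_comm (i : ℝ), rpow_mul (Nat.cast_nonneg _), rpow_natCast]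
      refine (pow_le_pow_left₀ zero_le_two hΛη i).trans (le_mul_of_one_le_right (by positivity) ?_)
      exact one_le_rpow (by exact_mod_cast (show 1 ≤ j₁ by omega)) hη.le
    have h' : exp (-(a * x ^ η)) ≤ u i := by
      refine le_trans ?_ hui
      rw [← hexpa, ← exp_nat_mul]
      refine exp_le_exp.2 ?_
      push_cast
      nlinarith [mul_le_mul_of_nonneg_left h2i ha0.le]
    simp only [hu, ← hD] at h'
    linarith
  have hA := apartLe_short hS hc hpc hq2 hqP (j := D) (r := ⌊base S * x⌋₊) (by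
    have hb := base_pos (S := S) rfl hpc0 hpc.le
    have := Nat.floor_le (mul_nonneg hb.le hxpos.le)
    nlinarith [mul_nonneg hb.le hxpos.le])
  have hkey := sq_tail_le hS hq0.le hq1 (N := 2 ^ (Λ * D)) hA hz
  have hgi' : tail S q (2 ^ (Λ * D)) ≤ tail S q (2 ^ D) ^ 2 / 2 := by
    have e : sc (i + 1) = Λ * D := by simp only [hD, hsc, pow_succ]; ring
    rwa [e] at hgi
  have hsq : 4 * exp (-(2 * a) * x ^ η) ≤ tail S q (2 ^ D) ^ 2 := by
    refine le_trans (le_of_eq ?_) (pow_le_pow_left₀ (by positivity) hlow 2)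
    rw [mul_pow, ← exp_nat_mul]
    norm_num
    ring_nf
  have herr : 9 * ghostU S * x * exp (-x / 5) ≤ exp (-(2 * a) * x ^ η) := by
    have hxx : x ^ η * x ^ (1 - η) = x := by
      rw [← rpow_add hxpos, add_sub_cancel, rpow_one]
    have hsmall : 20 * a * x ^ η ≤ x := by
      have := mul_le_mul_of_nonneg_left e2 (rpow_nonneg hxpos.le η)
      rw [hxx] at this
      linarith
    calc 9 * ghostU S * x * exp (-x / 5)
        = 9 * ghostU S * x * exp (-(1 / 10) * x) * exp (-(1 / 10) * x) := by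
          rw [mul_assoc _ (exp _) (exp _), ← exp_add]; ring_nf
      _ ≤ 1 * exp (-(1 / 10) * x) := mul_le_mul_of_nonneg_right e1 (exp_pos _).le
      _ ≤ _ := by rw [one_mul]; exact exp_le_exp.2 (by linarith)
  linarith

end Vale.Agent.P151.Growth
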